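import Mathlib

/-!
Helper for P043: the dilation lemma for linear equations with integer coefficients.
-/

namespace Vale.Agent.P043.Rows

open Finset

variable {G ι : Type*} [AddCommGroup G] [Fintype ι]

/-- Translation of functions, as a homomorphism to endomorphisms. -/
noncomputable def transl (G : Type*) [AddCommGroup G] (p : ℕ) :
    Multiplicative G →* Module.End (ZMod p) (G → ZMod p) where
  toFun g := LinearMap.funLeft (ZMod p) (ZMod p) fun x : G => x - g.toAdd
  map_one' := by
    refine LinearMap.ext fun a => funext fun x => ?_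
    simp [LinearMap.funLeft_apply]
  map_mul' g h := by
    refine LinearMap.ext fun a => funext fun x => ?_
    simp [LinearMap.funLeft_apply, Module.End.mul_apply, sub_sub]

/-- The dilation lemma modulo a prime. -/
theorem sum_dilate_prime (p : ℕ) [Fact p.Prime] (c : ι → ℤ) (v : ι → G) (a : G → ℤ) (κ : ℤ)
    (h : ∀ x, ∑ i, c i * a (x - v i) = κ) (x : G) :
    ((∑ i, c i * a (x - p • v i) : ℤ) : ZMod p) = ((∑ i, c i : ℤ) : ZMod p) ^ (p - 1) * κ := by
  classical
  have hp : p.Prime := Fact.out
  set act := AddMonoidAlgebra.lift (ZMod p) (Module.End (ZMod p) (G → ZMod p)) G (transl G p)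
    with hact
  have : CharP (AddMonoidAlgebra (ZMod p) G) p :=
    charP_of_injective_algebraMap
      (R := ZMod p) (A := AddMonoidAlgebra (ZMod p) G) (FaithfulSMul.algebraMap_injective _ _) p
  set S : AddMonoidAlgebra (ZMod p) G := ∑ i, AddMonoidAlgebra.single (v i) (c i : ZMod p) with hS
  set α : G → ZMod p := fun y => (a y : ZMod p) with hα
  have happ : ∀ (w : G) (r : ZMod p) (f : G → ZMod p) (y : G),
      act (AddMonoidAlgebra.single w r) f y = r * f (y - w) := fun w r f y => by
    simp [hact, AddMonoidAlgebra.lift_single, transl, LinearMap.funLeft_apply]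
  have hSα : act S α = fun _ => (κ : ZMod p) := by
    funext y
    rw [hS, map_sum, LinearMap.sum_apply, Finset.sum_apply]
    simp only [happ, hα, ← h y, Int.cast_sum, Int.cast_mul]
  have hconst : ∀ r : ZMod p, act S (fun _ => r) = fun _ => ((∑ i, c i : ℤ) : ZMod p) * r := by
    intro r
    funext y
    rw [hS, map_sum, LinearMap.sum_apply, Finset.sum_apply]
    simp only [happ, Int.cast_sum, Finset.sum_mul]
  have hpow : ∀ n : ℕ, act (S ^ (n + 1)) α =
      fun _ => ((∑ i, c i : ℤ) : ZMod p) ^ n * (κ : ZMod p) := by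
    intro n
    induction n with
    | zero => simp [hSα]
    | succ m ih =>
      rw [pow_succ', map_mul, Module.End.mul_apply, ih, hconst]
      funext y
      ring
  have h1 := congrFun (hpow (p - 1)) x
  rw [Nat.sub_add_cancel hp.one_le, hS, sum_pow_char, map_sum, LinearMap.sum_apply,
    Finset.sum_apply] at h1
  simp only [AddMonoidAlgebra.single_pow, happ, ZMod.pow_card] at h1
  rw [← h1]
  simp [hα]

/-- The dilation lemma: if the combination is constant, so is every dilated one, as long as the
prime factors of the dilation exceed the bound. -/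
theorem sum_dilate (c : ι → ℤ) (v : ι → G) (a : G → ℤ) (κ : ℤ) (B : ℕ)
    (hB : ∀ w : ι → G, ∀ x, |(∑ i, c i * a (x - w i)) - κ| < B)
    (hκ : ∀ p : ℕ, p.Prime → B ≤ p → ((∑ i, c i : ℤ) : ZMod p) ^ (p - 1) * κ = κ)
    (h : ∀ x, ∑ i, c i * a (x - v i) = κ) (r : ℕ)
    (hr : ∀ p : ℕ, p.Prime → p ∣ r → B ≤ p) (hr0 : r ≠ 0) :
    ∀ x, ∑ i, c i * a (x - r • v i) = κ := by
  induction r using Nat.recOnMul generalizing v with
  | zero => exact absurd rfl hr0
  | one => simpa using h
  | prime p hp =>
    have := Fact.mk hp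
    intro x
    have hB' := hr p hp dvd_rfl
    have h1 := sum_dilate_prime p c v a κ h x
    rw [hκ p hp hB', ZMod.intCast_eq_intCast_iff_dvd_sub] at h1
    have h2 := Int.eq_zero_of_abs_lt_dvd h1
      (by rw [abs_sub_comm]; exact lt_of_lt_of_le (hB _ x) (by exact_mod_cast hB'))
    linarith
  | mul r s ihr ihs =>
    intro x
    have hs := ihs v h (fun p hp hd => hr p hp (hd.mul_left r)) (right_ne_zero_of_mul hr0)
    have := ihr (fun i => s • v i) hs (fun p hp hd => hr p hp (hd.mul_right s))
      (left_ne_zero_of_mul hr0) x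
    simpa [mul_smul] using this

end Vale.Agent.P043.Rows
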