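import Mathlib

/-!
Helper for P043: sequences whose iterated difference is integral are periodic modulo one, as soon
as they are integral infinitely often or are bounded and finally annihilated by the difference.
-/

namespace Vale.Agent.P043.Rows

open Finset Polynomial

/-- An integer value. -/
def IsI (t : ℝ) : Prop := ∃ z : ℤ, t = z

theorem IsI.sub {s t : ℝ} : IsI s → IsI t → IsI (s - t) := fun ⟨a, ha⟩ ⟨b, hb⟩ =>
  ⟨a - b, by push_cast [ha, hb]; rfl⟩

theorem IsI.add {s t : ℝ} : IsI s → IsI t → IsI (s + t) := fun ⟨a, ha⟩ ⟨b, hb⟩ =>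
  ⟨a + b, by push_cast [ha, hb]; rfl⟩

theorem IsI.neg {t : ℝ} : IsI t → IsI (-t) := fun ⟨a, ha⟩ => ⟨-a, by push_cast [ha]; rfl⟩

theorem isI_zero : IsI 0 := ⟨0, by simp⟩

theorem IsI.sum {ι : Type*} {s : Finset ι} {f : ι → ℝ} (h : ∀ i ∈ s, IsI (f i)) :
    IsI (∑ i ∈ s, f i) := Finset.sum_induction _ IsI (fun _ _ => IsI.add) isI_zero h

/-- Periodic modulo one. -/
def Per1 (g : ℤ → ℝ) : Prop := ∃ L : ℕ, 0 < L ∧ ∀ n : ℤ, IsI (g (n + L) - g n)

theorem Per1.mul {g : ℤ → ℝ} {L : ℕ} (h : ∀ n : ℤ, IsI (g (n + L) - g n)) :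
    ∀ (k n : ℤ), IsI (g (n + k * L) - g n) := by
  intro k
  induction k using Int.induction_on with
  | zero => intro n; simp [isI_zero]
  | succ i ih =>
    intro n
    have := (h (n + i * L)).add (ih n)
    rwa [add_assoc, show (i : ℤ) * L + L = (i + 1) * L by ring, sub_add_sub_cancel] at this
  | pred i ih =>
    intro n
    have := (ih n).sub (h (n + (-(i : ℤ) - 1) * L))
    rwa [add_assoc, show (-(i : ℤ) - 1) * L + L = -(i : ℤ) * L by ring,
      sub_sub_sub_cancel_left, ] at this

theorem integral_of_initial : ∀ (r : ℕ) (u : ℤ → ℝ), (∀ n, IsI ((fwdDiff 1)^[r] u n)) →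
    (∀ k < r, IsI (u (k : ℕ))) → ∀ n, IsI (u n) := by
  intro r
  induction r with
  | zero => intro u h _ n; simpa using h n
  | succ r ih =>
    intro u h h0
    have hd : ∀ n, IsI (fwdDiff 1 u n) := ih (fwdDiff 1 u)
      (fun n => by simpa only [Function.iterate_succ_apply] using h n)
      (fun k hk => by
        have := (h0 (k + 1) (by omega)).sub (h0 k (by omega))
        simpa [fwdDiff] using this)
    intro n
    induction n using Int.induction_on with
    | zero => simpa using h0 0 (Nat.succ_pos r)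
    | succ i hi =>
      have := (hd i).add hi
      simpa [fwdDiff] using this
    | pred i hi =>
      have := hi.sub (hd (-(i : ℤ) - 1))
      simpa [fwdDiff] using this

/-- A polynomial taking integer values at more integers than its degree has rational coefficients,
and so is periodic modulo one. -/
theorem per1_eval {r : ℕ} (P : ℝ[X]) (hP : P.degree < r) (N : Finset ℤ) (hN : N.card = r)
    (hint : ∀ n ∈ N, IsI (P.eval (n : ℝ))) : Per1 fun n => P.eval (n : ℝ) := by
  classical
  choose z hz using hint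
  set Q : ℚ[X] := Lagrange.interpolate N (fun n : ℤ => (n : ℚ))
    fun n => if h : n ∈ N then (z n h : ℚ) else 0 with hQdef
  have hinjQ : Set.InjOn (fun n : ℤ => (n : ℚ)) N := fun a _ b _ h => Int.cast_inj.1 h
  have hQd : Q.degree < r := hN ▸ Lagrange.degree_interpolate_lt _ hinjQ
  have hPQ : P = Q.map (algebraMap ℚ ℝ) := by
    refine Polynomial.eq_of_degrees_lt_of_eval_index_eq (s := N) (v := fun n : ℤ => (n : ℝ))
      (fun a _ b _ h => Int.cast_inj.1 h) (hN ▸ hP) ?_ fun n hn => ?_
    · rw [hN, degree_map_eq_of_injective (algebraMap ℚ ℝ).injective]; exact hQd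
    · have he : Q.eval (n : ℚ) = (z n hn : ℚ) := by
        rw [hQdef, Lagrange.eval_interpolate_at_node (v := fun n : ℤ => (n : ℚ)) _ hinjQ hn,
          dif_pos hn]
      rw [show ((n : ℝ)) = algebraMap ℚ ℝ (n : ℚ) by simp, eval_map_apply, he]
      simpa using hz n hn
  set D : ℕ := ∏ k ∈ range (Q.natDegree + 1), (Q.coeff k).den with hD
  refine ⟨D, Finset.prod_pos fun k _ => Rat.den_pos _, fun n => ?_⟩
  simp only [hPQ]
  rw [show (((n + D : ℤ)) : ℝ) = algebraMap ℚ ℝ ((n + D : ℤ) : ℚ) by simp,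
    show ((n : ℝ)) = algebraMap ℚ ℝ (n : ℚ) by simp, eval_map_apply, eval_map_apply, ← map_sub,
    eval_eq_sum_range, eval_eq_sum_range, ← sum_sub_distrib]
  rw [map_sum]
  refine IsI.sum fun k hk => ?_
  obtain ⟨c, hc⟩ : ((Q.coeff k).den : ℤ) ∣ (n + D) ^ k - n ^ k :=
    dvd_trans (Int.natCast_dvd_natCast.2
      (hD ▸ Finset.dvd_prod_of_mem (fun k => (Q.coeff k).den) hk))
      (by simpa using sub_dvd_pow_sub_pow (n + D : ℤ) n k)
  refine ⟨(Q.coeff k).num * c, ?_⟩
  have e : ((n + D : ℤ) : ℚ) ^ k - (n : ℚ) ^ k = ((Q.coeff k).den : ℚ) * c := by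
    exact_mod_cast hc
  rw [← mul_sub, e, ← mul_assoc, Rat.mul_den_eq_num]
  simp

theorem fwdDiff_iter_cast (φ : ℝ → ℝ) (r : ℕ) : ∀ n : ℤ,
    (fwdDiff 1)^[r] (fun k : ℤ => φ k) n = (fwdDiff 1)^[r] φ n := by
  induction r with
  | zero => intro n; rfl
  | succ r ih =>
    intro n
    simp only [Function.iterate_succ_apply']
    simp only [fwdDiff, ih, Int.cast_add, Int.cast_one]

theorem fwdDiff_iter_sub (u v : ℤ → ℝ) (r : ℕ) : ∀ n,
    (fwdDiff 1)^[r] (u - v) n = (fwdDiff 1)^[r] u n - (fwdDiff 1)^[r] v n := by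
  induction r with
  | zero => intro n; rfl
  | succ r ih =>
    intro n
    simp only [Function.iterate_succ_apply']
    simp only [fwdDiff, ih]
    ring

/-- Integral differences and infinitely many integer values give periodicity modulo one. -/
theorem per1_of_infinite {r : ℕ} {g : ℤ → ℝ} (h : ∀ n, IsI ((fwdDiff 1)^[r] g n))
    (hinf : {n : ℤ | IsI (g n)}.Infinite) : Per1 g := by
  classical
  set P : ℝ[X] := Lagrange.interpolate (range r) (fun k : ℕ => (k : ℝ)) fun k => g (k : ℕ) with hP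
  have hinj : Set.InjOn (fun k : ℕ => (k : ℝ)) (range r) := fun a _ b _ e => Nat.cast_inj.1 e
  have hdeg : P.degree < r :=
    (Lagrange.degree_interpolate_lt (s := range r) _ hinj).trans_eq (by simp)
  have hzero : ∀ n : ℤ, (fwdDiff 1)^[r] (fun k : ℤ => P.eval (k : ℝ)) n = 0 := by
    intro n
    rw [fwdDiff_iter_cast (fun t => P.eval t)]
    rcases eq_or_ne P 0 with hP0 | hP0
    · rw [hP0]
      have hz : ∀ r' : ℕ, (fwdDiff 1)^[r'] (fun _ : ℝ => (0 : ℝ)) = fun _ => 0 := fun r' => by
        induction r' with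
        | zero => rfl
        | succ r' ih => rw [Function.iterate_succ_apply', ih]; funext t; simp [fwdDiff]
      simp only [eval_zero, hz]
    · rw [Polynomial.fwdDiff_iter_eq_zero_of_degree_lt
        ((natDegree_lt_iff_degree_lt hP0).2 hdeg)]
      rfl
  have hall : ∀ n, IsI ((g - fun k : ℤ => P.eval (k : ℝ)) n) := by
    refine integral_of_initial r _ (fun n => ?_) fun k hk => ?_
    · rw [fwdDiff_iter_sub, hzero, sub_zero]; exact h n
    · have : P.eval ((k : ℕ) : ℝ) = g (k : ℕ) := by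
        rw [hP]; exact Lagrange.eval_interpolate_at_node (v := fun k : ℕ => (k : ℝ)) _ hinj (mem_range.2 hk)
      exact ⟨0, by simp [this]⟩
  obtain ⟨N, hNs, hNc⟩ := hinf.exists_subset_card_eq r
  have hint : ∀ n ∈ N, IsI (P.eval (n : ℝ)) := fun n hn => by
    have := IsI.sub (hNs hn) (hall n)
    simpa using this
  obtain ⟨L, hL, hper⟩ := per1_eval P hdeg N hNc hint
  refine ⟨L, hL, fun n => ?_⟩
  have := ((hall (n + L)).sub (hall n)).add (hper n)
  simp only [Pi.sub_apply] at this
  convert this using 1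
  ring

/-- Bounded and finally annihilated: finally constant. -/
theorem const_of_bounded : ∀ (r : ℕ) (g : ℤ → ℝ) (B : ℝ) (n₀ : ℤ), (∀ n, |g n| ≤ B) →
    (∀ n ≥ n₀, (fwdDiff 1)^[r + 1] g n = 0) → ∀ n ≥ n₀, g (n + 1) = g n := by
  intro r
  induction r with
  | zero => intro g B n₀ _ h n hn; simpa [fwdDiff, sub_eq_zero] using h n hn
  | succ r ih =>
    intro g B n₀ hB h
    have h1 := ih (fwdDiff 1 g) (2 * B) n₀ (fun n => by
      show |g (n + 1) - g n| ≤ 2 * B
      have := abs_le.1 (hB (n + 1)); have := abs_le.1 (hB n)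
      exact abs_le.2 ⟨by linarith, by linarith⟩)
      (fun n hn => by simpa only [Function.iterate_succ_apply] using h n hn)
    have hc : ∀ k : ℕ, fwdDiff 1 g (n₀ + k) = fwdDiff 1 g n₀ := by
      intro k
      induction k with
      | zero => simp
      | succ k ihk =>
        rw [Nat.cast_succ, ← add_assoc, h1 (n₀ + k) (by omega), ihk]
    have hlin : ∀ k : ℕ, g (n₀ + k) = g n₀ + k * fwdDiff 1 g n₀ := by
      intro k
      induction k with
      | zero => simp
      | succ k ihk =>
        have := hc k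
        rw [show fwdDiff 1 g (n₀ + k) = g (n₀ + k + 1) - g (n₀ + k) from rfl] at this
        push_cast
        rw [← add_assoc]
        linarith
    have hd : fwdDiff 1 g n₀ = 0 := by
      by_contra hd
      obtain ⟨k, hk⟩ := exists_nat_gt (2 * B / |fwdDiff 1 g n₀|)
      rw [div_lt_iff₀ (abs_pos.2 hd)] at hk
      have h2 : |(k : ℝ) * fwdDiff 1 g n₀| ≤ 2 * B := by
        have := abs_le.1 (hB (n₀ + k)); have := abs_le.1 (hB n₀); have := hlin k
        exact abs_le.2 ⟨by linarith, by linarith⟩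
      rw [abs_mul, Nat.abs_cast] at h2
      linarith
    intro n hn
    obtain ⟨k, rfl⟩ : ∃ k : ℕ, n = n₀ + k := ⟨(n - n₀).toNat, by omega⟩
    have := hc k
    rw [hd] at this
    exact sub_eq_zero.1 this

end Vale.Agent.P043.Rows
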