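import Mathlib

/-!
Helper for P043: partitions of a line into half-open intervals, one row of a tiling.
-/

namespace Vale.Agent.P043.Rows

variable {α K : Type*} [CommRing K] [LinearOrder K] [IsStrictOrderedRing K] [Archimedean K]

set_option linter.unusedSectionVars false

/-- The intervals `[p s, q s)`, `s ∈ S`, partition the line. -/
def RowPart (S : Set α) (p q : α → K) : Prop := ∀ x, ∃! s, s ∈ S ∧ p s ≤ x ∧ x < q s

namespace RowPart

variable {S : Set α} {p q : α → K} {δ : K}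

theorem eq_of_mem (h : RowPart S p q) {s t : α} {x : K} (hs : s ∈ S) (ht : t ∈ S)
    (hs1 : p s ≤ x) (hs2 : x < q s) (ht1 : p t ≤ x) (ht2 : x < q t) : s = t :=
  (h x).unique ⟨hs, hs1, hs2⟩ ⟨ht, ht1, ht2⟩

theorem nonempty (h : RowPart S p q) : S.Nonempty :=
  let ⟨s, hs, _⟩ := (h 0).exists
  ⟨s, hs⟩

theorem exists_succ (h : RowPart S p q) (hδ : 0 < δ) (hlen : ∀ s ∈ S, p s + δ ≤ q s) {s : α}
    (hs : s ∈ S) : ∃ t ∈ S, p t = q s := by
  obtain ⟨t, ht, h1, h2⟩ := (h (q s)).exists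
  refine ⟨t, ht, le_antisymm h1 (le_of_not_gt fun hlt => ?_)⟩
  have hps : p s < q s := lt_of_lt_of_le (lt_add_of_pos_right _ hδ) (hlen s hs)
  have := h.eq_of_mem hs ht (x := max (p s) (p t)) (le_max_left _ _) (max_lt hps hlt)
    (le_max_right _ _) (lt_of_lt_of_le (max_lt hps hlt) h2.le)
  exact absurd h2 (by simp [this])

theorem exists_pred (h : RowPart S p q) (hδ : 0 < δ) (hlen : ∀ s ∈ S, p s + δ ≤ q s) {s : α}
    (hs : s ∈ S) : ∃ t ∈ S, q t = p s := by
  obtain ⟨t, ht, h1, h2⟩ := (h (p s - δ)).exists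
  have hps : p s < q s := lt_of_lt_of_le (lt_add_of_pos_right _ hδ) (hlen s hs)
  have hle : q t ≤ p s := le_of_not_gt fun hlt => by
    have := h.eq_of_mem ht hs (x := p s) (by linarith) hlt le_rfl hps
    subst this
    linarith
  obtain ⟨u, hu, hu1⟩ := h.exists_succ hδ hlen ht
  have hu2 := hlen u hu
  have : u = s := h.eq_of_mem hu hs (x := p s) (by linarith) (by linarith) le_rfl hps
  subst this
  exact ⟨t, ht, hu1.symm⟩

theorem exists_seq (h : RowPart S p q) (hδ : 0 < δ) (hlen : ∀ s ∈ S, p s + δ ≤ q s) {s₀ : α}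
    (hs₀ : s₀ ∈ S) :
    ∃ e : ℤ → α, (∀ n, e n ∈ S) ∧ e 0 = s₀ ∧ (∀ n, q (e n) = p (e (n + 1))) ∧
      (∀ m n, m ≤ n → p (e m) + ((n - m : ℤ) : K) * δ ≤ p (e n)) ∧ ∀ s ∈ S, ∃ n, e n = s := by
  choose nx hnx hnx1 using fun s : S => h.exists_succ hδ hlen s.2
  choose pv hpv hpv1 using fun s : S => h.exists_pred hδ hlen s.2
  let fs : S → S := fun s => ⟨nx s, hnx s⟩
  let fp : S → S := fun s => ⟨pv s, hpv s⟩
  let e : ℤ → S := fun n => match n with
    | Int.ofNat k => fs^[k] ⟨s₀, hs₀⟩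
    | Int.negSucc k => fp^[k + 1] ⟨s₀, hs₀⟩
  have hstep : ∀ n, q (e n : α) = p (e (n + 1) : α) := by
    intro n
    rcases n with k | k
    · change q (fs^[k] ⟨s₀, hs₀⟩ : α) = p (fs^[k + 1] ⟨s₀, hs₀⟩ : α)
      rw [Function.iterate_succ_apply']
      exact (hnx1 _).symm
    · rcases k with _ | k
      · exact hpv1 _
      · change q (fp^[k + 2] ⟨s₀, hs₀⟩ : α) = p (fp^[k + 1] ⟨s₀, hs₀⟩ : α)
        rw [Function.iterate_succ_apply' fp (k + 1)]
        exact hpv1 _
  have hmono : ∀ m n, m ≤ n → p (e m : α) + ((n - m : ℤ) : K) * δ ≤ p (e n : α) := by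
    intro m n hmn
    induction n, hmn using Int.leInduction with
    | base => simp
    | succ n _ ih =>
      have := hlen _ (e n).2
      rw [hstep n] at this
      push_cast at ih ⊢
      linarith
  refine ⟨fun n => e n, fun n => (e n).2, rfl, hstep, hmono, fun s hs => ?_⟩
  obtain ⟨N, hN⟩ := exists_lt_nsmul hδ |p s - p (e 0 : α)|
  rw [nsmul_eq_mul] at hN
  have hbdd : ∃ b : ℤ, ∀ z, p (e z : α) ≤ p s → z ≤ b := by
    refine ⟨N, fun z hz => ?_⟩
    by_contra hlt
    have h1 := hmono N z (not_le.1 hlt).le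
    have h2 := hmono 0 N (by omega)
    have h3 : (0 : K) ≤ ((z - N : ℤ) : K) * δ :=
      mul_nonneg (by exact_mod_cast (by omega : (0 : ℤ) ≤ z - N)) hδ.le
    push_cast at h2
    linarith [le_abs_self (p s - p (e 0 : α))]
  have hex : ∃ z : ℤ, p (e z : α) ≤ p s := by
    refine ⟨-N, ?_⟩
    have := hmono (-N) 0 (by omega)
    push_cast at this
    linarith [neg_abs_le (p s - p (e 0 : α))]
  obtain ⟨n, hn, hmax⟩ := Int.exists_greatest_of_bdd hbdd hex
  refine ⟨n, h.eq_of_mem (e n).2 hs hn ?_ le_rfl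
    (lt_of_lt_of_le (lt_add_of_pos_right _ hδ) (hlen s hs))⟩
  rw [hstep n]
  exact lt_of_not_ge fun hle => absurd (hmax _ hle) (by omega)

/-- A property spreading along adjacent intervals reaches an interval in boundedly many steps. -/
theorem chain (h : RowPart S p q) (hδ : 0 < δ) (hlen : ∀ s ∈ S, p s + δ ≤ q s) {s t : α}
    (hs : s ∈ S) (ht : t ∈ S) (hst : p s ≤ p t) (P : ℕ → α → Prop) (h0 : P 0 s)
    (hP : ∀ n u v, u ∈ S → v ∈ S → q u = p v → P n u → P (n + 1) v) :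
    ∃ n : ℕ, (n : K) * δ ≤ p t - p s ∧ P n t := by
  obtain ⟨e, he, he0, hstep, hmono, hsurj⟩ := h.exists_seq hδ hlen hs
  obtain ⟨m, rfl⟩ := hsurj t ht
  subst he0
  have hm : 0 ≤ m := by
    by_contra hlt
    have h1 := hmono m 0 (not_le.1 hlt).le
    have : (0 : K) < ((0 - m : ℤ) : K) * δ :=
      mul_pos (by exact_mod_cast (by omega : (0 : ℤ) < 0 - m)) hδ
    linarith
  obtain ⟨k, rfl⟩ := Int.eq_ofNat_of_zero_le hm
  refine ⟨k, ?_, ?_⟩
  · have := hmono 0 k hm
    push_cast at this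
    linarith
  · clear hst ht hm
    induction k with
    | zero => simpa using h0
    | succ k ih =>
      have := hP k _ _ (he k) (he _) (hstep k) ih
      simpa using this

/-- Intervals with the same adjacencies and positive lengths still form a partition. -/
theorem transport {K' : Type*} [CommRing K'] [LinearOrder K'] [IsStrictOrderedRing K']
    [Archimedean K'] (h : RowPart S p q) (hδ : 0 < δ) (hlen : ∀ s ∈ S, p s + δ ≤ q s)
    {p' q' : α → K'} {δ' : K'} (hδ' : 0 < δ') (hlen' : ∀ s ∈ S, p' s + δ' ≤ q' s)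
    (hadj : ∀ s ∈ S, ∀ t ∈ S, q s = p t → q' s = p' t) : RowPart S p' q' := by
  obtain ⟨s₀, hs₀⟩ := h.nonempty
  obtain ⟨e, he, -, hstep, -, hsurj⟩ := h.exists_seq hδ hlen hs₀
  have hstep' : ∀ n, q' (e n) = p' (e (n + 1)) := fun n =>
    hadj _ (he n) _ (he _) (hstep n)
  have hmono : ∀ m n, m ≤ n → p' (e m) + ((n - m : ℤ) : K') * δ' ≤ p' (e n) := by
    intro m n hmn
    induction n, hmn using Int.leInduction with
    | base => simp
    | succ n _ ih =>
      have := hlen' _ (he n)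
      rw [hstep' n] at this
      push_cast at ih ⊢
      linarith
  intro x
  obtain ⟨N, hN⟩ := exists_lt_nsmul hδ' |x - p' (e 0)|
  rw [nsmul_eq_mul] at hN
  have hbdd : ∃ b : ℤ, ∀ z, p' (e z) ≤ x → z ≤ b := by
    refine ⟨N, fun z hz => ?_⟩
    by_contra hlt
    have h1 := hmono N z (not_le.1 hlt).le
    have h2 := hmono 0 N (by omega)
    have h3 : (0 : K') ≤ ((z - N : ℤ) : K') * δ' :=
      mul_nonneg (by exact_mod_cast (by omega : (0 : ℤ) ≤ z - N)) hδ'.le
    push_cast at h2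
    linarith [le_abs_self (x - p' (e 0))]
  have hex : ∃ z : ℤ, p' (e z) ≤ x := by
    refine ⟨-N, ?_⟩
    have := hmono (-N) 0 (by omega)
    push_cast at this
    linarith [neg_abs_le (x - p' (e 0))]
  obtain ⟨n, hn, hmax⟩ := Int.exists_greatest_of_bdd hbdd hex
  have hlt : x < q' (e n) := by
    rw [hstep' n]
    exact lt_of_not_ge fun hle => absurd (hmax _ hle) (by omega)
  refine ⟨e n, ⟨he n, hn, hlt⟩, ?_⟩
  rintro t ⟨ht, ht1, ht2⟩
  obtain ⟨m, rfl⟩ := hsurj t ht
  have hmn := hmax m ht1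
  rcases hmn.eq_or_lt with rfl | hl
  · rfl
  · have h1 := hmono (m + 1) n (by omega)
    have h3 : (0 : K') ≤ ((n - (m + 1) : ℤ) : K') * δ' :=
      mul_nonneg (by exact_mod_cast (by omega : (0 : ℤ) ≤ n - (m + 1))) hδ'.le
    rw [← hstep' m] at h1
    linarith

end RowPart

end Vale.Agent.P043.Rows
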