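import Mathlib
import Vale.Agent.P043.Rows.Part

/-!
Helper for P043: tiles built from intervals in consecutive rows, and short sums of endpoint
differences.
-/

namespace Vale.Agent.P043.Rows

open Pointwise

variable {ι : Type} [Fintype ι] {K : Type*} [CommRing K] [LinearOrder K]

/-- The pieces lying in row `k` of the translates `T`. -/
def rowSet (j : ι → ℤ) (T : Set (K × ℤ)) (k : ℤ) : Set ((K × ℤ) × ι) :=
  {s | s.1 ∈ T ∧ s.1.2 + j s.2 = k}

/-- Left end of a piece. -/
def pieceL (l : ι → K) (s : (K × ℤ) × ι) : K := s.1.1 + l s.2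

/-- Right end of a piece. -/
def pieceR (r : ι → K) (s : (K × ℤ) × ι) : K := s.1.1 + r s.2

/-- `T` is a tiling of `K × ℤ` by the tile with pieces `[l i, r i)` in rows `j i`. -/
def RowTiling (j : ι → ℤ) (l r : ι → K) (T : Set (K × ℤ)) : Prop :=
  ∀ k, RowPart (rowSet j T k) (pieceL l) (pieceR r)

/-- Every row `0, …, h` carries a piece. -/
def Full (j : ι → ℤ) (h : ℕ) : Prop := ∀ k : ℤ, 0 ≤ k → k ≤ h → ∃ i, j i = k

/-- The pieces lie in rows `0, …, h`, meet row `0` and do not overlap. -/
structure IsShape (j : ι → ℤ) (l r : ι → ℝ) (h : ℕ) : Prop where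
  lt : ∀ i, l i < r i
  range : ∀ i, 0 ≤ j i ∧ j i ≤ h
  zero : ∃ i, j i = 0
  disjoint : ∀ i i', i ≠ i' → j i = j i' → r i ≤ l i' ∨ r i' ≤ l i

theorem IsShape.exists_min {j : ι → ℤ} {l r : ι → ℝ} {h : ℕ} (hs : IsShape j l r h) :
    ∃ δ > 0, ∀ i, l i + δ ≤ r i := by
  classical
  obtain ⟨i₀, hi₀⟩ := hs.zero
  obtain ⟨i, -, hi⟩ := Finset.exists_min_image Finset.univ (fun i => r i - l i) ⟨i₀, by simp⟩
  exact ⟨r i - l i, sub_pos.2 (hs.lt i), fun i' => by linarith [hi i' (by simp)]⟩

theorem IsShape.exists_bound {j : ι → ℤ} {l r : ι → ℝ} {h : ℕ} (_ : IsShape j l r h) :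
    ∃ D > 0, ∀ i, |l i| ≤ D ∧ |r i| ≤ D :=
  ⟨∑ i, (|l i| + |r i|) + 1, by positivity, fun i => by
    have := Finset.single_le_sum (f := fun i => |l i| + |r i|) (fun i _ => by positivity)
      (Finset.mem_univ i)
    constructor <;> linarith [abs_nonneg (l i), abs_nonneg (r i)]⟩

/-- All differences of endpoints. -/
noncomputable def gens (l r : ι → ℝ) : Finset ℝ :=
  let E := Finset.univ.image l ∪ Finset.univ.image r
  insert 0 (E - E)

theorem zero_mem_gens (l r : ι → ℝ) : (0 : ℝ) ∈ gens l r := by simp [gens]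

theorem sub_mem_gens (l r : ι → ℝ) (i i' : ι) : r i - l i' ∈ gens l r := by
  simp only [gens, Finset.mem_insert]
  exact Or.inr (Finset.sub_mem_sub (by simp) (by simp))

theorem neg_mem_gens {l r : ι → ℝ} {x : ℝ} (hx : x ∈ gens l r) : -x ∈ gens l r := by
  simp only [gens, Finset.mem_insert] at hx ⊢
  rcases hx with rfl | hx
  · simp
  · obtain ⟨a, ha, b, hb, rfl⟩ := Finset.mem_sub.1 hx
    exact Or.inr (by rw [neg_sub]; exact Finset.sub_mem_sub hb ha)

/-- Sums of at most `n` endpoint differences. -/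
noncomputable def words (l r : ι → ℝ) : ℕ → Finset ℝ
  | 0 => {0}
  | n + 1 => words l r n + gens l r

theorem words_mono (l r : ι → ℝ) {m n : ℕ} (hmn : m ≤ n) : words l r m ⊆ words l r n := by
  induction hmn with
  | refl => exact subset_rfl
  | step _ ih =>
    refine ih.trans fun x hx => ?_
    have := Finset.add_mem_add hx (zero_mem_gens l r)
    simpa [words] using this

theorem add_mem_words {l r : ι → ℝ} {m n : ℕ} {a b : ℝ} (ha : a ∈ words l r m)
    (hb : b ∈ words l r n) : a + b ∈ words l r (m + n) := by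
  induction n generalizing b with
  | zero =>
    obtain rfl : b = 0 := by simpa [words] using hb
    simpa using ha
  | succ n ih =>
    obtain ⟨c, hc, g, hg, rfl⟩ := Finset.mem_add.1 hb
    have := Finset.add_mem_add (ih hc) hg
    rw [add_assoc] at this
    exact this

theorem neg_mem_words {l r : ι → ℝ} {n : ℕ} {a : ℝ} (ha : a ∈ words l r n) :
    -a ∈ words l r n := by
  induction n generalizing a with
  | zero =>
    obtain rfl : a = 0 := by simpa [words] using ha
    simp [words]
  | succ n ih =>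
    obtain ⟨c, hc, g, hg, rfl⟩ := Finset.mem_add.1 ha
    rw [neg_add]
    exact Finset.add_mem_add (ih hc) (neg_mem_gens hg)

theorem sub_mem_words {l r : ι → ℝ} {m n : ℕ} {a b : ℝ} (ha : a ∈ words l r m)
    (hb : b ∈ words l r n) : a - b ∈ words l r (m + n) := by
  rw [sub_eq_add_neg]
  exact add_mem_words ha (neg_mem_words hb)

theorem zero_mem_words (l r : ι → ℝ) (n : ℕ) : (0 : ℝ) ∈ words l r n :=
  words_mono l r (Nat.zero_le n) (by simp [words])

theorem gens_subset_words (l r : ι → ℝ) : gens l r ⊆ words l r 1 := fun x hx => by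
  have := Finset.add_mem_add (Finset.mem_singleton_self (0 : ℝ)) hx
  simpa [words] using this

end Vale.Agent.P043.Rows
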