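import Mathlib
import Vale.Agent.P043.Rows.Shape

/-!
Helper for P043: tilings of the plane up to null sets by unions of boxes with integer rows are
exact tilings by half-open boxes, and can be moved onto integer rows.
-/

namespace Vale.Agent.P043.Rows

open MeasureTheory Pointwise

set_option linter.unusedSectionVars false

/-- `A` is a tiling of the plane by translates of `Ω`, up to null sets. -/
def TilesUpToNull (Ω A : Set (ℝ × ℝ)) : Prop :=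
  (∀ᵐ z, ∃ a ∈ A, z - a ∈ Ω) ∧ ∀ a ∈ A, ∀ b ∈ A, a ≠ b → volume ((a +ᵥ Ω) ∩ (b +ᵥ Ω)) = 0

/-- The union of the rectangles `[a, b] × [k₁, k₂]`, `((a, b), (k₁, k₂)) ∈ R`. -/
def rectUnion (R : Finset ((ℝ × ℝ) × (ℤ × ℤ))) : Set (ℝ × ℝ) :=
  ⋃ ρ ∈ R, Set.Icc ρ.1.1 ρ.1.2 ×ˢ Set.Icc (ρ.2.1 : ℝ) (ρ.2.2 : ℝ)

variable {ι : Type} [Fintype ι] {j : ι → ℤ} {l r : ι → ℝ} {h : ℕ}

/-- The half-open boxes of the pieces. -/
def boxes (j : ι → ℤ) (l r : ι → ℝ) : Set (ℝ × ℝ) :=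
  ⋃ i, Set.Ico (l i) (r i) ×ˢ Set.Ico (j i : ℝ) (j i + 1)

theorem mem_boxes {z : ℝ × ℝ} :
    z ∈ boxes j l r ↔ ∃ i, (l i ≤ z.1 ∧ z.1 < r i) ∧ (j i : ℝ) ≤ z.2 ∧ z.2 < j i + 1 := by
  simp [boxes]

theorem null_vline (a : ℝ) : volume {z : ℝ × ℝ | z.1 = a} = 0 := by
  rw [show {z : ℝ × ℝ | z.1 = a} = {a} ×ˢ Set.univ by ext z; simp,
    MeasureTheory.Measure.volume_eq_prod, MeasureTheory.Measure.prod_prod]
  simp

theorem null_hline (a : ℝ) : volume {z : ℝ × ℝ | z.2 = a} = 0 := by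
  rw [show {z : ℝ × ℝ | z.2 = a} = Set.univ ×ˢ {a} by ext z; simp,
    MeasureTheory.Measure.volume_eq_prod, MeasureTheory.Measure.prod_prod]
  simp

theorem box_pos {a b a' b' : ℝ} (h1 : a < b) (h2 : a' < b') :
    0 < volume (Set.Ioo a b ×ˢ Set.Ioo a' b') :=
  (isOpen_Ioo.prod isOpen_Ioo).measure_pos volume
    ((Set.nonempty_Ioo.2 h1).prod (Set.nonempty_Ioo.2 h2))

theorem countable_of_tiles (hs : IsShape j l r h) {Ω A : Set (ℝ × ℝ)}
    (hsub : boxes j l r ⊆ Ω) (hA : TilesUpToNull Ω A) :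
    A.Countable ∧ ∀ R : ℝ, {a ∈ A | |a.1| ≤ R ∧ |a.2| ≤ R}.Finite := by
  obtain ⟨δ, hδ0, hδ⟩ := hs.exists_min
  obtain ⟨i, -⟩ := hs.zero
  let f : ℝ × ℝ → ℤ × ℤ := fun a => (⌊a.1 / δ⌋, ⌊a.2⌋)
  have hf : Set.InjOn f A := by
    intro a ha b hb he
    by_contra hne
    simp only [f, Prod.mk.injEq] at he
    have h1 := Int.abs_sub_lt_one_of_floor_eq_floor he.1
    rw [← sub_div, abs_div, abs_of_pos hδ0, div_lt_one hδ0, abs_lt] at h1
    have h2 := abs_lt.1 (Int.abs_sub_lt_one_of_floor_eq_floor he.2)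
    have hp := box_pos (a := max a.1 b.1 + l i) (b := min a.1 b.1 + r i)
      (a' := max a.2 b.2 + j i) (b' := min a.2 b.2 + j i + 1)
      (by rcases le_total a.1 b.1 with hc | hc <;> simp [hc] <;> linarith [hδ i])
      (by rcases le_total a.2 b.2 with hc | hc <;> simp [hc] <;> linarith)
    refine hp.ne' (measure_mono_null ?_ (hA.2 a ha b hb hne))
    rintro ⟨x, y⟩ ⟨⟨hx1, hx2⟩, hy1, hy2⟩
    simp only at hx1 hx2 hy1 hy2
    constructor <;> rw [Set.mem_vadd_set_iff_neg_vadd_mem] <;> refine hsub (mem_boxes.2 ⟨i, ?_⟩) <;>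
      simp only [vadd_eq_add, Prod.fst_add, Prod.snd_add, Prod.fst_neg, Prod.snd_neg]
    · have := le_max_left a.1 b.1; have := min_le_left a.1 b.1
      have := le_max_left a.2 b.2; have := min_le_left a.2 b.2
      exact ⟨⟨by linarith, by linarith⟩, by linarith, by linarith⟩
    · have := le_max_right a.1 b.1; have := min_le_right a.1 b.1
      have := le_max_right a.2 b.2; have := min_le_right a.2 b.2
      exact ⟨⟨by linarith, by linarith⟩, by linarith, by linarith⟩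
  refine ⟨(Set.mapsTo_univ f A).countable_of_injOn hf Set.countable_univ, fun R => ?_⟩
  refine Set.Finite.of_injOn (f := f)
    (t := Set.Icc ⌊-R / δ⌋ ⌊R / δ⌋ ×ˢ Set.Icc ⌊-R⌋ ⌊R⌋) ?_ (hf.mono fun a ha => ha.1)
    ((Set.finite_Icc _ _).prod (Set.finite_Icc _ _))
  intro a ⟨_, h1, h2⟩
  rw [abs_le] at h1 h2
  exact ⟨⟨Int.floor_le_floor (by gcongr; exact h1.1), Int.floor_le_floor (by gcongr; exact h1.2)⟩,
    ⟨Int.floor_le_floor h2.1, Int.floor_le_floor h2.2⟩⟩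

/-- An exact tiling by half-open boxes. -/
theorem exact_of_tiles (hs : IsShape j l r h) {Ω A : Set (ℝ × ℝ)} (hsub : boxes j l r ⊆ Ω)
    (hnull : volume (Ω \ boxes j l r) = 0) (hA : TilesUpToNull Ω A) (z : ℝ × ℝ) :
    ∃! ai : (ℝ × ℝ) × ι, ai.1 ∈ A ∧ (ai.1.1 + l ai.2 ≤ z.1 ∧ z.1 < ai.1.1 + r ai.2) ∧
      ai.1.2 + j ai.2 ≤ z.2 ∧ z.2 < ai.1.2 + j ai.2 + 1 := by
  classical
  obtain ⟨hcount, hfin⟩ := countable_of_tiles hs hsub hA
  obtain ⟨D₀, hD₀, hD⟩ := hs.exists_bound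
  set R := |z.1| + |z.2| + D₀ + h + 3 with hR
  let near := (hfin R).toFinset ×ˢ (Finset.univ : Finset ι)
  let pts : Finset ℝ := near.image (fun ai => ai.1.1 + l ai.2) ∪ near.image (fun ai => ai.1.1 + r ai.2)
  let pts' : Finset ℝ := near.image (fun ai => ai.1.2 + j ai.2) ∪
    near.image (fun ai => ai.1.2 + j ai.2 + 1)
  obtain ⟨ε, hε, hε1, hεx, hεy⟩ : ∃ ε > 0, ε ≤ 1 ∧ (∀ p ∈ pts, z.1 < p → z.1 + ε ≤ p) ∧
      ∀ p ∈ pts', z.2 < p → z.2 + ε ≤ p := by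
    set G := insert 1 ((pts.filter (z.1 < ·)).image (· - z.1) ∪
      (pts'.filter (z.2 < ·)).image (· - z.2)) with hG
    have hne : G.Nonempty := Finset.insert_nonempty _ _
    refine ⟨G.min' hne, ?_, Finset.min'_le _ _ (by simp [hG]), fun p hp hlt => ?_,
      fun p hp hlt => ?_⟩
    · have hmem := Finset.min'_mem G hne
      simp only [hG, Finset.mem_insert, Finset.mem_union, Finset.mem_image, Finset.mem_filter]
        at hmem
      rcases hmem with e | ⟨p, ⟨_, hp⟩, e⟩ | ⟨p, ⟨_, hp⟩, e⟩ <;> rw [gt_iff_lt] <;> simp only [hG]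
        <;> linarith
    · have := Finset.min'_le G (p - z.1) (Finset.mem_insert.2 (Or.inr
        (Finset.mem_union_left _ (Finset.mem_image.2 ⟨p, Finset.mem_filter.2 ⟨hp, hlt⟩, rfl⟩))))
      linarith
    · have := Finset.min'_le G (p - z.2) (Finset.mem_insert.2 (Or.inr
        (Finset.mem_union_right _ (Finset.mem_image.2 ⟨p, Finset.mem_filter.2 ⟨hp, hlt⟩, rfl⟩))))
      linarith
  -- membership does not change on the small square
  have hsq : ∀ a ∈ A, ∀ i, ∀ w : ℝ × ℝ, z.1 ≤ w.1 → w.1 < z.1 + ε → z.2 ≤ w.2 → w.2 < z.2 + ε →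
      (((a.1 + l i ≤ w.1 ∧ w.1 < a.1 + r i) ∧ a.2 + j i ≤ w.2 ∧ w.2 < a.2 + j i + 1) ↔
       ((a.1 + l i ≤ z.1 ∧ z.1 < a.1 + r i) ∧ a.2 + j i ≤ z.2 ∧ z.2 < a.2 + j i + 1)) := by
    intro a ha i w w1 w2 w3 w4
    have hji : (0 : ℝ) ≤ j i ∧ (j i : ℝ) ≤ h :=
      ⟨by exact_mod_cast (hs.range i).1, by exact_mod_cast (hs.range i).2⟩
    have l1 := abs_le.1 (hD i).1
    have l2 := abs_le.1 (hD i).2
    by_cases hn : |a.1| ≤ R ∧ |a.2| ≤ R
    · have hm : (a, i) ∈ near := by simp [near, ha, hn.1, hn.2]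
      have p1 := hεx (a.1 + l i) (by simp only [pts, Finset.mem_union, Finset.mem_image]
                                     exact Or.inl ⟨(a, i), hm, rfl⟩)
      have p2 := hεx (a.1 + r i) (by simp only [pts, Finset.mem_union, Finset.mem_image]
                                     exact Or.inr ⟨(a, i), hm, rfl⟩)
      have p3 := hεy (a.2 + j i) (by simp only [pts', Finset.mem_union, Finset.mem_image]
                                     exact Or.inl ⟨(a, i), hm, rfl⟩)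
      have p4 := hεy (a.2 + j i + 1) (by simp only [pts', Finset.mem_union, Finset.mem_image]
                                         exact Or.inr ⟨(a, i), hm, rfl⟩)
      constructor
      · rintro ⟨⟨h1, h2⟩, h3, h4⟩
        refine ⟨⟨?_, by linarith⟩, ?_, by linarith⟩
        · by_contra hh; linarith [p1 (not_le.1 hh)]
        · by_contra hh; linarith [p3 (not_le.1 hh)]
      · rintro ⟨⟨h1, h2⟩, h3, h4⟩
        exact ⟨⟨by linarith, by linarith [p2 h2]⟩, by linarith, by linarith [p4 h4]⟩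
    · have b1 := abs_le.1 (le_refl |z.1|)
      have b2 := abs_le.1 (le_refl |z.2|)
      have := abs_nonneg z.1
      have := abs_nonneg z.2
      constructor <;> rintro ⟨⟨h1, h2⟩, h3, h4⟩ <;> refine absurd ⟨?_, ?_⟩ hn <;> rw [abs_le] <;>
        constructor <;> linarith
  have hopen : ∀ w : ℝ × ℝ, w ∈ Set.Ioo z.1 (z.1 + ε) ×ˢ Set.Ioo z.2 (z.2 + ε) →
      z.1 ≤ w.1 ∧ w.1 < z.1 + ε ∧ z.2 ≤ w.2 ∧ w.2 < z.2 + ε := fun w hw =>
    ⟨hw.1.1.le, hw.1.2, hw.2.1.le, hw.2.2⟩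
  have hpos := box_pos (a := z.1) (b := z.1 + ε) (a' := z.2) (b' := z.2 + ε) (by linarith)
    (by linarith)
  have hmem : ∀ (a : ℝ × ℝ) i (w : ℝ × ℝ), ((a.1 + l i ≤ w.1 ∧ w.1 < a.1 + r i) ∧
      a.2 + j i ≤ w.2 ∧ w.2 < a.2 + j i + 1) → w - a ∈ boxes j l r := by
    rintro a i w ⟨⟨h1, h2⟩, h3, h4⟩
    exact mem_boxes.2 ⟨i, by simp only [Prod.fst_sub, Prod.snd_sub]; refine ⟨⟨?_, ?_⟩, ?_, ?_⟩ <;>
      linarith⟩
  -- existence
  have hex : ∃ ai : (ℝ × ℝ) × ι, ai.1 ∈ A ∧ (ai.1.1 + l ai.2 ≤ z.1 ∧ z.1 < ai.1.1 + r ai.2) ∧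
      ai.1.2 + j ai.2 ≤ z.2 ∧ z.2 < ai.1.2 + j ai.2 + 1 := by
    by_contra hnone
    refine hpos.ne' (measure_mono_null (t := {w | ¬ ∃ a ∈ A, w - a ∈ Ω} ∪
      ⋃ a ∈ A, (fun w => w - a) ⁻¹' (Ω \ boxes j l r)) ?_ ?_)
    · intro w hw
      obtain ⟨w1, w2, w3, w4⟩ := hopen w hw
      by_contra hout
      obtain ⟨a, ha, hwa⟩ : ∃ a ∈ A, w - a ∈ Ω := not_not.1 fun hh => hout (Or.inl hh)
      have hbox : w - a ∈ boxes j l r :=
        not_not.1 fun hh => hout (Or.inr (Set.mem_biUnion ha ⟨hwa, hh⟩))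
      obtain ⟨i, hi⟩ := mem_boxes.1 hbox
      simp only [Prod.fst_sub, Prod.snd_sub] at hi
      exact hnone ⟨(a, i), ha, (hsq a ha i w w1 w2 w3 w4).1
        ⟨⟨by linarith [hi.1.1], by linarith [hi.1.2]⟩, by linarith [hi.2.1], by linarith [hi.2.2]⟩⟩
    · refine measure_union_null (ae_iff.1 hA.1) ((measure_biUnion_null_iff hcount).2 fun a _ => ?_)
      simp only [sub_eq_add_neg]
      rw [measure_preimage_add_right]
      exact hnull
  refine hex.imp fun ai hai => ⟨hai, ?_⟩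
  rintro ⟨b, i'⟩ ⟨hb, hbz⟩
  obtain ⟨a, i⟩ := ai
  obtain ⟨ha, haz⟩ := hai
  by_cases hab : b = a
  · subst hab
    by_contra hne
    have hne' : i' ≠ i := fun e => hne (by rw [e])
    have hjj : j i' = j i := by
      have e1 : ((j i' : ℝ) - j i) < 1 := by linarith [haz.2.2, hbz.2.1]
      have e2 : -1 < ((j i' : ℝ) - j i) := by linarith [haz.2.1, hbz.2.2]
      have e1' : j i' - j i < 1 := by exact_mod_cast e1
      have e2' : -1 < j i' - j i := by exact_mod_cast e2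
      omega
    rcases hs.disjoint i' i hne' hjj with hd | hd <;>
      linarith [haz.1.1, haz.1.2, hbz.1.1, hbz.1.2]
  · exfalso
    refine hpos.ne' (measure_mono_null (fun w hw => ?_) (hA.2 b hb a ha hab))
    obtain ⟨w1, w2, w3, w4⟩ := hopen w hw
    constructor <;> rw [Set.mem_vadd_set_iff_neg_vadd_mem, vadd_eq_add, neg_add_eq_sub]
    · exact hsub (hmem b i' w ((hsq b hb i' w w1 w2 w3 w4).2 hbz))
    · exact hsub (hmem a i w ((hsq a ha i w w1 w2 w3 w4).2 haz))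

/-- The translations can be moved onto integer rows. -/
theorem exists_rowTiling (hs : IsShape j l r h) {Ω A : Set (ℝ × ℝ)} (hsub : boxes j l r ⊆ Ω)
    (hnull : volume (Ω \ boxes j l r) = 0) (hA : TilesUpToNull Ω A) :
    ∃ T : Set (ℝ × ℤ), RowTiling j l r T := by
  have hex := exact_of_tiles hs hsub hnull hA
  refine ⟨(fun a : ℝ × ℝ => (a.1, ⌊a.2⌋)) '' A, fun k x => ?_⟩
  -- the column over `x`
  let C : Set ((ℝ × ℝ) × ι) := {s | s.1 ∈ A ∧ s.1.1 + l s.2 ≤ x ∧ x < s.1.1 + r s.2}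
  have hC : RowPart C (fun s => s.1.2 + j s.2) (fun s => s.1.2 + j s.2 + 1) := by
    intro y
    obtain ⟨s, ⟨h1, h2, h3⟩, huniq⟩ := hex (x, y)
    exact ⟨s, ⟨⟨h1, h2⟩, h3⟩, fun t ⟨⟨t1, t2⟩, t3⟩ => huniq t ⟨t1, t2, t3⟩⟩
  have hcong : ∀ s ∈ C, ∀ t ∈ C, Int.fract s.1.2 = Int.fract t.1.2 := by
    intro s hsC t htC
    wlog hst : s.1.2 + j s.2 ≤ t.1.2 + j t.2 generalizing s t
    · exact (this t htC s hsC (le_of_not_ge hst)).symm
    obtain ⟨n, -, hn⟩ := hC.chain one_pos (fun u _ => le_rfl) hsC htC hst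
      (fun n u => u.1.2 + j u.2 = s.1.2 + j s.2 + n) (by simp)
      (fun n u v _ _ huv hu => by push_cast; linarith)
    rw [Int.fract_eq_fract]
    exact ⟨(j t.2 - j s.2 - (n : ℤ) : ℤ), by push_cast; linarith⟩
  obtain ⟨s₀, hs₀⟩ := hC.nonempty
  set f := Int.fract s₀.1.2 with hf
  obtain ⟨s, ⟨hsC, hs1, hs2⟩, huniq⟩ := hC ((k : ℝ) + f)
  have hfloor : ∀ t ∈ C, t.1.2 = (⌊t.1.2⌋ : ℝ) + f := fun t ht => by
    rw [hf, hcong s₀ hs₀ t ht, Int.floor_add_fract]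
  have hsk : ⌊s.1.2⌋ + j s.2 = k := by
    have e1 : ((⌊s.1.2⌋ + j s.2 : ℤ) : ℝ) ≤ (k : ℝ) := by
      push_cast; linarith [hfloor s hsC]
    have e2 : (k : ℝ) < ((⌊s.1.2⌋ + j s.2 + 1 : ℤ) : ℝ) := by
      push_cast; linarith [hfloor s hsC]
    have e1' : ⌊s.1.2⌋ + j s.2 ≤ k := by exact_mod_cast e1
    have e2' : k < ⌊s.1.2⌋ + j s.2 + 1 := by exact_mod_cast e2
    omega
  refine ⟨((s.1.1, ⌊s.1.2⌋), s.2), ⟨⟨⟨s.1, hsC.1, rfl⟩, hsk⟩, hsC.2.1, hsC.2.2⟩, ?_⟩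
  rintro ⟨⟨y, b⟩, i⟩ ⟨⟨⟨a, ha, hae⟩, hj⟩, h1, h2⟩
  simp only [Prod.mk.injEq] at hae
  obtain ⟨rfl, rfl⟩ := hae
  simp only [pieceL, pieceR] at h1 h2 hj
  have haC : ((a, i) : (ℝ × ℝ) × ι) ∈ C := ⟨ha, h1, h2⟩
  have hjr : ((⌊a.2⌋ : ℝ) + j i) = k := by exact_mod_cast hj
  have := huniq (a, i) ⟨haC, by linarith [hfloor _ haC], by linarith [hfloor _ haC]⟩
  subst this
  rfl

end Vale.Agent.P043.Rows
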