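import Mathlib
import Vale.Agent.P043.Rows.Shape

/-!
Helper for P043: a single row of a tiling, given the tiles that enter it from below, is periodic.
-/

namespace Vale.Agent.P043.Rows

open Pointwise

set_option linter.unusedSectionVars false

variable {ι : Type} [Fintype ι] {j : ι → ℤ} {l r : ι → ℝ} {h : ℕ} {T : Set (ℝ × ℤ)}

/-- Two tiles with the same base row and nearly the same position coincide. -/
theorem base_eq_of_near (hT : RowTiling j l r T) {δ : ℝ} (hδ : ∀ i, l i + δ ≤ r i) (i : ι)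
    {b : ℤ} {t t' : ℝ} (ht : (t, b) ∈ T) (ht' : (t', b) ∈ T) (hn : |t - t'| < δ) : t = t' := by
  obtain ⟨h1, h2⟩ := abs_lt.1 hn
  have := (hT (b + j i)).eq_of_mem (s := ((t, b), i)) (t := ((t', b), i)) (x := max t t' + l i)
    ⟨ht, rfl⟩ ⟨ht', rfl⟩ (by simp [pieceL])
    (by simp only [pieceR]; rcases le_total t t' with hc | hc <;> simp [hc] <;> linarith [hδ i])
    (by simp [pieceL])
    (by simp only [pieceR]; rcases le_total t t' with hc | hc <;> simp [hc] <;> linarith [hδ i])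
  exact congrArg (fun s : (ℝ × ℤ) × ι => s.1.1) this

theorem finite_base (hT : RowTiling j l r T) (hs : IsShape j l r h) (b : ℤ) (A B : ℝ) :
    {t | (t, b) ∈ T ∧ A ≤ t ∧ t ≤ B}.Finite := by
  obtain ⟨δ, hδ0, hδ⟩ := hs.exists_min
  obtain ⟨i, -⟩ := hs.zero
  refine Set.Finite.of_injOn (f := fun t : ℝ => ⌊t / δ⌋) (t := Set.Icc ⌊A / δ⌋ ⌊B / δ⌋)
    (fun t ht => ⟨Int.floor_le_floor (by gcongr; exact ht.2.1),
      Int.floor_le_floor (by gcongr; exact ht.2.2)⟩) ?_ (Set.finite_Icc _ _)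
  intro t ht t' ht' he
  refine base_eq_of_near hT hδ i ht.1 ht'.1 ?_
  have := Int.abs_sub_lt_one_of_floor_eq_floor he
  rw [← sub_div, abs_div, abs_of_pos hδ0, div_lt_one hδ0] at this
  exact this

theorem row_chain (hT : RowTiling j l r T) {δ : ℝ} (hδ0 : 0 < δ) (hδ : ∀ i, l i + δ ≤ r i)
    {k : ℤ} {s t : (ℝ × ℤ) × ι} (hs : s ∈ rowSet j T k) (ht : t ∈ rowSet j T k)
    {R : ℝ} (hR : |pieceL l t - pieceL l s| ≤ R) {N : ℕ} (hN : R ≤ N * δ) :
    t.1.1 - s.1.1 ∈ words l r N := by
  wlog hst : pieceL l s ≤ pieceL l t generalizing s t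
  · have := neg_mem_words (this ht hs (by rwa [abs_sub_comm]) (le_of_not_ge hst))
    simpa using this
  obtain ⟨n, hn, hw⟩ := (hT k).chain hδ0 (fun u _ => by simp only [pieceL, pieceR]; linarith [hδ u.2])
    hs ht hst (fun n u => u.1.1 - s.1.1 ∈ words l r n) (by simp [words])
    (fun n u v _ _ huv hu => by
      have e : v.1.1 - s.1.1 = (u.1.1 - s.1.1) + (r u.2 - l v.2) := by
        simp only [pieceL, pieceR] at huv; linarith
      simp only [e, words]
      exact Finset.add_mem_add hu (sub_mem_gens l r _ _))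
  refine words_mono l r ?_ hw
  have h1 : (n : ℝ) * δ ≤ (N : ℝ) * δ := hn.trans (((le_abs_self _).trans hR).trans hN)
  exact_mod_cast le_of_mul_le_mul_right h1 hδ0

/-- A row is eventually periodic in both directions, by recurrence of windows. -/
theorem exists_period (hs : IsShape j l r h) (hT : RowTiling j l r T) (k : ℤ)
    (Per : AddSubgroup ℝ)
    (hold : ∀ v ∈ Per, ∀ b, k - h ≤ b → b < k → ∀ t, ((t + v, b) ∈ T ↔ (t, b) ∈ T))
    (Ξ : Finset ℝ) (hΞ : ∀ t, (t, k) ∈ T → ∃ ξ ∈ Ξ, t - ξ ∈ Per)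
    (L : ℝ) (hL : ∀ a, ∃ t, (t, k) ∈ T ∧ a ≤ t ∧ t ≤ a + L) :
    ∃ Q ∈ Per, 0 < Q ∧ ∀ t, ((t + Q, k) ∈ T ↔ (t, k) ∈ T) := by
  classical
  obtain ⟨δ, hδ0, hδ⟩ := hs.exists_min
  obtain ⟨D₀, hD₀, hD⟩ := hs.exists_bound
  obtain ⟨ia, hia⟩ := hs.zero
  obtain ⟨i₀, hi₀, hmin⟩ := Finset.exists_min_image (Finset.univ.filter fun i => j i = 0) l
    ⟨ia, by simp [hia]⟩
  simp only [Finset.mem_filter, Finset.mem_univ, true_and] at hi₀ hmin
  have hL0 : 0 ≤ L := by obtain ⟨t, -, h1, h2⟩ := hL 0; linarith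
  set D := 2 * D₀ with hDdef
  obtain ⟨N, hN⟩ : ∃ N : ℕ, D ≤ N * δ := ⟨⌈D / δ⌉₊, by rw [← div_le_iff₀ hδ0]; exact Nat.le_ceil _⟩
  choose ξ hξ hξ' using hΞ
  let code : ℝ → Option ℝ × Finset ℝ := fun t =>
    (if ht : (t, k) ∈ T then some (ξ t ht) else none,
      (words l r N).filter fun d => -D ≤ d ∧ d ≤ 0 ∧ (t + d, k) ∈ T)
  let Codes : Finset (Option ℝ × Finset ℝ) := Finset.insertNone Ξ ×ˢ (words l r N).powerset
  have hcode : ∀ t, code t ∈ Codes := fun t => by
    simp only [Codes, code, Finset.mem_product, Finset.mem_powerset, Finset.filter_subset,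
      and_true]
    split_ifs with ht <;> simp [Finset.mem_insertNone, hξ]
  set M := Codes.card with hMdef
  obtain ⟨N', hN'⟩ : ∃ N' : ℕ, ((M : ℝ) + 1) * (L + 1) + L ≤ N' * δ :=
    ⟨⌈(((M : ℝ) + 1) * (L + 1) + L) / δ⌉₊, by rw [← div_le_iff₀ hδ0]; exact Nat.le_ceil _⟩
  have key : ∀ m : ℕ, ∃ v ∈ words l r N', 0 < v ∧ v ∈ Per ∧
      ∀ w, -(m : ℝ) ≤ w → ((w + v, k) ∈ T ↔ (w, k) ∈ T) := by
    intro m
    choose tt htT htlo hthi using hL
    set a₀ := -(m : ℝ) - ((M : ℝ) + 1) * (L + 1) - L with ha₀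
    let pick : ℕ → ℝ := fun n => tt (a₀ + (n : ℝ) * (L + 1))
    obtain ⟨n₁, hn₁, n₂, hn₂, hne, heq⟩ := Finset.exists_ne_map_eq_of_card_lt_of_maps_to
      (s := Finset.range (M + 1)) (t := Codes) (by simp [hMdef])
      (fun n _ => hcode (pick n))
    wlog hlt : n₁ < n₂ generalizing n₁ n₂
    · exact this n₂ hn₂ n₁ hn₁ hne.symm heq.symm (by omega)
    simp only [Finset.mem_range] at hn₁ hn₂
    have hb : ∀ n ≤ M, a₀ ≤ pick n ∧ pick n ≤ a₀ + (M : ℝ) * (L + 1) + L := fun n hn => by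
      have h1 : (n : ℝ) * (L + 1) ≤ (M : ℝ) * (L + 1) := by gcongr
      have h2 : 0 ≤ (n : ℝ) * (L + 1) := by positivity
      exact ⟨by linarith [htlo (a₀ + (n : ℝ) * (L + 1))],
        by linarith [hthi (a₀ + (n : ℝ) * (L + 1))]⟩
    set t₁ := pick n₁
    set t₂ := pick n₂
    set v := t₂ - t₁ with hv
    have hT₁ : (t₁, k) ∈ T := htT _
    have hT₂ : (t₂, k) ∈ T := htT _
    obtain ⟨hc1, hc2⟩ := Prod.ext_iff.1 heq
    simp only [code, dif_pos hT₁, dif_pos hT₂, Option.some.injEq] at hc1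
    have hvP : v ∈ Per := by
      have := Per.sub_mem (hξ' t₂ hT₂) (hξ' t₁ hT₁)
      rw [← hc1] at this
      simpa [hv] using this
    have hvpos : 0 < v := by
      have h1 : ((n₁ : ℝ) + 1) * (L + 1) ≤ (n₂ : ℝ) * (L + 1) := by
        gcongr; exact_mod_cast hlt
      linarith [hthi (a₀ + (n₁ : ℝ) * (L + 1)), htlo (a₀ + (n₂ : ℝ) * (L + 1))]
    have hmem : ∀ t, (t, k) ∈ T → ((t, k), i₀) ∈ rowSet j T k := fun t ht => ⟨ht, by simp [hi₀]⟩
    have hclose : ∀ {t t' : ℝ}, (t, k) ∈ T → (t', k) ∈ T → |t' - t| ≤ D →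
        t' - t ∈ words l r N := fun {t t'} ht ht' hd =>
      row_chain hT hδ0 hδ (hmem t ht) (hmem t' ht') (R := D) (by simpa [pieceL] using hd) hN
    refine ⟨v, ?_, hvpos, hvP, ?_⟩
    · refine row_chain hT hδ0 hδ (hmem t₁ hT₁) (hmem t₂ hT₂)
        (R := ((M : ℝ) + 1) * (L + 1) + L) ?_ hN'
      simp only [pieceL, add_sub_add_right_eq_sub]
      have := (hb n₁ (by omega)).1
      have := (hb n₂ (by omega)).2
      rw [abs_of_pos hvpos]
      linarith
    have base : ∀ w, t₁ - D ≤ w → w ≤ t₁ → ((w + v, k) ∈ T ↔ (w, k) ∈ T) := by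
      intro w h1 h2
      have hd : |(w + v) - t₂| ≤ D := by
        rw [abs_le]; constructor <;> linarith [hD₀.le]
      constructor
      · intro hw
        have hd1 : w - t₁ ∈ words l r N := by
          have := hclose hT₂ hw hd
          rw [show w - t₁ = w + v - t₂ by simp [hv]; ring]
          exact this
        have : w - t₁ ∈ (code t₁).2 := by
          change (code t₁).2 = (code t₂).2 at hc2
          rw [hc2]
          simp only [code, Finset.mem_filter]
          refine ⟨hd1, by linarith, by linarith, ?_⟩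
          convert hw using 2
          simp [hv]; ring
        simp only [code, Finset.mem_filter] at this
        simpa using this.2.2.2
      · intro hw
        have hd1 : w - t₁ ∈ words l r N := by
          refine hclose hT₁ hw ?_
          rw [abs_le]; constructor <;> linarith [hD₀.le]
        have : w - t₁ ∈ (code t₂).2 := by
          change (code t₁).2 = (code t₂).2 at hc2
          rw [← hc2]
          simp only [code, Finset.mem_filter]
          exact ⟨hd1, by linarith, by linarith, by simpa using hw⟩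
        simp only [code, Finset.mem_filter] at this
        convert this.2.2.2 using 2
        simp [hv]; ring
    intro w hw
    have hw' : t₁ - D ≤ w := by linarith [(hb n₁ (by omega)).2, hD₀.le]
    by_contra hbad
    set Bad := {u | (t₁ - D ≤ u ∧ u ≤ w) ∧ ¬((u + v, k) ∈ T ↔ (u, k) ∈ T)}
    have hfin : Bad.Finite := by
      refine ((finite_base hT hs k (t₁ - D) w).union
        ((finite_base hT hs k (t₁ - D + v) (w + v)).image fun u => u - v)).subset ?_
      rintro u ⟨⟨hu1, hu2⟩, hu⟩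
      by_cases hu3 : (u, k) ∈ T
      · exact Or.inl ⟨hu3, hu1, hu2⟩
      · exact Or.inr ⟨u + v, ⟨by tauto, by linarith, by linarith⟩, by simp⟩
    obtain ⟨u, ⟨⟨hu1, hu2⟩, hu⟩, hleast⟩ := Set.exists_min_image Bad id hfin
      ⟨w, ⟨hw', le_rfl⟩, hbad⟩
    have hut : t₁ < u := lt_of_not_ge fun hle => hu (base u hu1 hle)
    have hagree : ∀ z, t₁ - D ≤ z → z < u → ((z + v, k) ∈ T ↔ (z, k) ∈ T) := fun z h1 h2 => by
      by_contra hz
      exact absurd (hleast z ⟨⟨h1, by linarith⟩, hz⟩) (not_le.2 h2)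
    have main : ∀ σ ∈ Per, (∀ z, t₁ - D ≤ z → z < u →
        ((z + σ, k) ∈ T ↔ (z, k) ∈ T)) → (u, k) ∈ T → (u + σ, k) ∈ T := by
      intro σ hσ hag huT
      obtain ⟨⟨⟨y, b⟩, i⟩, ⟨hyT, hyj⟩, hy1, hy2⟩ := (hT k (u + σ + l i₀)).exists
      simp only [pieceL, pieceR] at hy1 hy2 hyj
      rcases (hs.range i).1.eq_or_lt with hji | hji
      · obtain rfl : b = k := by omega
        have hlmin := hmin i hji.symm
        have hle : y - σ ≤ u := by linarith
        rcases hle.eq_or_lt with he | hl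
        · obtain rfl : y = u + σ := by linarith
          exact hyT
        · exfalso
          have h1 : t₁ - D ≤ y - σ := by
            linarith [(abs_le.1 (hD i).2).2, (abs_le.1 (hD i₀).1).1]
          have hz : (y - σ, b) ∈ T := (hag _ h1 hl).1 (by simpa using hyT)
          have := (hT b).eq_of_mem (s := ((u, b), i₀)) (t := ((y - σ, b), i)) (x := u + l i₀)
            (hmem u huT) ⟨hz, hyj⟩ le_rfl (by simp only [pieceR]; linarith [hs.lt i₀])
            (by simp only [pieceL]; linarith) (by simp only [pieceR]; linarith)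
          exact hl.ne' (congrArg (fun s : (ℝ × ℤ) × ι => s.1.1) this)
      · exfalso
        have hz : (y - σ, b) ∈ T := (hold σ hσ b (by linarith [(hs.range i).2])
          (by omega) (y - σ)).1 (by simpa using hyT)
        have := (hT k).eq_of_mem (s := ((u, k), i₀)) (t := ((y - σ, b), i)) (x := u + l i₀)
          (hmem u huT) ⟨hz, hyj⟩ le_rfl (by simp only [pieceR]; linarith [hs.lt i₀])
          (by simp only [pieceL]; linarith) (by simp only [pieceR]; linarith)
        have := congrArg (fun s : (ℝ × ℤ) × ι => s.1.2) this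
        simp only at this
        omega
    apply hu
    constructor
    · intro huv
      by_contra hnu
      obtain ⟨⟨⟨y, b⟩, i⟩, ⟨hyT, hyj⟩, hy1, hy2⟩ := (hT k (u + l i₀)).exists
      simp only [pieceL, pieceR] at hy1 hy2 hyj
      rcases (hs.range i).1.eq_or_lt with hji | hji
      · obtain rfl : b = k := by omega
        have hlmin := hmin i hji.symm
        have hyne : y ≠ u := fun e => hnu (e ▸ hyT)
        have hl : y < u := lt_of_le_of_ne (by linarith) hyne
        have h1 : t₁ - D ≤ y := by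
          linarith [(abs_le.1 (hD i).2).2, (abs_le.1 (hD i₀).1).1]
        have := (hT b).eq_of_mem (s := ((u + v, b), i₀)) (t := ((y + v, b), i))
          (x := u + v + l i₀) (hmem _ huv) ⟨(hagree y h1 hl).2 hyT, hyj⟩ le_rfl
          (by simp only [pieceR]; linarith [hs.lt i₀])
          (by simp only [pieceL]; linarith) (by simp only [pieceR]; linarith)
        exact hl.ne' (add_right_cancel (congrArg (fun s : (ℝ × ℤ) × ι => s.1.1) this))
      · have hz : (y + v, b) ∈ T := (hold v hvP b (by linarith [(hs.range i).2]) (by omega) y).2 hyT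
        have := (hT k).eq_of_mem (s := ((u + v, k), i₀)) (t := ((y + v, b), i))
          (x := u + v + l i₀) (hmem _ huv) ⟨hz, hyj⟩ le_rfl
          (by simp only [pieceR]; linarith [hs.lt i₀])
          (by simp only [pieceL]; linarith) (by simp only [pieceR]; linarith)
        have := congrArg (fun s : (ℝ × ℤ) × ι => s.1.2) this
        simp only at this
        omega
    · exact main v hvP hagree
  choose vv hvW hv0 hvP hvT using key
  obtain ⟨⟨v, hv⟩, hinf⟩ := Finite.exists_infinite_fiber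
    (fun m => (⟨vv m, hvW m⟩ : {x // x ∈ words l r N'}))
  have hinf' := Set.infinite_coe_iff.1 hinf
  obtain ⟨m₀, hm₀⟩ := hinf'.nonempty
  simp only [Set.mem_preimage, Set.mem_singleton_iff, Subtype.mk.injEq] at hm₀
  refine ⟨v, hm₀ ▸ hvP m₀, hm₀ ▸ hv0 m₀, fun t => ?_⟩
  obtain ⟨m, hm, hmt⟩ := hinf'.exists_gt ⌈-t⌉₊
  simp only [Set.mem_preimage, Set.mem_singleton_iff, Subtype.mk.injEq] at hm
  rw [← hm]
  refine hvT m t ?_
  have h1 : ((⌈-t⌉₊ : ℕ) : ℝ) ≤ (m : ℝ) := by exact_mod_cast hmt.le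
  linarith [Nat.le_ceil (-t)]

end Vale.Agent.P043.Rows
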