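import Mathlib
import Vale.Agent.P043.Rows.Dilation
import Vale.Agent.P043.Rows.OneRow

/-!
Helper for P043: periods do not grow from one row to the next.
-/

namespace Vale.Agent.P043.Rows

open Pointwise

set_option linter.unusedSectionVars false

variable {ι : Type} [Fintype ι] {j : ι → ℤ} {l r : ι → ℝ} {h : ℕ} {T : Set (ℝ × ℤ)}

/-- The dilation step. -/
noncomputable def dilStep (ι : Type) [Fintype ι] : ℕ := (4 * Fintype.card ι + 1).factorial

/-- `P` absorbs every endpoint difference commensurable with it. -/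
def GoodPeriod (l r : ι → ℝ) (P : ℝ) : Prop :=
  ∀ g ∈ gens l r, g ≠ 0 → (∃ a b : ℤ, a ≠ 0 ∧ (a : ℝ) * g = b * P) →
    ∃ m : ℤ, P = m * ((dilStep ι : ℝ) * g)

theorem exists_goodPeriod (l r : ι → ℝ) {Q : ℝ} (hQ : 0 < Q) :
    ∃ L : ℕ, 0 < L ∧ GoodPeriod l r ((L : ℝ) * Q) := by
  classical
  have key : ∀ g : ℝ, ∃ L : ℕ, 0 < L ∧ (g ≠ 0 → (∃ a b : ℤ, a ≠ 0 ∧ (a : ℝ) * g = b * Q) →
      ∃ m : ℤ, (L : ℝ) * Q = m * ((dilStep ι : ℝ) * g)) := fun g => by
    by_cases hg : g ≠ 0 ∧ ∃ a b : ℤ, a ≠ 0 ∧ (a : ℝ) * g = b * Q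
    · obtain ⟨hg, a, b, ha, hab⟩ := hg
      have hb : b ≠ 0 := fun e => hg (by simpa [e, ha] using hab)
      refine ⟨dilStep ι * b.natAbs, Nat.mul_pos (Nat.factorial_pos _) (Int.natAbs_pos.2 hb),
        fun _ _ => ?_⟩
      rcases Int.natAbs_eq b with e | e
      · refine ⟨a, ?_⟩
        have e' : (b : ℝ) = ((b.natAbs : ℤ) : ℝ) := congrArg Int.cast e
        rw [Int.cast_natCast] at e'
        push_cast
        rw [← e']
        linear_combination (-(dilStep ι : ℝ)) * hab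
      · refine ⟨-a, ?_⟩
        have e' : (b : ℝ) = -((b.natAbs : ℤ) : ℝ) := by
          rw [← Int.cast_neg]; exact congrArg Int.cast e
        push_cast
        rw [Int.cast_natCast] at e'
        rw [show ((b.natAbs : ℕ) : ℝ) = -(b : ℝ) by linarith]
        linear_combination (dilStep ι : ℝ) * hab
    · exact ⟨1, one_pos, fun h1 h2 => absurd ⟨h1, h2⟩ hg⟩
  choose Lg hLg hLg' using key
  refine ⟨∏ g ∈ gens l r, Lg g, Finset.prod_pos fun g _ => hLg g, fun g hg hg0 ⟨a, b, ha, hab⟩ => ?_⟩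
  obtain ⟨c, hc⟩ := Finset.dvd_prod_of_mem Lg hg
  obtain ⟨m, hm⟩ := hLg' g hg0 ⟨a, b * (∏ g ∈ gens l r, Lg g : ℕ), ha, by rw [hab]; push_cast; ring⟩
  refine ⟨c * m, ?_⟩
  rw [hc]
  push_cast
  linear_combination (c : ℝ) * hm

theorem sum_shift_le (f : ℤ → ℤ) (hf : ∀ n, |f n| ≤ 1) (m : ℤ) (N : ℕ) :
    |∑ n ∈ Finset.range N, (f (n + m) - f n)| ≤ 2 * |m| := by
  have step : ∀ c : ℤ, |∑ n ∈ Finset.range N, (f (n + (c + 1)) - f (n + c))| ≤ 2 := fun c => by
    have h1 := Finset.sum_range_sub (fun n : ℕ => f ((n : ℤ) + c)) N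
    have h2 : ∑ n ∈ Finset.range N, (f (n + (c + 1)) - f (n + c)) = f (N + c) - f (0 + c) := by
      rw [Nat.cast_zero] at h1
      rw [← h1]
      exact Finset.sum_congr rfl fun n _ => by push_cast; ring_nf
    rw [h2]
    linarith [abs_sub (f (N + c)) (f (0 + c)), hf (N + c), hf (0 + c)]
  induction m using Int.induction_on with
  | zero => simp
  | succ k ih =>
    have e : ∑ n ∈ Finset.range N, (f (n + ((k : ℤ) + 1)) - f n) =
        (∑ n ∈ Finset.range N, (f (n + ((k : ℤ) + 1)) - f (n + k))) +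
          ∑ n ∈ Finset.range N, (f (n + k) - f n) := by
      rw [← Finset.sum_add_distrib]
      exact Finset.sum_congr rfl fun n _ => by ring
    rw [e]
    refine (abs_add_le _ _).trans ?_
    rw [abs_of_nonneg (by positivity : (0 : ℤ) ≤ (k : ℤ) + 1)]
    rw [abs_of_nonneg (by positivity : (0 : ℤ) ≤ (k : ℤ))] at ih
    linarith [step k]
  | pred k ih =>
    have e : ∑ n ∈ Finset.range N, (f (n + (-(k : ℤ) - 1)) - f n) =
        (∑ n ∈ Finset.range N, (f (n + -(k : ℤ)) - f n)) -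
          ∑ n ∈ Finset.range N, (f (n + ((-(k : ℤ) - 1) + 1)) - f (n + (-(k : ℤ) - 1))) := by
      rw [← Finset.sum_sub_distrib]
      exact Finset.sum_congr rfl fun n _ => by ring_nf
    rw [e]
    refine (abs_sub _ _).trans ?_
    rw [abs_of_nonpos (by omega : (-(k : ℤ) - 1) ≤ 0)]
    rw [abs_of_nonpos (by omega : (-(k : ℤ)) ≤ 0)] at ih
    linarith [step (-(k : ℤ) - 1)]

theorem count_row {k : ℤ} (c : ι → ℝ)
    (hinj : Set.InjOn (fun s : (ℝ × ℤ) × ι => s.1.1 + c s.2) (rowSet j T k)) (x : ℝ)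
    [Decidable (∃ s ∈ rowSet j T k, s.1.1 + c s.2 = x)]
    [Decidable (∃ s ∈ rowSet j T k, s.1.1 + c s.2 = x ∧ j s.2 ≠ 0)]
    [∀ t, Decidable ((t, k) ∈ T)] :
    (if ∃ s ∈ rowSet j T k, s.1.1 + c s.2 = x then (1 : ℤ) else 0) =
      (∑ i : {i // j i = 0}, if (x - c i, k) ∈ T then (1 : ℤ) else 0) +
        if ∃ s ∈ rowSet j T k, s.1.1 + c s.2 = x ∧ j s.2 ≠ 0 then 1 else 0 := by
  have hnew : ∀ i : {i // j i = 0}, (x - c i, k) ∈ T →
      ((x - c i, k), i.1) ∈ rowSet j T k := fun i hi => ⟨hi, by simp [i.2]⟩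
  by_cases hx : ∃ s ∈ rowSet j T k, s.1.1 + c s.2 = x
  · obtain ⟨s, hsr, hsx⟩ := hx
    rw [if_pos ⟨s, hsr, hsx⟩]
    have huniq : ∀ s' ∈ rowSet j T k, s'.1.1 + c s'.2 = x → s' = s := fun s' h1 h2 =>
      hinj h1 hsr (by simp only; rw [h2, hsx])
    by_cases hji : j s.2 = 0
    · rw [if_neg, add_zero, Finset.sum_eq_single ⟨s.2, hji⟩]
      · have hb : s.1.2 = k := by have := hsr.2; omega
        rw [if_pos]
        have e : (x - c s.2, k) = s.1 := Prod.ext (by simp only; linarith) hb.symm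
        rw [e]; exact hsr.1
      · intro i' _ hne'
        rw [if_neg]
        intro h1
        exact hne' (Subtype.ext (congrArg Prod.snd (huniq _ (hnew i' h1) (by simp))))
      · simp
      · rintro ⟨s', h1, h2, h3⟩
        exact h3 (by rw [huniq s' h1 h2]; exact hji)
    · rw [if_pos ⟨s, hsr, hsx, hji⟩, Finset.sum_eq_zero, zero_add]
      intro i' _
      rw [if_neg]
      intro h1
      exact hji (by rw [← congrArg Prod.snd (huniq _ (hnew i' h1) (by simp))]; exact i'.2)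
  · rw [if_neg hx, if_neg (fun ⟨s, h1, h2, _⟩ => hx ⟨s, h1, h2⟩), Finset.sum_eq_zero, add_zero]
    intro i' _
    rw [if_neg]
    intro h1
    exact hx ⟨_, hnew i' h1, by simp⟩

/-- The averaging argument: a periodic set satisfying the equation has period `P`. -/
theorem periodic_of_equation {κ : Type} [Fintype κ] (a : ℝ → ℤ)
    (ha : ∀ t, 0 ≤ a t ∧ a t ≤ 1) {P Q : ℝ} (hQ : 0 < Q) (hQa : ∀ t, a (t + Q) = a t)
    (hsupp : {t : ℝ | a t ≠ 0 ∧ 0 ≤ t ∧ t ≤ Q}.Finite) (NQ : ℤ) (hNQ : (NQ : ℝ) * P = Q)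
    (v : κ → ℝ) (cc : κ → ℤ) (u₀ : κ) (hu₀ : cc u₀ = 1) (hcc : ∀ u, |cc u| = 1)
    (q : ℕ) (hq : 0 < q) (hqp : ∀ p : ℕ, p.Prime → p < 2 * Fintype.card κ + 1 → p ∣ q)
    (hne : ∀ u ≠ u₀, v u ≠ v u₀)
    (hgood : ∀ u, v u - v u₀ ≠ 0 →
      (∃ c d : ℤ, c ≠ 0 ∧ (c : ℝ) * (v u - v u₀) = d * P) →
      ∃ m : ℤ, P = m * ((q : ℝ) * (v u - v u₀)))
    (heq : ∀ x, ∑ u, cc u * (a (x - v u + P) - a (x - v u)) = 0) :
    ∀ t, a (t + P) = a t := by
  classical
  let b : ℝ → ℤ := fun t => a (t + P) - a t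
  have hb : ∀ t, |b t| ≤ 1 := fun t => by
    rw [abs_le]; constructor <;> simp only [b] <;> linarith [ha t, ha (t + P)]
  have hdil : ∀ (n : ℕ) x, ∑ u, cc u * b (x - (1 + n * q) • v u) = 0 := by
    intro n x
    refine sum_dilate cc v b 0 (2 * Fintype.card κ + 1) (fun w y => ?_) (by simp) heq _
      (fun p hp hd => ?_) (by positivity) x
    · rw [sub_zero]
      refine lt_of_le_of_lt (Finset.abs_sum_le_sum_abs _ _) (lt_of_le_of_lt
        (Finset.sum_le_sum (g := fun _ => (1 : ℤ)) fun u _ => ?_) ?_)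
      · rw [abs_mul, hcc, one_mul]; exact hb _
      · simp only [Finset.sum_const, Finset.card_univ, nsmul_eq_mul, mul_one]
        push_cast
        omega
    · by_contra hlt
      have h1 : p ∣ q := hqp p hp (by omega)
      exact hp.ne_one (Nat.dvd_one.1 ((Nat.dvd_add_left (h1.mul_left n)).1 hd))
  let g : κ → ℝ := fun u => v u - v u₀
  have hbsolve : ∀ x (n : ℕ), b x = -∑ u ∈ Finset.univ.erase u₀,
      cc u * b (x - (1 + n * q : ℕ) • g u) := by
    intro x n
    have := hdil n (x + (1 + n * q : ℕ) • v u₀)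
    rw [← Finset.add_sum_erase _ _ (Finset.mem_univ u₀)] at this
    simp only [add_sub_cancel_right] at this
    rw [hu₀, one_mul] at this
    have e2 : ∀ u, x + (1 + n * q : ℕ) • v u₀ - (1 + n * q : ℕ) • v u =
        x - (1 + n * q : ℕ) • g u := fun u => by simp only [g, smul_sub]; abel
    simp only [e2] at this
    linarith
  have hmod : ∀ t, a (toIcoMod hQ 0 t) = a t := by
    have hp : Function.Periodic a Q := hQa
    intro t
    conv_rhs => rw [← toIcoMod_add_toIcoDiv_zsmul hQ 0 t]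
    exact ((hp.zsmul _) _).symm
  have hbound : ∀ x, ∀ u ∈ Finset.univ.erase u₀, ∃ C : ℤ, ∀ N : ℕ,
      |∑ n ∈ Finset.range N,
        (b (x + P - (1 + n * q : ℕ) • g u) - b (x - (1 + n * q : ℕ) • g u))| ≤ C := by
    intro x u hu
    have hg0 : g u ≠ 0 := sub_ne_zero.2 (hne u (Finset.ne_of_mem_erase hu))
    by_cases hcom : ∃ c d : ℤ, c ≠ 0 ∧ (c : ℝ) * g u = d * P
    · obtain ⟨m, hm⟩ := hgood u hg0 hcom
      let f : ℤ → ℤ := fun n => b (x - g u - n * ((q : ℝ) * g u))
      refine ⟨2 * |-m|, fun N => le_trans (le_of_eq (congrArg _ (Finset.sum_congr rfl ?_)))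
        (sum_shift_le f (fun n => hb _) (-m) N)⟩
      intro n _
      simp only [f, nsmul_eq_mul]
      congr 1 <;> congr 1 <;> push_cast
      · linear_combination hm
      · ring
    · have hfin : ∀ y, {n : ℕ | a (y - (1 + n * q : ℕ) • g u) ≠ 0}.Finite := by
        intro y
        refine Set.Finite.of_injOn
          (f := fun n : ℕ => toIcoMod hQ 0 (y - (1 + n * q : ℕ) • g u))
          (t := {t : ℝ | a t ≠ 0 ∧ 0 ≤ t ∧ t ≤ Q})
          (fun n hn => ⟨by rw [hmod]; exact hn, (toIcoMod_mem_Ico hQ 0 _).1,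
            by simpa using (toIcoMod_mem_Ico hQ 0 (y - (1 + n * q : ℕ) • g u)).2.le⟩) ?_ hsupp
        intro n _ n' _ he
        obtain ⟨e, he'⟩ := (toIcoMod_eq_toIcoMod hQ).1 he
        by_contra hne'
        apply hcom
        refine ⟨((q : ℤ) * ((n : ℤ) - n')), e * NQ,
          mul_ne_zero (by omega) (by omega), ?_⟩
        simp only [zsmul_eq_mul, nsmul_eq_mul] at he'
        rw [← hNQ] at he'
        push_cast at he' ⊢
        linarith
      have hsum : ∀ y N, |∑ n ∈ Finset.range N, a (y - (1 + n * q : ℕ) • g u)| ≤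
          ((hfin y).toFinset.card : ℤ) := by
        intro y N
        refine (Finset.abs_sum_le_sum_abs _ _).trans ?_
        rw [← Finset.sum_filter_ne_zero]
        refine (Finset.sum_le_card_nsmul _ _ 1 fun n _ => abs_le.2
          ⟨by linarith [(ha (y - (1 + n * q : ℕ) • g u)).1],
            (ha (y - (1 + n * q : ℕ) • g u)).2⟩).trans ?_
        simp only [nsmul_eq_mul, mul_one, Nat.cast_le]
        refine Finset.card_le_card fun n hn => ?_
        simp only [Finset.mem_filter, abs_ne_zero] at hn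
        simpa using hn.2
      refine ⟨((hfin (x + P + P)).toFinset.card : ℤ) + (hfin (x + P)).toFinset.card +
        ((hfin (x + P)).toFinset.card + (hfin x).toFinset.card), fun N => ?_⟩
      have e : ∀ y (n : ℕ), b (y - (1 + n * q : ℕ) • g u) =
          a (y + P - (1 + n * q : ℕ) • g u) - a (y - (1 + n * q : ℕ) • g u) := fun y n => by
        simp only [b, sub_add_eq_add_sub]
      simp only [e, Finset.sum_sub_distrib]
      have h1 := abs_le.1 (hsum (x + P + P) N)
      have h2 := abs_le.1 (hsum (x + P) N)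
      have h3 := abs_le.1 (hsum x N)
      rw [abs_le]
      constructor <;> linarith
  have hbper : ∀ x, b (x + P) = b x := by
    intro x
    choose! C hC using hbound x
    by_contra hne'
    set S := ∑ u ∈ Finset.univ.erase u₀, C u
    set N := S.natAbs + 1
    have e : (N : ℤ) * (b (x + P) - b x) = -∑ u ∈ Finset.univ.erase u₀, cc u *
        ∑ n ∈ Finset.range N,
          (b (x + P - (1 + n * q : ℕ) • g u) - b (x - (1 + n * q : ℕ) • g u)) := by
      have e0 : ∀ n : ℕ, b (x + P) - b x = -∑ u ∈ Finset.univ.erase u₀, cc u *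
          (b (x + P - (1 + n * q : ℕ) • g u) - b (x - (1 + n * q : ℕ) • g u)) := fun n => by
        rw [hbsolve (x + P) n, hbsolve x n]
        simp only [mul_sub, Finset.sum_sub_distrib]
        ring
      have := Finset.sum_congr rfl (fun n (_ : n ∈ Finset.range N) => e0 n)
      rw [Finset.sum_const, Finset.card_range, nsmul_eq_mul, Finset.sum_neg_distrib,
        Finset.sum_comm] at this
      simpa only [Finset.mul_sum] using this
    have h1 : |(N : ℤ) * (b (x + P) - b x)| ≤ S := by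
      rw [e, abs_neg]
      refine (Finset.abs_sum_le_sum_abs _ _).trans (Finset.sum_le_sum fun u hu => ?_)
      rw [abs_mul, hcc, one_mul]
      exact hC u hu N
    rw [abs_mul, Nat.abs_cast] at h1
    have h2 : 1 ≤ |b (x + P) - b x| := Int.one_le_abs (sub_ne_zero.2 hne')
    have h3 : (N : ℤ) ≤ S := le_trans (le_mul_of_one_le_right (by positivity) h2) h1
    have h4 : S ≤ (S.natAbs : ℤ) := Int.le_natAbs
    simp only [N] at h3
    push_cast at h3 h4
    linarith
  intro t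
  have e1 := hbper t
  have e2 := hbper (t + P)
  simp only [b] at e1 e2
  have := ha t; have := ha (t + P); have := ha (t + P + P); have := ha (t + P + P + P)
  omega

theorem row_periodic (hs : IsShape j l r h) (hT : RowTiling j l r T) (k : ℤ) {P : ℝ} (hP : 0 < P)
    (hgood : GoodPeriod l r P)
    (hold : ∀ b, k - h ≤ b → b < k → ∀ t, ((t + P, b) ∈ T ↔ (t, b) ∈ T))
    (hex : ∃ s ∈ rowSet j T k, j s.2 ≠ 0) : ∀ t, ((t + P, k) ∈ T ↔ (t, k) ∈ T) := by
  classical
  obtain ⟨δ, hδ0, hδ⟩ := hs.exists_min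
  obtain ⟨D₀, hD₀, hD⟩ := hs.exists_bound
  by_cases hne : ∃ t, (t, k) ∈ T
  swap
  · intro t
    exact ⟨fun hh => absurd ⟨_, hh⟩ hne, fun hh => absurd ⟨_, hh⟩ hne⟩
  obtain ⟨tn, htn⟩ := hne
  obtain ⟨ia, hia⟩ := hs.zero
  obtain ⟨i₀, hi₀, hmin⟩ := Finset.exists_min_image (Finset.univ.filter fun i => j i = 0) l
    ⟨ia, by simp [hia]⟩
  simp only [Finset.mem_filter, Finset.mem_univ, true_and] at hi₀ hmin
  -- the subgroup of periods
  have holdm : ∀ v ∈ AddSubgroup.zmultiples P, ∀ b, k - h ≤ b → b < k → ∀ t,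
      ((t + v, b) ∈ T ↔ (t, b) ∈ T) := by
    intro v hv b hb1 hb2
    obtain ⟨m, rfl⟩ := hv
    induction m using Int.induction_on with
    | zero => simp
    | succ m ih =>
      intro t
      have e : t + ((m : ℤ) + 1) • P = (t + (m : ℤ) • P) + P := by simp [add_smul]; ring
      simp only [e]
      rw [hold b hb1 hb2, ih]
    | pred m ih =>
      intro t
      rw [← ih t]
      have e : t + (-(m : ℤ)) • P = (t + (-(m : ℤ) - 1) • P) + P := by simp [sub_smul]; ring
      simp only [e]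
      rw [hold b hb1 hb2]
  have holdz : ∀ (m : ℤ) b, k - h ≤ b → b < k → ∀ t, ((t + m * P, b) ∈ T ↔ (t, b) ∈ T) :=
    fun m => holdm _ ⟨m, by simp⟩
  obtain ⟨⟨⟨t₀, b₀⟩, io⟩, ⟨hoT, hoj⟩, hojne⟩ := hex
  simp only at hoj hojne hoT
  have hb₀ : k - h ≤ b₀ ∧ b₀ < k := by
    have := hs.range io
    constructor <;> omega
  obtain ⟨N, hN⟩ : ∃ N : ℕ, P ≤ N * δ := ⟨⌈P / δ⌉₊, by rw [← div_le_iff₀ hδ0]; exact Nat.le_ceil _⟩
  have hΞ : ∀ t, (t, k) ∈ T → ∃ ξ ∈ (words l r N).image (fun d => t₀ + d),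
      t - ξ ∈ AddSubgroup.zmultiples P := by
    intro t ht
    set m := ⌊((t + l i₀) - (t₀ + l io)) / P⌋ with hm
    have h1 := Int.floor_le (((t + l i₀) - (t₀ + l io)) / P)
    have h2 := Int.lt_floor_add_one (((t + l i₀) - (t₀ + l io)) / P)
    rw [← hm, le_div_iff₀ hP] at h1
    rw [← hm, div_lt_iff₀ hP] at h2
    have hw := row_chain hT hδ0 hδ (s := ((t₀ + m * P, b₀), io)) (t := ((t, k), i₀)) (k := k)
      ⟨(holdz m b₀ hb₀.1 hb₀.2 t₀).2 hoT, hoj⟩ ⟨ht, by simp [hi₀]⟩ (R := P)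
      (by simp only [pieceL]; rw [abs_le]; constructor <;> linarith) hN
    refine ⟨t₀ + (t - (t₀ + m * P)), Finset.mem_image_of_mem _ hw, ⟨m, ?_⟩⟩
    simp only [zsmul_eq_mul]
    ring
  have hL : ∀ a, ∃ t, (t, k) ∈ T ∧ a ≤ t ∧ t ≤ a + (P + 4 * D₀) := by
    intro a
    set x₀ := tn + l i₀
    set m := ⌈(a + 2 * D₀ - x₀) / P⌉ with hm
    have h1 := Int.le_ceil ((a + 2 * D₀ - x₀) / P)
    have h2 := Int.ceil_lt_add_one ((a + 2 * D₀ - x₀) / P)
    rw [← hm, div_le_iff₀ hP] at h1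
    rw [← hm, ← sub_lt_iff_lt_add, lt_div_iff₀ hP] at h2
    obtain ⟨⟨⟨y, b⟩, i⟩, ⟨hyT, hyj⟩, hy1, hy2⟩ := (hT k (x₀ + m * P)).exists
    simp only [pieceL, pieceR] at hy1 hy2 hyj
    rcases (hs.range i).1.eq_or_lt with hji | hji
    · obtain rfl : b = k := by omega
      refine ⟨y, hyT, ?_, ?_⟩
      · linarith [(abs_le.1 (hD i).2).2]
      · linarith [(abs_le.1 (hD i).1).1]
    · exfalso
      have hz : (y - m * P, b) ∈ T := (holdz m b (by linarith [(hs.range i).2]) (by omega)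
        (y - m * P)).1 (by simpa using hyT)
      have := (hT k).eq_of_mem (s := ((tn, k), i₀)) (t := ((y - m * P, b), i)) (x := x₀)
        ⟨htn, by simp [hi₀]⟩ ⟨hz, hyj⟩ le_rfl
        (by simp only [pieceR, x₀]; linarith [hs.lt i₀])
        (by simp only [pieceL]; linarith) (by simp only [pieceR]; linarith)
      have := congrArg (fun s : (ℝ × ℤ) × ι => s.1.2) this
      simp only at this
      omega
  obtain ⟨Q, hQmem, hQ, hQT⟩ := exists_period hs hT k _ holdm _ hΞ _ hL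
  obtain ⟨NQ, hNQ⟩ := hQmem
  simp only [zsmul_eq_mul] at hNQ
  -- the equation for the indicator
  let a : ℝ → ℤ := fun t => if (t, k) ∈ T then 1 else 0
  let b : ℝ → ℤ := fun t => a (t + P) - a t
  have ha : ∀ t, 0 ≤ a t ∧ a t ≤ 1 := fun t => by simp only [a]; split_ifs <;> simp
  have hb : ∀ t, |b t| ≤ 1 := fun t => by
    rw [abs_le]; constructor <;> simp only [b] <;> linarith [ha t, ha (t + P)]
  have hS : ∀ x, (∃ s ∈ rowSet j T k, pieceL l s = x) ↔ ∃ s ∈ rowSet j T k, pieceR r s = x := by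
    have hlen : ∀ s ∈ rowSet j T k, pieceL l s + δ ≤ pieceR r s := fun s _ => by
      simp only [pieceL, pieceR]; linarith [hδ s.2]
    intro x
    constructor
    · rintro ⟨s, hs', rfl⟩
      exact (hT k).exists_pred hδ0 hlen hs'
    · rintro ⟨s, hs', rfl⟩
      exact (hT k).exists_succ hδ0 hlen hs'
  have injL : Set.InjOn (fun s : (ℝ × ℤ) × ι => s.1.1 + l s.2) (rowSet j T k) :=
    fun s hs1 t ht1 e => (hT k).eq_of_mem hs1 ht1 (x := s.1.1 + l s.2) le_rfl
      (by simp only [pieceR]; linarith [hs.lt s.2])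
      (by simp only [pieceL]; simp only at e; linarith)
      (by simp only [pieceR]; simp only at e; linarith [hs.lt t.2])
  have injR : Set.InjOn (fun s : (ℝ × ℤ) × ι => s.1.1 + r s.2) (rowSet j T k) :=
    fun s hs1 t ht1 e => (hT k).eq_of_mem hs1 ht1 (x := s.1.1 + r s.2 - δ)
      (by simp only [pieceL]; linarith [hδ s.2]) (by simp only [pieceR]; linarith)
      (by simp only [pieceL]; simp only at e; linarith [hδ t.2])
      (by simp only [pieceR]; simp only at e; linarith)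
  have holdper : ∀ (c : ι → ℝ) x, (∃ s ∈ rowSet j T k, s.1.1 + c s.2 = x + P ∧ j s.2 ≠ 0) ↔
      ∃ s ∈ rowSet j T k, s.1.1 + c s.2 = x ∧ j s.2 ≠ 0 := by
    intro c x
    constructor
    · rintro ⟨⟨⟨t, bb⟩, i⟩, ⟨hsT, hsj⟩, hsx, hji⟩
      simp only at hsx hsj hji hsT
      have hr := hs.range i
      refine ⟨((t - P, bb), i), ⟨(hold bb (by omega) (by omega) (t - P)).1 (by simpa using hsT),
        hsj⟩, by simp only; linarith, hji⟩
    · rintro ⟨⟨⟨t, bb⟩, i⟩, ⟨hsT, hsj⟩, hsx, hji⟩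
      simp only at hsx hsj hji hsT
      have hr := hs.range i
      exact ⟨((t + P, bb), i), ⟨(hold bb (by omega) (by omega) t).2 hsT, hsj⟩,
        by simp only; linarith, hji⟩
  let v : {i // j i = 0} ⊕ {i // j i = 0} → ℝ := Sum.elim (fun i => l i) (fun i => r i)
  let cc : {i // j i = 0} ⊕ {i // j i = 0} → ℤ := Sum.elim (fun _ => 1) (fun _ => -1)
  have heq : ∀ x, ∑ u, cc u * b (x - v u) = 0 := by
    intro x
    have eL := count_row (j := j) (T := T) (k := k) l injL
    have eR := count_row (j := j) (T := T) (k := k) r injR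
    have hst : ∀ y, (if ∃ s ∈ rowSet j T k, s.1.1 + l s.2 = y then (1 : ℤ) else 0) =
        if ∃ s ∈ rowSet j T k, s.1.1 + r s.2 = y then 1 else 0 := fun y =>
      if_congr (hS y) rfl rfl
    have h1 := hst (x + P)
    have h0 := hst x
    rw [eL, eR] at h1 h0
    simp only [holdper] at h1
    rw [Fintype.sum_sum_type]
    simp only [cc, v, b, Sum.elim_inl, Sum.elim_inr, one_mul, neg_one_mul,
      Finset.sum_neg_distrib, Finset.sum_sub_distrib, sub_add_eq_add_sub]
    linarith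
  have hb₁ : ∀ t, a (t + Q) = a t := fun t => by
    simp only [a]; exact if_congr (hQT t) rfl rfl
  have hfin : {t : ℝ | a t ≠ 0 ∧ 0 ≤ t ∧ t ≤ Q}.Finite :=
    (finite_base hT hs k 0 Q).subset fun t ⟨h1, h2⟩ => ⟨by simpa [a] using h1, h2⟩
  have hper := periodic_of_equation a ha hQ hb₁ hfin NQ hNQ v cc (Sum.inl ⟨i₀, hi₀⟩) rfl
    (fun u => by rcases u with i | i <;> simp [cc]) (dilStep ι) (Nat.factorial_pos _)
    (fun p hp hlt => (Nat.Prime.dvd_factorial hp).2 ?_) ?_ ?_ heq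
  · intro t
    have := hper t
    simp only [a] at this
    split_ifs at this with h1 h2 h2 <;> simp_all
  · have : Fintype.card ({i // j i = 0} ⊕ {i // j i = 0}) ≤ 2 * Fintype.card ι := by
      rw [Fintype.card_sum]
      have := Fintype.card_subtype_le (fun i => j i = 0)
      omega
    omega
  · intro u hu
    rcases u with i | i
    · intro e
      have hne'' : i.1 ≠ i₀ := fun e' => hu (by simp [← e'])
      simp only [v, Sum.elim_inl] at e
      rcases hs.disjoint i.1 i₀ hne'' (by rw [i.2, hi₀]) with h1 | h1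
      · linarith [hs.lt i.1]
      · linarith [hs.lt i₀]
    · intro e
      simp only [v, Sum.elim_inl, Sum.elim_inr] at e
      linarith [hs.lt i.1, hmin i.1 i.2]
  · intro u hu hcom
    refine hgood _ ?_ hu hcom
    simp only [gens, Finset.mem_insert]
    refine Or.inr (Finset.sub_mem_sub ?_ (by simp [v]))
    rcases u with i | i <;> simp [v]

end Vale.Agent.P043.Rows
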