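import Mathlib
import Vale.Agent.P043.Rows.Shape

/-!
Helper for P043: integer models of a tile with real endpoints.
-/

namespace Vale.Agent.P043.Rows

open Pointwise

set_option linter.unusedSectionVars false

variable {ι : Type} [Fintype ι] {j : ι → ℤ} {l r : ι → ℝ} {h : ℕ}

theorem RowPart.image {α β K : Type*} [CommRing K] [LinearOrder K] {S : Set α} {S' : Set β}
    {p q : α → K} {p' q' : β → K} (hS : RowPart S p q) (g : α → β) (hg : ∀ s ∈ S, g s ∈ S')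
    (hsurj : ∀ s' ∈ S', ∃ s ∈ S, g s = s') (hp : ∀ s ∈ S, p' (g s) = p s)
    (hq : ∀ s ∈ S, q' (g s) = q s) : RowPart S' p' q' := by
  intro x
  obtain ⟨s, ⟨hs, h1, h2⟩, huniq⟩ := hS x
  refine ⟨g s, ⟨hg s hs, by rwa [hp s hs], by rwa [hq s hs]⟩, ?_⟩
  rintro t ⟨ht, ht1, ht2⟩
  obtain ⟨u, hu, rfl⟩ := hsurj t ht
  rw [hp u hu] at ht1
  rw [hq u hu] at ht2
  rw [huniq u ⟨hu, ht1, ht2⟩]

/-- A rational additive map close to a multiple of the identity on a finite set. -/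
theorem exists_approx (E : Finset ℝ) {ε : ℝ} (hε : 0 < ε) :
    ∃ (Φ : ℝ →+ ℚ) (M : ℕ), 0 < M ∧
      ∀ e ∈ E, (∃ z : ℤ, Φ e = z) ∧ |(Φ e : ℝ) / M - e| ≤ ε := by
  classical
  let V := Submodule.span ℚ (E : Set ℝ)
  have : FiniteDimensional ℚ V := FiniteDimensional.span_finset ℚ E
  let b := Module.finBasis ℚ V
  set S := ∑ e ∈ E, if he : e ∈ V then ∑ i, |((b.repr ⟨e, he⟩ i : ℚ) : ℝ)| else 0 with hS
  have hSnn : 0 ≤ S := Finset.sum_nonneg fun e _ => by
    split_ifs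
    · exact Finset.sum_nonneg fun i _ => abs_nonneg _
    · exact le_rfl
  have hη : 0 < ε / (S + 1) := div_pos hε (by linarith)
  choose qa hq1 hq2 using fun i => exists_rat_btwn (lt_add_of_pos_right (b i : ℝ) hη)
  obtain ⟨ψ, hψ⟩ := LinearMap.exists_extend (b.constr ℚ qa)
  have happ : ∀ e ∈ E, |(ψ e : ℝ) - e| ≤ ε := by
    intro e he
    have heV : e ∈ V := Submodule.subset_span he
    set x : V := ⟨e, heV⟩ with hx
    have e1 : ψ e = ∑ i, b.repr x i * qa i := by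
      have := LinearMap.congr_fun hψ x
      simp only [LinearMap.comp_apply, Submodule.subtype_apply, hx] at this
      rw [this, Module.Basis.constr_apply_fintype]
      simp [hx, smul_eq_mul]
    have e2 : e = ∑ i, (b.repr x i : ℝ) * (b i : ℝ) := by
      have hsum := congrArg V.subtype (b.sum_repr x)
      simp only [map_sum, map_smul, Submodule.subtype_apply, Rat.smul_def] at hsum
      exact hsum.symm
    conv_lhs => rw [e1]; rhs; rw [e2]
    push_cast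
    rw [← Finset.sum_sub_distrib]
    refine (Finset.abs_sum_le_sum_abs _ _).trans ?_
    calc ∑ i, |(b.repr x i : ℝ) * (qa i : ℝ) - (b.repr x i : ℝ) * (b i : ℝ)|
        ≤ ∑ i, |(b.repr x i : ℝ)| * (ε / (S + 1)) := Finset.sum_le_sum fun i _ => by
          rw [← mul_sub, abs_mul]
          refine mul_le_mul_of_nonneg_left ?_ (abs_nonneg _)
          rw [abs_of_pos (by linarith [hq1 i])]
          linarith [hq2 i]
      _ = (∑ i, |(b.repr x i : ℝ)|) * (ε / (S + 1)) := (Finset.sum_mul ..).symm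
      _ ≤ S * (ε / (S + 1)) := by
          refine mul_le_mul_of_nonneg_right ?_ hη.le
          have := Finset.single_le_sum
            (f := fun e => if he : e ∈ V then ∑ i, |((b.repr ⟨e, he⟩ i : ℚ) : ℝ)| else 0)
            (fun e _ => by
              split_ifs
              · exact Finset.sum_nonneg fun i _ => abs_nonneg _
              · exact le_rfl) he
          rw [dif_pos heV] at this
          exact this
      _ ≤ ε := by
          rw [mul_div_assoc', div_le_iff₀ (by linarith)]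
          nlinarith
  set M := ∏ e ∈ E, (ψ e).den
  refine ⟨(M : ℕ) • ψ.toAddMonoidHom, M, Finset.prod_pos fun e _ => (ψ e).den_pos,
    fun e he => ⟨?_, ?_⟩⟩
  · obtain ⟨c, hc⟩ : (ψ e).den ∣ M := Finset.dvd_prod_of_mem _ he
    refine ⟨c * (ψ e).num, ?_⟩
    simp only [AddMonoidHom.coe_smul, Pi.smul_apply, LinearMap.toAddMonoidHom_coe, nsmul_eq_mul, hc]
    push_cast
    rw [← Rat.mul_den_eq_num]
    ring
  · have hM : (M : ℝ) ≠ 0 := by
      exact_mod_cast (Finset.prod_pos fun e _ => (ψ e).den_pos).ne'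
    simp only [AddMonoidHom.coe_smul, Pi.smul_apply, LinearMap.toAddMonoidHom_coe, nsmul_eq_mul]
    push_cast
    rw [mul_div_cancel_left₀ _ hM]
    exact happ e he

/-- An integer model: endpoints go to integers, nearly proportionally, and no short sum of
endpoint differences is lost. -/
structure IsModel (l r : ι → ℝ) (δ : ℝ) (K : ℕ) (ε : ℝ) (Φ : ℝ →+ ℚ) (M : ℕ)
    (lZ rZ : ι → ℤ) : Prop where
  pos : 0 < M
  left : ∀ i, Φ (l i) = lZ i
  right : ∀ i, Φ (r i) = rZ i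
  near : ∀ i, |(lZ i : ℝ) / M - l i| ≤ ε ∧ |(rZ i : ℝ) / M - r i| ≤ ε
  long : ∀ i, (lZ i : ℝ) + (δ / 2) * M ≤ rZ i
  faithful : ∀ γ ∈ words l r K, Φ γ = 0 → γ = 0

theorem exists_model (l r : ι → ℝ) {δ : ℝ} (hδ0 : 0 < δ) (hδ : ∀ i, l i + δ ≤ r i) (K : ℕ)
    {ε₀ : ℝ} (hε₀ : 0 < ε₀) :
    ∃ Φ M lZ rZ, IsModel l r δ K ε₀ Φ M lZ rZ := by
  classical
  obtain ⟨μ, hμ0, hμ⟩ : ∃ μ > 0, ∀ γ ∈ words l r K, γ ≠ 0 → μ ≤ |γ| := by
    rcases ((words l r K).filter (· ≠ 0)).eq_empty_or_nonempty with he | hne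
    · exact ⟨1, one_pos, fun γ hγ h0 => absurd (a := γ ∈ (words l r K).filter (· ≠ 0))
        (Finset.mem_filter.2 ⟨hγ, h0⟩) (by simp [he])⟩
    · obtain ⟨γ₀, hγ₀, hmin⟩ := Finset.exists_min_image _ (fun γ => |γ|) hne
      exact ⟨|γ₀|, abs_pos.2 (Finset.mem_filter.1 hγ₀).2,
        fun γ hγ h0 => hmin γ (Finset.mem_filter.2 ⟨hγ, h0⟩)⟩
  set ε := min ε₀ (min (δ / 4) (μ / (4 * (K + 1)))) with hεdef
  have hε : 0 < ε := lt_min hε₀ (lt_min (by positivity) (by positivity))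
  set E := Finset.univ.image l ∪ Finset.univ.image r with hE
  obtain ⟨Φ, M, hM, hΦ⟩ := exists_approx E hε
  choose lZ hlZ using fun i => (hΦ (l i) (by simp [hE])).1
  choose rZ hrZ using fun i => (hΦ (r i) (by simp [hE])).1
  have hn1 : ∀ i, |(lZ i : ℝ) / M - l i| ≤ ε := fun i => by
    have := (hΦ (l i) (by simp [hE])).2
    rwa [hlZ i, Rat.cast_intCast] at this
  have hn2 : ∀ i, |(rZ i : ℝ) / M - r i| ≤ ε := fun i => by
    have := (hΦ (r i) (by simp [hE])).2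
    rwa [hrZ i, Rat.cast_intCast] at this
  have hMr : (0 : ℝ) < M := by exact_mod_cast hM
  refine ⟨Φ, M, lZ, rZ, hM, hlZ, hrZ, fun i =>
    ⟨(hn1 i).trans (min_le_left _ _), (hn2 i).trans (min_le_left _ _)⟩, fun i => ?_, ?_⟩
  · have h4 : ε ≤ δ / 4 := (min_le_right _ _).trans (min_le_left _ _)
    have h1 := (abs_le.1 (hn1 i)).2
    have h2 := (abs_le.1 (hn2 i)).1
    rw [sub_le_iff_le_add, div_le_iff₀ hMr] at h1
    rw [le_sub_iff_add_le, le_div_iff₀ hMr] at h2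
    nlinarith [hδ i]
  · have hg : ∀ g ∈ gens l r, |(Φ g : ℝ) / M - g| ≤ 2 * ε := by
      intro g hg
      simp only [gens, Finset.mem_insert] at hg
      rcases hg with rfl | hg
      · simp [hε.le]
      · obtain ⟨a, ha, c, hc, rfl⟩ := Finset.mem_sub.1 hg
        rw [map_sub, Rat.cast_sub, sub_div]
        have h1 := abs_le.1 (hΦ a ha).2
        have h2 := abs_le.1 (hΦ c hc).2
        rw [abs_le]
        constructor <;> linarith
    have hw : ∀ n, ∀ γ ∈ words l r n, |(Φ γ : ℝ) / M - γ| ≤ n * (2 * ε) := by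
      intro n
      induction n with
      | zero => simp [words]
      | succ n ih =>
        intro γ hγ
        obtain ⟨a, ha, g, hg', rfl⟩ := Finset.mem_add.1 hγ
        rw [map_add, Rat.cast_add, add_div]
        have h1 := abs_le.1 (ih a ha)
        have h2 := abs_le.1 (hg g hg')
        push_cast
        rw [abs_le]
        constructor <;> linarith
    intro γ hγ h0
    by_contra hne
    have h1 := hw K γ hγ
    rw [h0, Rat.cast_zero, zero_div, zero_sub, abs_neg] at h1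
    have h2 := hμ γ hγ hne
    have h3 : ε ≤ μ / (4 * (K + 1)) := (min_le_right _ _).trans (min_le_right _ _)
    rw [le_div_iff₀ (by positivity)] at h3
    nlinarith

/-- A tiling goes to a tiling of the integer model. -/
theorem int_tiling {T : Set (ℝ × ℤ)} (hT : RowTiling j l r T) {δ : ℝ} (hδ0 : 0 < δ)
    (hδ : ∀ i, l i + δ ≤ r i) (Φ : ℝ →+ ℚ) (lZ rZ : ι → ℤ) (hlt : ∀ i, lZ i < rZ i)
    (hl : ∀ i, Φ (l i) = lZ i) (hr : ∀ i, Φ (r i) = rZ i) :
    RowTiling j lZ rZ ((fun x : ℝ × ℤ => (⌊Φ x.1⌋, x.2)) '' T) := by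
  intro k
  have h1 := (hT k).transport hδ0 (fun s _ => by simp only [pieceL, pieceR]; linarith [hδ s.2])
    (p' := fun s => ⌊Φ s.1.1⌋ + lZ s.2) (q' := fun s => ⌊Φ s.1.1⌋ + rZ s.2) (δ' := 1) one_pos
    (fun s _ => by have := hlt s.2; omega) (fun s _ t _ he => by
      simp only [pieceL, pieceR] at he
      have := congrArg Φ he
      rw [map_add, map_add, hl, hr] at this
      have := congrArg Int.floor this
      rwa [Int.floor_add_intCast, Int.floor_add_intCast] at this)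
  refine h1.image (fun s => ((⌊Φ s.1.1⌋, s.1.2), s.2)) ?_ ?_ (fun _ _ => rfl) (fun _ _ => rfl)
  · exact fun s hs => ⟨⟨s.1, hs.1, rfl⟩, hs.2⟩
  · rintro ⟨⟨n, b⟩, i⟩ ⟨⟨x, hx, hxe⟩, hj⟩
    simp only [Prod.mk.injEq] at hxe
    obtain ⟨rfl, rfl⟩ := hxe
    exact ⟨(x, i), ⟨hx, hj⟩, rfl⟩

/-- The cells of the integer model. -/
noncomputable def cells (j lZ rZ : ι → ℤ) : Finset (ℤ × ℤ) :=
  Finset.univ.biUnion fun i => (Finset.Ico (lZ i) (rZ i)).image fun n => (n, j i)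

theorem mem_cells {lZ rZ : ι → ℤ} {f : ℤ × ℤ} :
    f ∈ cells j lZ rZ ↔ ∃ i, lZ i ≤ f.1 ∧ f.1 < rZ i ∧ j i = f.2 := by
  obtain ⟨a, b⟩ := f
  simp only [cells, Finset.mem_biUnion, Finset.mem_univ, true_and, Finset.mem_image,
    Finset.mem_Ico, Prod.mk.injEq]
  constructor
  · rintro ⟨i, n, ⟨h1, h2⟩, rfl, rfl⟩; exact ⟨i, h1, h2, rfl⟩
  · rintro ⟨i, h1, h2, rfl⟩; exact ⟨i, a, ⟨h1, h2⟩, rfl, rfl⟩

theorem tiles_of_rowTiling {lZ rZ : ι → ℤ} {A : Set (ℤ × ℤ)} (hA : RowTiling j lZ rZ A)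
    (x : ℤ × ℤ) : ∃! f, f ∈ cells j lZ rZ ∧ x - f ∈ A := by
  obtain ⟨n, k⟩ := x
  obtain ⟨⟨⟨t, b⟩, i⟩, ⟨⟨hm, hj⟩, h1, h2⟩, huniq⟩ := hA k n
  simp only [pieceL, pieceR] at h1 h2 hj
  refine ⟨(n - t, j i), ⟨mem_cells.2 ⟨i, by simp only; omega, by simp only; omega, rfl⟩, ?_⟩, ?_⟩
  · convert hm using 1
    simp only [Prod.mk_sub_mk, Prod.mk.injEq]; omega
  · rintro ⟨a, c⟩ ⟨hf, hmem⟩
    obtain ⟨i', e1, e2, e3⟩ := mem_cells.1 hf
    simp only [Prod.mk_sub_mk] at hmem e1 e2 e3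
    have := huniq ((n - a, k - c), i') ⟨⟨hmem, by simp only; omega⟩,
      by simp only [pieceL]; omega, by simp only [pieceR]; omega⟩
    simp only [Prod.mk.injEq] at this
    obtain ⟨⟨f1, f2⟩, f3⟩ := this
    simp only [Prod.mk.injEq]
    exact ⟨by omega, by subst f3; omega⟩

theorem rowTiling_of_tiles {lZ rZ : ι → ℤ} {A A' : Set (ℤ × ℤ)} (hA : RowTiling j lZ rZ A)
    (hA' : ∀ x : ℤ × ℤ, ∃! f, f ∈ cells j lZ rZ ∧ x - f ∈ A') : RowTiling j lZ rZ A' := by
  intro k n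
  obtain ⟨⟨a, c⟩, ⟨hf, hmem⟩, huniq⟩ := hA' (n, k)
  obtain ⟨i, e1, e2, e3⟩ := mem_cells.1 hf
  simp only [Prod.mk_sub_mk] at hmem e1 e2 e3
  refine ⟨((n - a, k - c), i), ⟨⟨hmem, by simp only; omega⟩, by simp only [pieceL]; omega,
    by simp only [pieceR]; omega⟩, ?_⟩
  rintro ⟨⟨t, b⟩, i'⟩ ⟨⟨hm, hj⟩, h1, h2⟩
  simp only [pieceL, pieceR] at h1 h2 hj
  have := huniq (n - t, j i') ⟨mem_cells.2 ⟨i', by simp only; omega, by simp only; omega, rfl⟩, by
    convert hm using 1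
    simp only [Prod.mk_sub_mk, Prod.mk.injEq]; omega⟩
  simp only [Prod.mk.injEq] at this
  obtain ⟨f1, f2⟩ := this
  obtain ⟨s, hs⟩ := (hA 0).nonempty
  have := (hA (s.1.2 + j i)).eq_of_mem (s := (s.1, i)) (t := (s.1, i')) (x := s.1.1 + a)
    ⟨hs.1, rfl⟩ ⟨hs.1, by simp only; omega⟩ (by simp only [pieceL]; omega)
    (by simp only [pieceR]; omega) (by simp only [pieceL]; omega)
    (by simp only [pieceR]; omega)
  have hi : i = i' := congrArg Prod.snd this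
  subst hi
  simp only [Prod.mk.injEq, and_true]
  omega

end Vale.Agent.P043.Rows
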