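import Mathlib
import Vale.Agent.P043.Rows.Model

/-!
Helper for P043: a periodic tiling by an integer model lifts to the real tile, as long as
neighbouring rows are linked at bounded distance.
-/

namespace Vale.Agent.P043.Rows

open Pointwise

set_option linter.unusedSectionVars false

theorem exists_primitive {G : Type*} [AddCommGroup G] (f : ℤ → G) :
    ∃ F : ℤ → G, F 0 = 0 ∧ ∀ n, F (n + 1) = F n + f n := by
  let F : ℤ → G := fun n => match n with
    | Int.ofNat a => ∑ i ∈ Finset.range a, f i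
    | Int.negSucc a => -∑ i ∈ Finset.range (a + 1), f (Int.negSucc i)
  refine ⟨F, by change F (Int.ofNat 0) = 0; simp [F], fun n => ?_⟩
  rcases n with a | a
  · change ∑ i ∈ Finset.range (a + 1), f i = (∑ i ∈ Finset.range a, f i) + f a
    rw [Finset.sum_range_succ]
  · rcases a with _ | a
    · change (∑ i ∈ Finset.range 0, f i) =
        (-∑ i ∈ Finset.range 1, f (Int.negSucc i)) + f (Int.negSucc 0)
      simp
    · change F (Int.negSucc a) = F (Int.negSucc (a + 1)) + f (Int.negSucc (a + 1))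
      simp only [F]
      rw [Finset.sum_range_succ _ (a + 1)]
      abel

theorem eq_of_step {X : Type*} (f : ℤ → X) (hf : ∀ n, f (n + 1) = f n) (n : ℤ) : f n = f 0 := by
  induction n using Int.induction_on with
  | zero => rfl
  | succ a ih => rw [hf, ih]
  | pred a ih => rw [← ih, ← hf (-(a : ℤ) - 1), sub_add_cancel]

theorem eq_of_grid {X : Type*} (f : ℤ × ℤ → X) (h1 : ∀ n k, f (n + 1, k) = f (n, k))
    (h2 : ∀ n k, f (n, k + 1) = f (n, k)) (z : ℤ × ℤ) : f z = f 0 := by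
  obtain ⟨n, k⟩ := z
  rw [eq_of_step (fun m => f (m, k)) (fun m => h1 m k) n,
    eq_of_step (fun m => f (0, m)) (fun m => h2 0 m) k]
  rfl

theorem exists_potential {G : Type*} [AddCommGroup G] (gh gv : ℤ × ℤ → G)
    (hsq : ∀ n k, gh (n, k) + gv (n + 1, k) = gv (n, k) + gh (n, k + 1)) :
    ∃ τ : ℤ × ℤ → G, (∀ n k, τ (n + 1, k) = τ (n, k) + gh (n, k)) ∧
      ∀ n k, τ (n, k + 1) = τ (n, k) + gv (n, k) := by
  choose H hH0 hH using fun k => exists_primitive fun n => gh (n, k)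
  obtain ⟨V, -, hV⟩ := exists_primitive fun k => gv (0, k)
  refine ⟨fun z => V z.2 + H z.2 z.1, fun n k => by simp only [hH, add_assoc], fun n k => ?_⟩
  have key : (fun m => H (k + 1) m + gv (0, k) - (H k m + gv (m, k))) n =
      (fun m => H (k + 1) m + gv (0, k) - (H k m + gv (m, k))) 0 := by
    refine eq_of_step (fun m => H (k + 1) m + gv (0, k) - (H k m + gv (m, k))) (fun m => ?_) n
    simp only [hH]
    have e : gh (m, k + 1) = gh (m, k) + gv (m + 1, k) - gv (m, k) := by rw [hsq]; abel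
    rw [e]
    abel
  simp only [hH0, zero_add, sub_self] at key
  simp only [hV]
  rw [sub_eq_zero] at key
  calc V k + gv (0, k) + H (k + 1) n = V k + (H (k + 1) n + gv (0, k)) := by abel
    _ = V k + (H k n + gv (n, k)) := by rw [key]
    _ = V k + H k n + gv (n, k) := by abel

variable {ι : Type} [Fintype ι] {j : ι → ℤ} {l r : ι → ℝ} {h : ℕ}

/-- A tile near column `n` meets both rows `k` and `k'`. -/
def Step (j lZ : ι → ℤ) (A : Set (ℤ × ℤ)) (R n k k' : ℤ) : Prop :=
  ∃ t ∈ A, ∃ i i', t.2 + j i = k ∧ t.2 + j i' = k' ∧ |t.1 + lZ i - n| ≤ R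

/-- The lift. -/
theorem lift_tiling (hs : IsShape j l r h) {δ : ℝ} (hδ0 : 0 < δ) (hδ : ∀ i, l i + δ ≤ r i)
    {K N m : ℕ} {ε : ℝ} {Φ : ℝ →+ ℚ} {M : ℕ} {lZ rZ : ι → ℤ}
    (hm : IsModel l r δ K ε Φ M lZ rZ) (hK : (h + 8) * (2 * m + 1) * N ≤ K) (hN1 : 1 ≤ N)
    {A : Set (ℤ × ℤ)} (hA : RowTiling j lZ rZ A) {P : ℤ} (hP : 0 < P)
    (hper : ∀ x : ℤ × ℤ, (x + (P, 0) ∈ A ↔ x ∈ A) ∧ (x + (0, P) ∈ A ↔ x ∈ A))
    {L₀ D R : ℤ} (hL₀ : 0 < L₀) (hlen : ∀ i, lZ i + L₀ ≤ rZ i)
    (hD : ∀ i, |lZ i| ≤ D ∧ |rZ i| ≤ D) (hR : R + 8 * D ≤ N * L₀) (hR0 : 0 ≤ R)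
    (hlink : ∀ n k, ∃ f : ℕ → ℤ, f 0 = k ∧ f m = k + 1 ∧
      ∀ q < m, Step j lZ A R n (f q) (f (q + 1))) :
    ∃ (T : Set (ℝ × ℤ)) (C C' : ℝ), C ≠ 0 ∧ RowTiling j l r T ∧
      (∀ t b, ((t + C, b) ∈ T ↔ (t, b) ∈ T)) ∧ ∀ t b, ((t + C', b + P) ∈ T ↔ (t, b) ∈ T) := by
  classical
  have faith : ∀ {m : ℕ} {γ : ℝ}, γ ∈ words l r m → m ≤ K → Φ γ = 0 → γ = 0 :=
    fun hγ hmK h0 => hm.faithful _ (words_mono l r hmK hγ) h0
  obtain ⟨ia, -⟩ := hs.zero
  have hD0 : 0 ≤ D := (abs_nonneg _).trans (hD ia).1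
  have hbud : ∀ c, c ≤ (h + 8) * (2 * m + 1) → c * N ≤ K :=
    fun c hc => le_trans (Nat.mul_le_mul_right N hc) hK
  have h8N : 8 * N ≤ K := hbud 8 (by nlinarith)
  have h4N : 4 * N ≤ K := le_trans (Nat.mul_le_mul_right N (by omega)) h8N
  have h8mN : 8 * (m * N) ≤ K := by rw [← mul_assoc]; exact hbud _ (by nlinarith)
  have hmm : m * (N + N) = 2 * (m * N) := by ring
  -- the owner of a cell
  have hown : ∀ z : ℤ × ℤ, ∃! s, s ∈ rowSet j A z.2 ∧ pieceL lZ s ≤ z.1 ∧ z.1 < pieceR rZ s :=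
    fun z => hA z.2 z.1
  choose own hownS hownU using hown
  have hownD : ∀ z, |pieceL lZ (own z) - z.1| ≤ 2 * D := fun z => by
    obtain ⟨-, h1, h2⟩ := hownS z
    simp only [pieceL, pieceR] at h1 h2 ⊢
    have a := abs_le.1 (hD (own z).2).1
    have b := abs_le.1 (hD (own z).2).2
    rw [abs_le]; constructor <;> omega
  let base : ℤ × ℤ → ℤ := fun z => (own z).1.1
  -- tiles near each other in one row differ by a word
  have rel : ∀ k, ∀ s ∈ rowSet j A k, ∀ t ∈ rowSet j A k,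
      |pieceL lZ t - pieceL lZ s| ≤ R + 8 * D →
      ∃ γ ∈ words l r N, Φ γ = ((t.1.1 - s.1.1 : ℤ) : ℚ) := by
    intro k s hs' t ht hd
    wlog hst : pieceL lZ s ≤ pieceL lZ t generalizing s t
    · obtain ⟨γ, hγ, he⟩ := this t ht s hs' (by rwa [abs_sub_comm]) (le_of_not_ge hst)
      exact ⟨-γ, neg_mem_words hγ, by rw [map_neg, he]; push_cast; ring⟩
    obtain ⟨n, hn, γ, hγ, he⟩ := (hA k).chain hL₀ (δ := L₀)
      (fun u _ => by simp only [pieceL, pieceR]; linarith [hlen u.2]) hs' ht hst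
      (fun n u => ∃ γ ∈ words l r n, Φ γ = ((u.1.1 - s.1.1 : ℤ) : ℚ))
      ⟨0, by simp [words], by simp⟩
      (fun n u v _ _ huv ⟨γ, hγ, he⟩ => by
        refine ⟨γ + (r u.2 - l v.2), Finset.add_mem_add hγ (sub_mem_gens l r _ _), ?_⟩
        simp only [pieceL, pieceR] at huv
        rw [map_add, map_sub, he, hm.right, hm.left]
        have : (u.1.1 : ℚ) + rZ u.2 = v.1.1 + lZ v.2 := by exact_mod_cast huv
        push_cast
        linarith)
    refine ⟨γ, words_mono l r ?_ hγ, he⟩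
    have h1 : (n : ℤ) * L₀ ≤ (N : ℤ) * L₀ := by
      linarith [le_abs_self (pieceL lZ t - pieceL lZ s)]
    exact_mod_cast le_of_mul_le_mul_right h1 hL₀
  -- steps between neighbouring cells
  have hhor : ∀ n k, ∃ γ ∈ words l r N, Φ γ = ((base (n + 1, k) - base (n, k) : ℤ) : ℚ) := by
    intro n k
    refine rel k _ (hownS (n, k)).1 _ (hownS (n + 1, k)).1 ?_
    have a := abs_le.1 (hownD (n, k))
    have b := abs_le.1 (hownD (n + 1, k))
    simp only at a b
    have : (1 : ℤ) ≤ D ∨ D = 0 := by omega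
    rcases this with hd | hd
    · rw [abs_le]; constructor <;> omega
    · have := hlen ia; have := abs_le.1 (hD ia).1; have := abs_le.1 (hD ia).2
      omega
  have hver : ∀ n k, ∃ γ ∈ words l r (m * (N + N)),
      Φ γ = ((base (n, k + 1) - base (n, k) : ℤ) : ℚ) := by
    intro n k
    obtain ⟨f, hf0, hfm, hf⟩ := hlink n k
    suffices hq : ∀ q ≤ m, ∃ γ ∈ words l r (q * (N + N)),
        Φ γ = ((base (n, f q) - base (n, k) : ℤ) : ℚ) by
      obtain ⟨γ, h1, h2⟩ := hq m le_rfl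
      exact ⟨γ, h1, by rw [h2, hfm]⟩
    intro q
    induction q with
    | zero => exact fun _ => ⟨0, by simp [words], by simp [hf0]⟩
    | succ q ih =>
      intro hq
      obtain ⟨γ, hγ, e⟩ := ih (by omega)
      obtain ⟨t, ht, i, i', e1, e2, hd⟩ := hf q (by omega)
      have a := abs_le.1 (hownD (n, f q))
      have b := abs_le.1 (hownD (n, f (q + 1)))
      have c := abs_le.1 (hD i').1
      have c' := abs_le.1 (hD i).1
      have d := abs_le.1 hd
      simp only [pieceL] at a b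
      obtain ⟨γ₁, hγ₁, g₁⟩ := rel (f q) _ (hownS (n, f q)).1 (t, i) ⟨ht, e1⟩
        (by simp only [pieceL]; rw [abs_le]; constructor <;> omega)
      obtain ⟨γ₂, hγ₂, g₂⟩ := rel (f (q + 1)) (t, i') ⟨ht, e2⟩ _ (hownS (n, f (q + 1))).1
        (by simp only [pieceL]; rw [abs_le]; constructor <;> omega)
      refine ⟨γ + (γ₁ + γ₂), ?_, ?_⟩
      · rw [Nat.succ_mul]
        exact add_mem_words hγ (add_mem_words hγ₁ hγ₂)
      · rw [map_add, map_add, e, g₁, g₂]
        simp only [base]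
        push_cast
        ring
  choose gh hgh hghΦ using hhor
  choose gv hgv hgvΦ using hver
  obtain ⟨τ, hτh, hτv⟩ := exists_potential (fun z => gh z.1 z.2) (fun z => gv z.1 z.2) (by
    intro n k
    rw [← sub_eq_zero]
    refine faith (sub_mem_words (add_mem_words (hgh n k) (hgv (n + 1) k))
      (add_mem_words (hgv n k) (hgh n (k + 1)))) (by omega) ?_
    rw [map_sub, map_add, map_add, hghΦ, hgvΦ, hgvΦ, hghΦ]
    push_cast
    ring)
  simp only at hτh hτv
  have hΦτ : ∀ z z', Φ (τ z' - τ z) = ((base z' - base z : ℤ) : ℚ) := by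
    have key : ∀ z, Φ (τ z) - (base z : ℚ) = Φ (τ 0) - (base 0 : ℚ) :=
      eq_of_grid (fun z => Φ (τ z) - (base z : ℚ))
        (fun n k => by rw [hτh, map_add, hghΦ]; push_cast; ring)
        (fun n k => by rw [hτv, map_add, hgvΦ]; push_cast; ring)
    intro z z'
    rw [map_sub]
    push_cast
    linarith [key z, key z']
  -- short horizontal and vertical differences
  have hh : ∀ d : ℕ, (d : ℤ) ≤ 2 * D → ∀ n k, τ (n + d, k) - τ (n, k) ∈ words l r N := by
    intro d
    induction d with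
    | zero => intro _ n k; simp [zero_mem_words]
    | succ d ih =>
      intro hd n k
      have h1 := ih (by omega) n k
      have e : τ (n + ((d + 1 : ℕ) : ℤ), k) - τ (n, k) =
          (τ (n + d, k) - τ (n, k)) + gh (n + d) k := by
        rw [Nat.cast_succ, ← add_assoc, hτh]; abel
      obtain ⟨γ, hγ, hγe⟩ := rel k _ (hownS (n, k)).1 _ (hownS (n + ((d + 1 : ℕ) : ℤ), k)).1 (by
        have a := abs_le.1 (hownD (n, k))
        have b := abs_le.1 (hownD (n + ((d + 1 : ℕ) : ℤ), k))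
        simp only [pieceL] at a b ⊢
        rw [abs_le]; constructor <;> omega)
      rw [show τ (n + ((d + 1 : ℕ) : ℤ), k) - τ (n, k) = γ from ?_]
      · exact hγ
      rw [← sub_eq_zero]
      refine faith (m := (N + N) + N) (sub_mem_words (e ▸ add_mem_words h1 (hgh _ _)) hγ)
        (by omega) ?_
      rw [map_sub, hΦτ, hγe, sub_self]
  have hv : ∀ (e : ℕ) n k, τ (n, k + e) - τ (n, k) ∈ words l r (e * (m * (N + N))) := by
    intro e
    induction e with
    | zero => intro n k; simp [words]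
    | succ e ih =>
      intro n k
      rw [show τ (n, k + ((e + 1 : ℕ) : ℤ)) - τ (n, k) =
        (τ (n, k + e) - τ (n, k)) + gv n (k + e) by
          rw [Nat.cast_succ, ← add_assoc, hτv]; abel, add_mul, one_mul]
      exact add_mem_words (ih n k) (hgv _ _)
  -- the position of a tile
  let cell : (ℤ × ℤ) × ι → ℤ × ℤ := fun s => (pieceL lZ s, s.1.2 + j s.2)
  have hcell : ∀ k, ∀ s ∈ rowSet j A k, own (cell s) = s ∧ cell s = (pieceL lZ s, k) := by
    intro k s hs'
    have hlt : pieceL lZ s < pieceR rZ s := by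
      simp only [pieceL, pieceR]; linarith [hlen s.2]
    exact ⟨(hownU (cell s) s ⟨⟨hs'.1, rfl⟩, le_rfl, hlt⟩).symm, Prod.ext rfl hs'.2⟩
  have hsame : ∀ t ∈ A, ∀ i i', τ (cell (t, i)) = τ (cell (t, i')) := by
    intro t ht i i'
    wlog hji : j i ≤ j i' generalizing i i'
    · exact (this i' i (le_of_not_ge hji)).symm
    obtain ⟨e, he⟩ : ∃ e : ℕ, j i' = j i + e := ⟨(j i' - j i).toNat, by omega⟩
    have he' : e ≤ h := by have := hs.range i; have := hs.range i'; omega
    have hb : base (cell (t, i)) = t.1 ∧ base (cell (t, i')) = t.1 :=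
      ⟨congrArg (fun s : (ℤ × ℤ) × ι => s.1.1) (hcell _ (t, i) ⟨ht, rfl⟩).1,
        congrArg (fun s : (ℤ × ℤ) × ι => s.1.1) (hcell _ (t, i') ⟨ht, rfl⟩).1⟩
    symm
    rw [← sub_eq_zero]
    refine faith (m := e * (m * (N + N)) + N) ?_ ?_ (by rw [hΦτ, hb.1, hb.2, sub_self, Int.cast_zero])
    · have a := abs_le.1 (hD i).1
      have b := abs_le.1 (hD i').1
      have h1 := hv e (t.1 + lZ i) (t.2 + j i)
      rw [show t.2 + j i + (e : ℤ) = t.2 + j i' by omega] at h1
      simp only [cell, pieceL]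
      rcases le_total (lZ i) (lZ i') with hl | hl
      · obtain ⟨d, hd⟩ : ∃ d : ℕ, lZ i' = lZ i + d := ⟨(lZ i' - lZ i).toNat, by omega⟩
        have h2 := hh d (by omega) (t.1 + lZ i) (t.2 + j i')
        rw [show t.1 + lZ i + (d : ℤ) = t.1 + lZ i' by omega] at h2
        have := add_mem_words h1 h2
        rwa [show τ (t.1 + lZ i, t.2 + j i') - τ (t.1 + lZ i, t.2 + j i) +
          (τ (t.1 + lZ i', t.2 + j i') - τ (t.1 + lZ i, t.2 + j i')) =
          τ (t.1 + lZ i', t.2 + j i') - τ (t.1 + lZ i, t.2 + j i) by abel] at this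
      · obtain ⟨d, hd⟩ : ∃ d : ℕ, lZ i = lZ i' + d := ⟨(lZ i - lZ i').toNat, by omega⟩
        have h2 := hh d (by omega) (t.1 + lZ i') (t.2 + j i')
        rw [show t.1 + lZ i' + (d : ℤ) = t.1 + lZ i by omega] at h2
        have := sub_mem_words h1 h2
        rwa [show τ (t.1 + lZ i, t.2 + j i') - τ (t.1 + lZ i, t.2 + j i) -
          (τ (t.1 + lZ i, t.2 + j i') - τ (t.1 + lZ i', t.2 + j i')) =
          τ (t.1 + lZ i', t.2 + j i') - τ (t.1 + lZ i, t.2 + j i) by abel] at this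
    · calc e * (m * (N + N)) + N ≤ h * (m * (N + N)) + N := by gcongr
        _ = (2 * m * h + 1) * N := by ring
        _ ≤ K := hbud _ (by nlinarith)
  let pos : ℤ × ℤ → ℝ := fun t => τ (cell (t, ia))
  let T : Set (ℝ × ℤ) := (fun t => (pos t, t.2)) '' A
  have hT : RowTiling j l r T := by
    intro k
    have h1 := (hA k).transport (δ := L₀) hL₀
      (fun u _ => by simp only [pieceL, pieceR]; linarith [hlen u.2])
      (p' := fun s => pos s.1 + l s.2) (q' := fun s => pos s.1 + r s.2) hδ0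
      (fun s _ => by linarith [hδ s.2]) (fun s hs' t ht he => by
        have hps : pos s.1 = τ (cell s) := hsame s.1 hs'.1 ia s.2
        have hpt : pos t.1 = τ (cell t) := hsame t.1 ht.1 ia t.2
        obtain ⟨hs1, hs2⟩ := hcell k s hs'
        obtain ⟨ht1, ht2⟩ := hcell k t ht
        simp only [pieceL, pieceR] at he
        rw [hps, hpt]
        have hw : τ (cell t) - τ (cell s) ∈ words l r N := by
          obtain ⟨d, hd⟩ : ∃ d : ℕ, pieceL lZ t = pieceL lZ s + d :=
            ⟨(pieceL lZ t - pieceL lZ s).toNat, by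
              simp only [pieceL]; have := hlen s.2; omega⟩
          rw [hs2, ht2, hd]
          refine hh d ?_ _ _
          simp only [pieceL] at hd
          have := abs_le.1 (hD s.2).1; have := abs_le.1 (hD s.2).2
          omega
        have h0 : (τ (cell t) - τ (cell s)) - (r s.2 - l t.2) = 0 := by
          refine faith (sub_mem_words hw (gens_subset_words l r (sub_mem_gens l r _ _)))
            (by omega) ?_
          rw [map_sub, hΦτ, map_sub, hm.right, hm.left]
          simp only [base, hs1, ht1]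
          have : (s.1.1 : ℚ) + rZ s.2 = t.1.1 + lZ t.2 := by exact_mod_cast he
          push_cast
          linarith
        linarith)
    refine h1.image (fun s => ((pos s.1, s.1.2), s.2)) (fun s hs' => ⟨⟨s.1, hs'.1, rfl⟩, hs'.2⟩)
      ?_ (fun _ _ => rfl) (fun _ _ => rfl)
    rintro ⟨⟨x, b⟩, i⟩ ⟨⟨t, ht, hte⟩, hj⟩
    simp only [Prod.mk.injEq] at hte
    obtain ⟨rfl, rfl⟩ := hte
    exact ⟨(t, i), ⟨ht, hj⟩, rfl⟩
  -- periods
  have hownshift : ∀ v : ℤ × ℤ, (∀ x, x + v ∈ A ↔ x ∈ A) →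
      ∀ z, own (z + v) = (((own z).1 + v), (own z).2) := by
    intro v hv' z
    obtain ⟨⟨hm', hj'⟩, h1, h2⟩ := hownS z
    refine (hownU _ _ ⟨⟨(hv' _).2 hm', ?_⟩, ?_, ?_⟩).symm
    · simp only [Prod.snd_add]; omega
    · simp only [pieceL, Prod.fst_add] at h1 ⊢; omega
    · simp only [pieceR, Prod.fst_add] at h2 ⊢; omega
  have hper' : ∀ v : ℤ × ℤ, (∀ x, x + v ∈ A ↔ x ∈ A) →
      ∃ c : ℝ, Φ c = (v.1 : ℚ) ∧ ∀ z, τ (z + v) = τ z + c := by
    intro v hv'
    have hbase : ∀ z, base (z + v) = base z + v.1 := fun z => by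
      simp only [base, hownshift v hv' z, Prod.fst_add]
    refine ⟨τ (0 + v) - τ 0, by rw [hΦτ, hbase]; push_cast; ring, fun z => ?_⟩
    have key := eq_of_grid (fun z => τ (z + v) - τ z) (fun n k => ?_) (fun n k => ?_) z
    · linarith [key]
    · rw [show ((n + 1, k) : ℤ × ℤ) + v = (n + v.1 + 1, k + v.2) by
        ext <;> simp; ring, hτh, hτh, show ((n, k) : ℤ × ℤ) + v = (n + v.1, k + v.2) by
        ext <;> simp]
      have : gh (n + v.1) (k + v.2) = gh n k := by
        rw [← sub_eq_zero]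
        refine faith (sub_mem_words (hgh _ _) (hgh _ _)) (by omega) ?_
        rw [map_sub, hghΦ, hghΦ]
        have e1 := hbase (n + 1, k)
        have e2 := hbase (n, k)
        rw [show ((n + 1, k) : ℤ × ℤ) + v = (n + v.1 + 1, k + v.2) by ext <;> simp; ring] at e1
        rw [show ((n, k) : ℤ × ℤ) + v = (n + v.1, k + v.2) by ext <;> simp] at e2
        rw [e1, e2]; push_cast; ring
      rw [this]; abel
    · rw [show ((n, k + 1) : ℤ × ℤ) + v = (n + v.1, k + v.2 + 1) by
        ext <;> simp; ring, hτv, hτv, show ((n, k) : ℤ × ℤ) + v = (n + v.1, k + v.2) by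
        ext <;> simp]
      have : gv (n + v.1) (k + v.2) = gv n k := by
        rw [← sub_eq_zero]
        refine faith (sub_mem_words (hgv _ _) (hgv _ _)) (by omega) ?_
        rw [map_sub, hgvΦ, hgvΦ]
        have e1 := hbase (n, k + 1)
        have e2 := hbase (n, k)
        rw [show ((n, k + 1) : ℤ × ℤ) + v = (n + v.1, k + v.2 + 1) by ext <;> simp; ring] at e1
        rw [show ((n, k) : ℤ × ℤ) + v = (n + v.1, k + v.2) by ext <;> simp] at e2
        rw [e1, e2]; push_cast; ring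
      rw [this]; abel
  have hTper : ∀ (v : ℤ × ℤ) (c : ℝ), (∀ x, x + v ∈ A ↔ x ∈ A) →
      (∀ z, τ (z + v) = τ z + c) → ∀ t b, ((t + c, b + v.2) ∈ T ↔ (t, b) ∈ T) := by
    intro v c hv' hc t b
    have hpos : ∀ a, pos (a + v) = pos a + c := fun a => by
      simp only [pos]
      rw [← hc]
      congr 1
      ext <;> simp [cell, pieceL] <;> ring
    constructor
    · rintro ⟨a, ha, he⟩
      simp only [Prod.mk.injEq] at he
      refine ⟨a - v, (hv' _).1 (by simpa using ha), ?_⟩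
      have := hpos (a - v)
      rw [sub_add_cancel] at this
      simp only [Prod.mk.injEq, Prod.snd_sub]
      exact ⟨by linarith [he.1], by omega⟩
    · rintro ⟨a, ha, he⟩
      simp only [Prod.mk.injEq] at he
      refine ⟨a + v, (hv' _).2 ha, ?_⟩
      simp only [Prod.mk.injEq, Prod.snd_add]
      exact ⟨by rw [hpos, he.1], by omega⟩
  obtain ⟨C, hC, hCτ⟩ := hper' (P, 0) (fun x => (hper x).1)
  obtain ⟨C', -, hC'τ⟩ := hper' (0, P) (fun x => (hper x).2)
  refine ⟨T, C, C', fun h0 => ?_, hT,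
    fun t b => by simpa using hTper (P, 0) C (fun x => (hper x).1) hCτ t b,
    fun t b => hTper (0, P) C' (fun x => (hper x).2) hC'τ t b⟩
  rw [h0, map_zero] at hC
  have : (P : ℚ) = 0 := hC.symm
  exact hP.ne' (by exact_mod_cast this)

end Vale.Agent.P043.Rows
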