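import Vale.Agent.P043.Rows.PlaneWeak

/-!
Helper for P043: a singly periodic piece can be replaced by a doubly periodic one with the same
counting function.
-/

namespace Vale.Agent.P043.Rows

open Finset

/-- The number of translates of a point by `-F` lying in the set, with real values. -/
noncomputable def cnt (S : Set (ℤ × ℤ)) (F : Finset (ℤ × ℤ)) (x : ℤ × ℤ) : ℝ :=
  ∑ f ∈ F, ind S (x - f)

theorem ind_congr {S T : Set (ℤ × ℤ)} {y z : ℤ × ℤ} (h : y ∈ S ↔ z ∈ T) : ind S y = ind T z := by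
  rcases ind_cases S y with ⟨h1, e1⟩ | ⟨h1, e1⟩ <;> rcases ind_cases T z with ⟨h2, e2⟩ | ⟨h2, e2⟩
  · rw [e1, e2]
  · exact absurd (h.1 h1) h2
  · exact absurd (h.2 h2) h1
  · rw [e1, e2]

theorem cnt_inv {S : Set (ℤ × ℤ)} {F : Finset (ℤ × ℤ)} {w : ℤ × ℤ} (h : Inv w (· ∈ S)) :
    Inv w (cnt S F) := fun x => by
  refine sum_congr rfl fun f _ => ind_congr ?_
  rw [show x + w - f = x - f + w by abel]
  exact Iff.of_eq (h (x - f))

theorem cnt_nonneg (S : Set (ℤ × ℤ)) (F : Finset (ℤ × ℤ)) (x : ℤ × ℤ) : 0 ≤ cnt S F x :=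
  sum_nonneg fun f _ => by
    rcases ind_cases S (x - f) with ⟨-, h⟩ | ⟨-, h⟩ <;> rw [h]; norm_num

theorem cnt_int (S : Set (ℤ × ℤ)) (F : Finset (ℤ × ℤ)) (x : ℤ × ℤ) : IsI (cnt S F x) :=
  IsI.sum fun f _ => by
    rcases ind_cases S (x - f) with ⟨-, h⟩ | ⟨-, h⟩
    · exact ⟨1, by simp [h]⟩
    · exact ⟨0, by simp [h]⟩

/-- Integer functions with pairwise independent periods summing to one are doubly periodic. -/
theorem exists_period_of_sum_one {m : ℕ} {W : Fin m → ℤ × ℤ} (hW : ∀ i, W i ≠ 0)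
    (hdet : ∀ i j, i ≠ j → pdet (W i) (W j) ≠ 0) {g : Fin m → ℤ × ℤ → ℝ}
    (hinv : ∀ i, Inv (W i) (g i)) (h0 : ∀ i x, 0 ≤ g i x) (hsum : ∀ x, ∑ i, g i x = 1) (i : Fin m) :
    ∃ d : ℤ, d ≠ 0 ∧ ∀ v, Inv (d • v) (g i) := by
  obtain ⟨τ, l, hd, hl, ho⟩ := exists_steps hW hdet i
  have hone : ∀ y, Dl l (g i) y = Dl l (fun _ => 1) y := fun y => by
    rw [← Dl_others hinv i ho y]
    exact congrArg (fun f => Dl l f y) (funext hsum)
  refine ⟨pdet (W i) τ, hd, Inv.det_smul (hinv i) fun x => ?_⟩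
  rcases eq_or_ne l [] with rfl | hne
  · have h1 : ∀ y, g i y = 1 := hone
    rw [h1, h1]
  obtain ⟨r, hr⟩ : ∃ r, l.length = r + 1 :=
    ⟨l.length - 1, by have := List.length_pos_of_ne_nil hne; omega⟩
  have hbd : ∀ n : ℤ, |g i (x + n • τ)| ≤ 1 := fun n => by
    rw [abs_of_nonneg (h0 i _), ← hsum (x + n • τ)]
    exact single_le_sum (fun j _ => h0 j _) (mem_univ i)
  have := const_of_bounded r (fun n : ℤ => g i (x + n • τ)) 1 0 hbd
    (fun n _ => by rw [← hr, ← Dl_line hl (hinv i) x n, hone, Dl_const l 1 hne]) 0 le_rfl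
  simpa using this

/-- The doubly periodic replacement. -/
theorem exists_periodic_piece {W : ℤ × ℤ} (hW : W ≠ 0) {S : Set (ℤ × ℤ)} (hS : Inv W (· ∈ S))
    (F : Finset (ℤ × ℤ)) {L : ℤ} (hL : L ≠ 0) (hg : ∀ v, Inv (L • v) (cnt S F)) :
    ∃ (S' : Set (ℤ × ℤ)) (d : ℤ), d ≠ 0 ∧ (∀ v, Inv (d • v) (· ∈ S')) ∧
      ∀ x, cnt S' F x = cnt S F x := by
  classical
  set u : ℤ × ℤ := (-W.2, W.1) with hu
  set δ : ℤ := pdet W u with hδ
  have hδ' : δ = W.1 * W.1 + W.2 * W.2 := by rw [hδ, hu, pdet]; ring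
  have hδ0 : 0 < δ := by
    rw [hδ']
    rcases (show W.1 ≠ 0 ∨ W.2 ≠ 0 by
      by_contra h; simp only [not_or, not_not] at h; exact hW (Prod.ext h.1 h.2)) with h | h
    · nlinarith [mul_self_pos.2 h, mul_self_nonneg W.2]
    · nlinarith [mul_self_pos.2 h, mul_self_nonneg W.1]
  let s : ℤ × ℤ → ℤ := fun y => W.1 * y.1 + W.2 * y.2
  set M : ℤ := ∑ f ∈ F, |pdet W f| with hM
  have hMf : ∀ f ∈ F, -M ≤ pdet W f ∧ pdet W f ≤ M := fun f hf => abs_le.1
    (single_le_sum (f := fun f => |pdet W f|) (fun f _ => abs_nonneg _) hf)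
  have hM0 : 0 ≤ M := sum_nonneg fun f _ => abs_nonneg _
  set R : ℤ := 2 * M + 1 with hR
  set C : ℤ := (δ + R) * (|W.1| + |W.2|) with hC
  set Box := (Finset.Icc (-C) C ×ˢ Finset.Icc (-C) C).filter fun y =>
    0 ≤ pdet W y ∧ pdet W y < R ∧ 0 ≤ s y ∧ s y < δ with hBox
  have hbox : ∀ y, 0 ≤ pdet W y → pdet W y < R → 0 ≤ s y → s y < δ → y ∈ Box := by
    intro y h1 h2 h3 h4
    have e1 : δ * y.1 = s y * W.1 - pdet W y * W.2 := by rw [hδ']; simp [s, pdet]; ring
    have e2 : δ * y.2 = s y * W.2 + pdet W y * W.1 := by rw [hδ']; simp [s, pdet]; ring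
    have a1 : |s y * W.1| ≤ δ * |W.1| := by
      rw [abs_mul, abs_of_nonneg h3]; exact mul_le_mul_of_nonneg_right h4.le (abs_nonneg _)
    have a2 : |s y * W.2| ≤ δ * |W.2| := by
      rw [abs_mul, abs_of_nonneg h3]; exact mul_le_mul_of_nonneg_right h4.le (abs_nonneg _)
    have a3 : |pdet W y * W.2| ≤ R * |W.2| := by
      rw [abs_mul, abs_of_nonneg h1]; exact mul_le_mul_of_nonneg_right h2.le (abs_nonneg _)
    have a4 : |pdet W y * W.1| ≤ R * |W.1| := by
      rw [abs_mul, abs_of_nonneg h1]; exact mul_le_mul_of_nonneg_right h2.le (abs_nonneg _)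
    have hbd : ∀ z : ℤ, |δ * z| ≤ C → -C ≤ z ∧ z ≤ C := fun z hz => by
      rw [abs_mul, abs_of_pos hδ0] at hz
      exact abs_le.1 ((le_mul_of_one_le_left (abs_nonneg z) (by omega)).trans hz)
    have hp : 0 ≤ δ * |W.2| ∧ 0 ≤ R * |W.1| ∧ 0 ≤ δ * |W.1| ∧ 0 ≤ R * |W.2| :=
      ⟨mul_nonneg hδ0.le (abs_nonneg _), mul_nonneg (by omega) (abs_nonneg _),
        mul_nonneg hδ0.le (abs_nonneg _), mul_nonneg (by omega) (abs_nonneg _)⟩
    have hCe : C = δ * |W.1| + δ * |W.2| + R * |W.1| + R * |W.2| := by rw [hC]; ring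
    refine mem_filter.2 ⟨mem_product.2 ⟨Finset.mem_Icc.2 (hbd _ ?_), Finset.mem_Icc.2 (hbd _ ?_)⟩,
      h1, h2, h3, h4⟩
    · rw [e1]; refine (abs_sub _ _).trans ?_; linarith [hp.1, hp.2.1]
    · rw [e2]; refine (abs_add_le _ _).trans ?_; linarith [hp.2.2.1, hp.2.2.2]
  -- two equal bands
  obtain ⟨m₁, m₂, hne, heq⟩ := Finite.exists_ne_map_eq_of_infinite
    (f := fun n : ℕ => (⟨Box.filter fun y => y + ((n : ℤ) * |L|) • u ∈ S,
      mem_powerset.2 (filter_subset _ _)⟩ : ↥Box.powerset))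
  obtain ⟨n₁, n₂, hlt, heq⟩ : ∃ n₁ n₂ : ℕ, n₁ < n₂ ∧
      Box.filter (fun y => y + ((n₁ : ℤ) * |L|) • u ∈ S)
        = Box.filter (fun y => y + ((n₂ : ℤ) * |L|) • u ∈ S) := by
    have h := congrArg Subtype.val heq
    rcases lt_or_gt_of_ne hne with hl | hl
    · exact ⟨m₁, m₂, hl, h⟩
    · exact ⟨m₂, m₁, hl, h.symm⟩
  set p : ℤ × ℤ := (((n₂ : ℤ) - n₁) * |L|) • u with hp
  set T : ℤ := pdet W p with hT
  have hT0 : 0 < T := by
    rw [hT, hp, pdet_smul_right, ← hδ]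
    exact mul_pos (mul_pos (by omega) (abs_pos.2 hL)) hδ0
  set t₀ : ℤ := (n₁ : ℤ) * |L| * δ with ht₀
  have claim : ∀ y, t₀ ≤ pdet W y → pdet W y < t₀ + R → (y + p ∈ S ↔ y ∈ S) := by
    intro y h1 h2
    set z := y - ((n₁ : ℤ) * |L|) • u with hz
    set k : ℤ := -(s z / δ) with hk
    have hsz : s (z + k • W) = s z % δ := by
      have := Int.emod_add_mul_ediv (s z) δ
      have e : s (z + k • W) = s z + k * δ := by rw [hδ']; simp [s]; ring
      rw [e, hk]
      linarith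
    have htz : pdet W (z + k • W) = pdet W y - t₀ := by
      rw [pdet_add_right, pdet_smul_right, pdet_self, hz, pdet_sub_right, pdet_smul_right, ← hδ]
      ring
    have hmem : z + k • W ∈ Box := hbox _ (by omega) (by omega)
      (hsz ▸ Int.emod_nonneg _ hδ0.ne') (hsz ▸ Int.emod_lt_of_pos _ hδ0)
    have h3 := congrArg (fun B : Finset (ℤ × ℤ) => z + k • W ∈ B) heq
    simp only [mem_filter, hmem, true_and] at h3
    have e1 : z + k • W + ((n₁ : ℤ) * |L|) • u = y + k • W := by rw [hz]; abel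
    have e2 : z + k • W + ((n₂ : ℤ) * |L|) • u = y + p + k • W := by
      rw [hz, hp, sub_mul, sub_smul]; abel
    rw [e1, e2] at h3
    have i1 : (y + k • W ∈ S) = (y ∈ S) := hS.zsmul k y
    have i2 : (y + p + k • W ∈ S) = (y + p ∈ S) := hS.zsmul k (y + p)
    rw [i1, i2] at h3
    exact Iff.of_eq h3.symm
  let kk : ℤ × ℤ → ℤ := fun y => (pdet W y - t₀) / T
  set S' : Set (ℤ × ℤ) := {y | y - kk y • p ∈ S} with hS'
  have hW' : Inv W (· ∈ S') := fun y => by
    have e : kk (y + W) = kk y := by simp [kk, pdet_add_right, pdet_self]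
    show (y + W - kk (y + W) • p ∈ S) = (y - kk y • p ∈ S)
    rw [e, show y + W - kk y • p = y - kk y • p + W by abel]
    exact hS _
  have hp' : Inv p (· ∈ S') := fun y => by
    have e : kk (y + p) = kk y + 1 := by
      simp only [kk, pdet_add_right, ← hT]
      rw [show pdet W y + T - t₀ = pdet W y - t₀ + 1 * T by ring, Int.add_mul_ediv_right _ _ hT0.ne']
    show (y + p - kk (y + p) • p ∈ S) = (y - kk y • p ∈ S)
    rw [e, add_smul, one_smul, show y + p - (kk y • p + p) = y - kk y • p by abel]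
  have agree : ∀ (n : ℕ) (y : ℤ × ℤ), kk y = n → t₀ ≤ pdet W y → pdet W y < t₀ + T + 2 * M →
      (y ∈ S' ↔ y ∈ S) := by
    intro n
    induction n with
    | zero =>
      intro y hk _ _
      show y - kk y • p ∈ S ↔ y ∈ S
      simp [hk]
    | succ n ih =>
      intro y hk h1 h2
      have ht : pdet W (y - p) = pdet W y - T := by rw [pdet_sub_right, hT]
      have hge : T ≤ pdet W y - t₀ := by
        by_contra hcon
        have : kk y = 0 := Int.ediv_eq_zero_of_lt (by omega) (by omega)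
        omega
      have hk' : kk (y - p) = n := by
        simp only [kk] at hk ⊢
        rw [ht, show pdet W y - T - t₀ = pdet W y - t₀ + (-1) * T by ring,
          Int.add_mul_ediv_right _ _ hT0.ne', hk]
        push_cast; ring
      have e : (y - p + p ∈ S') = (y - p ∈ S') := hp' (y - p)
      rw [← sub_add_cancel y p, e,
        ih (y - p) hk' (by omega) (by omega), claim (y - p) (by omega) (by omega)]
  refine ⟨S', pdet W p, hT0.ne', fun v => hW'.det_smul hp' v, fun x => ?_⟩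
  set j : ℤ := (pdet W x - M - t₀) / T with hj
  have hpv : Inv p (cnt S F) := by
    rcases abs_choice L with h | h
    · rw [hp, h, mul_comm, mul_smul]; exact hg _
    · rw [hp, h, show ((n₂ : ℤ) - n₁) * -L = L * -((n₂ : ℤ) - n₁) by ring, mul_smul]; exact hg _
  have e1 := hpv.zsmul j (x - j • p)
  have e2 := (cnt_inv (F := F) hp').zsmul j (x - j • p)
  rw [sub_add_cancel] at e1 e2
  rw [e1, e2]
  refine sum_congr rfl fun f hf => ind_congr ?_
  have h1 := Int.emod_add_mul_ediv (pdet W x - M - t₀) T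
  have h2 := Int.emod_nonneg (pdet W x - M - t₀) hT0.ne'
  have h3 := Int.emod_lt_of_pos (pdet W x - M - t₀) hT0
  rw [← hj, mul_comm T] at h1
  have ht : pdet W (x - j • p - f) = pdet W x - j * T - pdet W f := by
    rw [pdet_sub_right, pdet_sub_right, pdet_smul_right, hT]
  have hf' := hMf f hf
  have hk : 0 ≤ kk (x - j • p - f) := Int.ediv_nonneg (by omega) hT0.le
  exact agree (kk (x - j • p - f)).toNat _ (Int.toNat_of_nonneg hk).symm (by omega) (by omega)

end Vale.Agent.P043.Rows
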