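import Vale.Agent.P043.Rows.Dilation
import Vale.Agent.P043.Rows.PlanePeriodic

/-!
Helper for P043: every finite set that tiles `ℤ²` by translations also has a doubly periodic
tiling.
-/

namespace Vale.Agent.P043.Rows

open Finset Filter Topology

/-- `F` tiles the plane with the translation set `A`. -/
def TilesPlane (A : Set (ℤ × ℤ)) (F : Finset (ℤ × ℤ)) : Prop := ∀ x, ∃! f, f ∈ F ∧ x - f ∈ A

theorem ind_nonneg (A : Set (ℤ × ℤ)) (x : ℤ × ℤ) : 0 ≤ ind A x := by
  rcases ind_cases A x with ⟨-, h⟩ | ⟨-, h⟩ <;> rw [h]; norm_num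

theorem ind_le_one (A : Set (ℤ × ℤ)) (x : ℤ × ℤ) : ind A x ≤ 1 := by
  rcases ind_cases A x with ⟨-, h⟩ | ⟨-, h⟩ <;> rw [h]; norm_num

theorem ind_of_mem {A : Set (ℤ × ℤ)} {x : ℤ × ℤ} (h : x ∈ A) : ind A x = 1 := by simp [ind, h]

theorem ind_of_not_mem {A : Set (ℤ × ℤ)} {x : ℤ × ℤ} (h : x ∉ A) : ind A x = 0 := by simp [ind, h]

/-- All dilations by numbers congruent to one modulo a factorial give tilings. -/
theorem sum_ind_dilate {A : Set (ℤ × ℤ)} {F : Finset (ℤ × ℤ)} (h : TilesPlane A F) (n : ℕ)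
    (x : ℤ × ℤ) :
    ∑ f ∈ F, ind A (x - (1 + ((F.card + 2).factorial : ℤ) * n) • f) = 1 := by
  classical
  set a : ℤ × ℤ → ℤ := fun y => if y ∈ A then 1 else 0 with ha
  have hcast : ∀ y, ind A y = (a y : ℝ) := fun y => by
    by_cases hy : y ∈ A <;> simp [ha, ind, hy]
  have hbase : ∀ y, ∑ i : F, (1 : ℤ) * a (y - (i : ℤ × ℤ)) = 1 := by
    intro y
    obtain ⟨f, ⟨hf, hfA⟩, huniq⟩ := h y
    simp only [one_mul]
    rw [Finset.sum_coe_sort F fun f => a (y - f), sum_eq_single f]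
    · simp [ha, hfA]
    · intro g hg hgf
      have : y - g ∉ A := fun hgA => hgf (huniq g ⟨hg, hgA⟩)
      simp [ha, this]
    · exact fun h' => absurd hf h'
  have hcard : 0 < F.card := by
    obtain ⟨f, ⟨hf, -⟩, -⟩ := h x
    exact Finset.card_pos.2 ⟨f, hf⟩
  have hd := sum_dilate (G := ℤ × ℤ) (ι := F) (fun _ => 1) (fun i => (i : ℤ × ℤ)) a 1 (F.card + 2)
    (fun w y => by
      have h1 : ∀ i : F, 0 ≤ (1 : ℤ) * a (y - w i) ∧ (1 : ℤ) * a (y - w i) ≤ 1 := fun i => by
        simp only [ha, one_mul]; split_ifs <;> simp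
      have h2 : 0 ≤ ∑ i : F, (1 : ℤ) * a (y - w i) := sum_nonneg fun i _ => (h1 i).1
      have h3 : ∑ i : F, (1 : ℤ) * a (y - w i) ≤ F.card := by
        refine (sum_le_sum fun i _ => (h1 i).2).trans ?_
        simp
      rw [abs_lt]
      push_cast
      constructor <;> linarith)
    (fun p hp hB => by
      have := Fact.mk hp
      rw [ZMod.pow_card_sub_one_eq_one, one_mul]
      simp only [sum_const, card_univ, Fintype.card_coe, nsmul_eq_mul, mul_one]
      push_cast
      rw [Ne, ZMod.natCast_eq_zero_iff]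
      intro hdvd
      have := Nat.le_of_dvd hcard hdvd
      omega)
    hbase (1 + (F.card + 2).factorial * n)
    (fun p hp hdvd => by
      by_contra hlt
      have h1 : p ∣ (F.card + 2).factorial * n :=
        (Nat.dvd_factorial hp.pos (by omega)).mul_right n
      exact hp.not_dvd_one ((Nat.dvd_add_left h1).1 hdvd))
    (by omega) x
  simp only [one_mul] at hd
  rw [Finset.sum_coe_sort F fun f => a (x - (1 + (F.card + 2).factorial * n) • f)] at hd
  have hd' : ((∑ f ∈ F, a (x - (1 + (F.card + 2).factorial * n) • f) : ℤ) : ℝ) = 1 := by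
    rw [hd]; simp
  rw [← hd', Int.cast_sum]
  refine sum_congr rfl fun f _ => ?_
  rw [hcast, ← natCast_zsmul]
  push_cast
  rfl

theorem sum_ind_tiles {A : Set (ℤ × ℤ)} {F : Finset (ℤ × ℤ)} (h : TilesPlane A F) (x : ℤ × ℤ) :
    cnt A F x = 1 := by
  simpa [cnt] using sum_ind_dilate h 0 x

/-- Averaging over the dilations: functions with one period each, summing to one. -/
theorem exists_weights {A : Set (ℤ × ℤ)} {F : Finset (ℤ × ℤ)} (h : TilesPlane A F)
    (h0F : (0 : ℤ × ℤ) ∈ F) :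
    ∃ (q : ℤ) (φ : ℤ × ℤ → ℤ × ℤ → ℝ), q ≠ 0 ∧ (∀ f x, 0 ≤ φ f x) ∧
      (∀ f, Inv (q • f) (φ f)) ∧ ∀ x, ind A x + ∑ f ∈ F.erase 0, φ f x = 1 := by
  classical
  set q : ℤ := ((F.card + 2).factorial : ℤ) with hq
  let T : ℕ → ℤ × ℤ → ℤ × ℤ → ℝ := fun N f x =>
    (∑ n ∈ range N, ind A (x - (1 + q * n) • f)) / N
  have hT : ∀ N f x, T N f x ∈ Set.Icc (0 : ℝ) 1 := fun N f x => by
    refine ⟨div_nonneg (sum_nonneg fun n _ => ind_nonneg A _) (Nat.cast_nonneg N), ?_⟩
    refine div_le_one_of_le₀ ?_ (Nat.cast_nonneg N)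
    refine (sum_le_sum fun n _ => ind_le_one A _).trans ?_
    simp
  set U : Ultrafilter ℕ := Ultrafilter.of atTop
  have hU : (U : Filter ℕ) ≤ atTop := Ultrafilter.of_le atTop
  have hlim : ∀ f x, ∃ l, (0 : ℝ) ≤ l ∧ Tendsto (fun N => T N f x) U (𝓝 l) := fun f x => by
    obtain ⟨l, hl, hle⟩ := isCompact_Icc.ultrafilter_le_nhds (U.map fun N => T N f x)
      (le_principal_iff.2 (Ultrafilter.mem_map.2 (univ_mem' fun N => hT N f x)))
    exact ⟨l, hl.1, hle⟩
  choose φ hφ0 hφ using hlim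
  have hzero : ∀ x, φ 0 x = ind A x := fun x => by
    refine tendsto_nhds_unique (hφ 0 x) (tendsto_const_nhds.congr' ?_)
    filter_upwards [hU (eventually_gt_atTop 0)] with N hN
    have : (N : ℝ) ≠ 0 := Nat.cast_ne_zero.2 (Nat.pos_iff_ne_zero.1 hN)
    simp [T, mul_div_cancel_left₀ _ this]
  refine ⟨q, φ, by simp [hq, Nat.factorial_ne_zero], hφ0, fun f x => ?_, fun x => ?_⟩
  · have hshift : ∀ N : ℕ, ∑ n ∈ range N, ind A (x + q • f - (1 + q * n) • f)
        + ind A (x - (1 + q * ((N : ℤ) - 1)) • f)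
        = ind A (x - (1 + q * (-1)) • f) + ∑ n ∈ range N, ind A (x - (1 + q * n) • f) := by
      intro N
      induction N with
      | zero => simp
      | succ N ih =>
        rw [sum_range_succ, sum_range_succ]
        have e : x + q • f - (1 + q * (N : ℤ)) • f = x - (1 + q * ((N : ℤ) - 1)) • f := by
          rw [show (1 + q * ((N : ℤ) - 1)) = (1 + q * (N : ℤ)) - q by ring, sub_smul _ q f]
          abel
        rw [e]
        push_cast
        rw [show ((N : ℤ) + 1 - 1) = N by ring]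
        linarith
    have hd : ∀ N : ℕ, |T N f (x + q • f) - T N f x| ≤ 1 / (N : ℝ) := by
      intro N
      simp only [T, ← sub_div, abs_div, Nat.abs_cast]
      refine div_le_div_of_nonneg_right ?_ (Nat.cast_nonneg N)
      have := hshift N
      have := ind_nonneg A (x - (1 + q * ((N : ℤ) - 1)) • f)
      have := ind_le_one A (x - (1 + q * ((N : ℤ) - 1)) • f)
      have := ind_nonneg A (x - (1 + q * (-1)) • f)
      have := ind_le_one A (x - (1 + q * (-1)) • f)
      rw [abs_le]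
      constructor <;> linarith
    have h1 : Tendsto (fun N => T N f (x + q • f) - T N f x) U (𝓝 0) := by
      refine squeeze_zero_norm (fun N => ?_) (tendsto_one_div_atTop_nhds_zero_nat.mono_left hU)
      exact hd N
    exact sub_eq_zero.1 (tendsto_nhds_unique ((hφ f (x + q • f)).sub (hφ f x)) h1)
  · have h1 : Tendsto (fun N => ∑ f ∈ F, T N f x) U (𝓝 (∑ f ∈ F, φ f x)) :=
      tendsto_finsetSum _ fun f _ => hφ f x
    have h2 : Tendsto (fun N => ∑ f ∈ F, T N f x) U (𝓝 1) := by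
      refine tendsto_const_nhds.congr' ?_
      filter_upwards [hU (eventually_gt_atTop 0)] with N hN
      have hN' : (N : ℝ) ≠ 0 := Nat.cast_ne_zero.2 (Nat.pos_iff_ne_zero.1 hN)
      simp only [T, ← sum_div]
      rw [sum_comm, sum_congr rfl fun n _ => sum_ind_dilate h n x]
      simp [hN']
    rw [← hzero x, add_sum_erase F (fun f => φ f x) h0F]
    exact tendsto_nhds_unique h1 h2

/-- Parallel periods are merged. -/
theorem exists_merge {α : Type*} (s : Finset α) (w : α → ℤ × ℤ) (φ : α → ℤ × ℤ → ℝ)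
    (hw : ∀ a ∈ s, w a ≠ 0) (h0 : ∀ a x, 0 ≤ φ a x) (hinv : ∀ a, Inv (w a) (φ a)) :
    ∃ (m : ℕ) (W : Fin m → ℤ × ℤ) (ψ : Fin m → ℤ × ℤ → ℝ), (∀ i, W i ≠ 0) ∧
      (∀ i j, i ≠ j → pdet (W i) (W j) ≠ 0) ∧ (∀ i x, 0 ≤ ψ i x) ∧
      (∀ i, Inv (W i) (ψ i)) ∧ ∀ x, ∑ i, ψ i x = ∑ a ∈ s, φ a x := by
  classical
  induction s using Finset.induction_on with
  | empty => exact ⟨0, Fin.elim0, Fin.elim0, fun i => i.elim0, fun i => i.elim0, fun i => i.elim0,
      fun i => i.elim0, fun x => by simp⟩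
  | @insert a s ha ih =>
    obtain ⟨m, W, ψ, hW, hdet, hψ, hψi, hsum⟩ := ih fun b hb => hw b (mem_insert_of_mem hb)
    have hwa : w a ≠ 0 := hw a (mem_insert_self a s)
    by_cases hpar : ∃ j, pdet (w a) (W j) = 0
    · obtain ⟨j, hj⟩ := hpar
      set c : Fin m → ℤ := fun i => if i = j then kap (w a) else 1 with hc
      have hc0 : ∀ i, c i ≠ 0 := fun i => by
        simp only [hc]; split_ifs
        · exact kap_ne hwa
        · exact one_ne_zero
      refine ⟨m, fun i => c i • W i, fun i x => ψ i x + if i = j then φ a x else 0,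
        fun i => smul_ne_zero (hc0 i) (hW i), fun i k hik => ?_, fun i x => ?_, fun i x => ?_,
        fun x => ?_⟩
      · rw [pdet_smul_left, pdet_smul_right]
        exact mul_ne_zero (hc0 i) (mul_ne_zero (hc0 k) (hdet i k hik))
      · refine add_nonneg (hψ i x) ?_
        split_ifs
        · exact h0 a x
        · exact le_rfl
      · show ψ i (x + c i • W i) + _ = ψ i x + _
        rw [(hψi i).zsmul (c i) x]
        by_cases hij : i = j
        · subst hij
          simp only [if_true, hc]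
          rw [kap_smul hwa hj, (hinv a).zsmul]
        · simp only [if_neg hij]
      · rw [sum_add_distrib, hsum, sum_ite_eq', if_pos (mem_univ j), sum_insert ha, add_comm]
    · simp only [not_exists] at hpar
      refine ⟨m + 1, Fin.cons (w a) W, Fin.cons (φ a) ψ, fun i => ?_, fun i k hik => ?_,
        fun i x => ?_, fun i => ?_, fun x => ?_⟩
      · refine Fin.cases ?_ (fun i' => ?_) i
        · simpa using hwa
        · simpa using hW i'
      · obtain rfl | ⟨i', rfl⟩ := Fin.eq_zero_or_eq_succ i <;>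
          obtain rfl | ⟨k', rfl⟩ := Fin.eq_zero_or_eq_succ k
        · exact absurd rfl hik
        · simpa using hpar k'
        · simp only [Fin.cons_zero, Fin.cons_succ]
          rw [pdet_swap]
          exact neg_ne_zero.2 (hpar i')
        · simp only [Fin.cons_succ]
          exact hdet i' k' fun h => hik (congrArg Fin.succ h)
      · refine Fin.cases ?_ (fun i' => ?_) i
        · simpa using h0 a x
        · simpa using hψ i' x
      · refine Fin.cases ?_ (fun i' => ?_) i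
        · simpa using hinv a
        · simpa using hψi i'
      · rw [Fin.sum_univ_succ, sum_insert ha]
        simp [hsum x]

theorem periodic_of_tilesPlane_zero {A : Set (ℤ × ℤ)} {F : Finset (ℤ × ℤ)} (h : TilesPlane A F)
    (h0F : (0 : ℤ × ℤ) ∈ F) :
    ∃ (A' : Set (ℤ × ℤ)) (P : ℤ), 0 < P ∧ TilesPlane A' F ∧ ∀ v, Inv (P • v) (· ∈ A') := by
  classical
  obtain ⟨q, φ, hq, hφ, hφi, hφs⟩ := exists_weights h h0F
  obtain ⟨m, W, ψ, hW, hdet, hψ, hψi, hsum⟩ := exists_merge (F.erase 0) (fun f => q • f) φ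
    (fun f hf => smul_ne_zero hq (ne_of_mem_erase hf)) hφ hφi
  have hone : ∀ x, ind A x + ∑ i, ψ i x = 1 := fun x => by rw [hsum]; exact hφs x
  rcases Nat.eq_zero_or_pos m with rfl | hm
  · refine ⟨A, 1, one_pos, h, fun v x => ?_⟩
    have hA : ∀ y, y ∈ A := fun y => by
      by_contra hy
      have := hone y
      simp [ind_of_not_mem hy] at this
    exact propext ⟨fun _ => hA _, fun _ => hA _⟩
  obtain ⟨L, hL, idx, hidx⟩ := exists_split hm hW hdet A hψ hψi hone
  set S : Fin m → Set (ℤ × ℤ) := fun i => {x | x ∈ A ∧ idx x = i} with hS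
  have hW' : ∀ i, L • W i ≠ 0 := fun i => smul_ne_zero hL (hW i)
  have hdet' : ∀ i j, i ≠ j → pdet (L • W i) (L • W j) ≠ 0 := fun i j hij => by
    rw [pdet_smul_left, pdet_smul_right]
    exact mul_ne_zero hL (mul_ne_zero hL (hdet i j hij))
  have hsplit : ∀ y, ∑ i, ind (S i) y = ind A y := fun y => by
    rw [sum_eq_single (idx y)]
    · exact ind_congr ⟨fun hy => hy.1, fun hy => ⟨hy, rfl⟩⟩
    · exact fun i _ hi => ind_of_not_mem fun hy => hi hy.2.symm
    · simp
  have hcnt : ∀ x, ∑ i, cnt (S i) F x = 1 := fun x => by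
    simp only [cnt]
    rw [sum_comm, sum_congr rfl fun f _ => hsplit (x - f)]
    exact sum_ind_tiles h x
  choose d hd hdv using exists_period_of_sum_one hW' hdet'
    (g := fun i => cnt (S i) F) (fun i => cnt_inv (hidx i)) (fun i => cnt_nonneg _ F) hcnt
  choose S' e he hev hcnt' using fun i =>
    exists_periodic_piece (hW' i) (S := S i) (hidx i) F (hd i) (hdv i)
  refine ⟨{x | ∃ i, x ∈ S' i}, |∏ i, e i|, abs_pos.2 (prod_ne_zero_iff.2 fun i _ => he i),
    fun x => ?_, fun v x => ?_⟩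
  · have hx : ∑ p ∈ (univ : Finset (Fin m)) ×ˢ F, ind (S' p.1) (x - p.2) = 1 := by
      rw [sum_product, ← hcnt x]
      exact sum_congr rfl fun i _ => hcnt' i x
    obtain ⟨p, hp, hpS⟩ : ∃ p ∈ (univ : Finset (Fin m)) ×ˢ F, x - p.2 ∈ S' p.1 := by
      by_contra hno
      rw [sum_eq_zero fun p hp => ind_of_not_mem fun hm => hno ⟨p, hp, hm⟩] at hx
      exact zero_ne_one hx
    refine ⟨p.2, ⟨(mem_product.1 hp).2, p.1, hpS⟩, ?_⟩
    rintro f ⟨hf, i, hi⟩
    by_contra hne
    have hsub : ({(i, f), p} : Finset (Fin m × (ℤ × ℤ))) ⊆ univ ×ˢ F := by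
      simp [insert_subset_iff, hf, (mem_product.1 hp).2]
    have := sum_le_sum_of_subset_of_nonneg (f := fun p => ind (S' p.1) (x - p.2)) hsub
      fun p _ _ => ind_nonneg _ _
    rw [sum_pair (fun h => hne (congrArg Prod.snd h)), hx, ind_of_mem hi, ind_of_mem hpS] at this
    norm_num at this
  · have key : ∀ i, (x + |∏ i, e i| • v ∈ S' i) = (x ∈ S' i) := fun i => by
      obtain ⟨k, hk⟩ : e i ∣ |∏ i, e i| := (dvd_abs _ _).2 (dvd_prod_of_mem _ (mem_univ i))
      rw [hk, mul_smul]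
      exact hev i _ x
    exact propext (exists_congr fun i => Iff.of_eq (key i))

/-- Every finite tile of the integer plane has a doubly periodic tiling. -/
theorem periodic_of_tilesPlane {A : Set (ℤ × ℤ)} {F : Finset (ℤ × ℤ)} (h : TilesPlane A F) :
    ∃ (A' : Set (ℤ × ℤ)) (P : ℤ), 0 < P ∧ TilesPlane A' F ∧
      ∀ x, (x + (P, 0) ∈ A' ↔ x ∈ A') ∧ (x + (0, P) ∈ A' ↔ x ∈ A') := by
  classical
  obtain ⟨f₀, ⟨hf₀, -⟩, -⟩ := h 0
  set F₀ := F.image fun f => f - f₀ with hF₀
  have hmem : ∀ f, f - f₀ ∈ F₀ ↔ f ∈ F := fun f => by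
    simp [hF₀]
  have h₀ : TilesPlane {x | x - f₀ ∈ A} F₀ := fun x => by
    obtain ⟨f, ⟨hf, hfA⟩, huniq⟩ := h x
    refine ⟨f - f₀, ⟨(hmem f).2 hf, ?_⟩, ?_⟩
    · show x - (f - f₀) - f₀ ∈ A
      rwa [show x - (f - f₀) - f₀ = x - f by abel]
    · rintro g ⟨hg, hgA⟩
      have : g + f₀ = f := huniq _ ⟨(hmem _).1 (by simpa using hg), by
        rw [show x - (g + f₀) = x - g - f₀ by abel]; exact hgA⟩
      rw [← this]; simp
  obtain ⟨A₁, P, hP, htile, hper⟩ := periodic_of_tilesPlane_zero h₀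
    (by simpa using (hmem f₀).2 hf₀)
  refine ⟨{x | x + f₀ ∈ A₁}, P, hP, fun x => ?_, fun x => ?_⟩
  · obtain ⟨g, ⟨hg, hgA⟩, huniq⟩ := htile x
    refine ⟨g + f₀, ⟨(hmem _).1 (by simpa using hg), ?_⟩, ?_⟩
    · show x - (g + f₀) + f₀ ∈ A₁
      rwa [show x - (g + f₀) + f₀ = x - g by abel]
    · rintro f ⟨hf, hfA⟩
      have : f - f₀ = g := huniq _ ⟨(hmem f).2 hf, by
        rw [show x - (f - f₀) = x - f + f₀ by abel]; exact hfA⟩
      rw [← this]; simp
  · have key : ∀ v, x + P • v + f₀ ∈ A₁ ↔ x + f₀ ∈ A₁ := fun v => by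
      rw [add_right_comm]; exact Iff.of_eq (hper v (x + f₀))
    have e1 : ((P, 0) : ℤ × ℤ) = P • (1, 0) := by ext <;> simp
    have e2 : ((0, P) : ℤ × ℤ) = P • (0, 1) := by ext <;> simp
    rw [e1, e2]
    exact ⟨key _, key _⟩

end Vale.Agent.P043.Rows
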