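import Mathlib
import Vale.Agent.P043.Rows.RowPeriod

/-!
Helper for P043: a tiling in which no tile crosses some horizontal line gives a periodic tiling.
-/

namespace Vale.Agent.P043.Rows

open Pointwise

set_option linter.unusedSectionVars false

variable {ι : Type} [Fintype ι] {j : ι → ℤ} {l r : ι → ℝ} {h : ℕ} {T : Set (ℝ × ℤ)}

/-- The row partitions carry over along a bijection of pieces that translates positions. -/
theorem rowPart_of_shift {T' : Set (ℝ × ℤ)} {k k' : ℤ} (c : ℝ)
    (hk : ∀ i t b, b + j i = k → ((t, b) ∈ T' ↔ (t - c, b - (k - k')) ∈ T))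
    (hT : RowPart (rowSet j T k') (pieceL l) (pieceR r)) :
    RowPart (rowSet j T' k) (pieceL l) (pieceR r) := by
  intro x
  obtain ⟨⟨⟨t, b⟩, i⟩, ⟨⟨hm, hj⟩, h1, h2⟩, huniq⟩ := hT (x - c)
  simp only [pieceL, pieceR] at h1 h2 hj
  refine ⟨((t + c, b + (k - k')), i), ⟨⟨(hk i _ _ (by omega)).2 (by simpa using hm),
    by simp only; omega⟩, by simp only [pieceL]; linarith, by simp only [pieceR]; linarith⟩, ?_⟩
  rintro ⟨⟨t', b'⟩, i'⟩ ⟨⟨hm', hj'⟩, h1', h2'⟩
  simp only [pieceL, pieceR] at h1' h2' hj'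
  have := huniq ((t' - c, b' - (k - k')), i') ⟨⟨(hk i' t' b' hj').1 hm', by simp only; omega⟩,
    by simp only [pieceL]; linarith, by simp only [pieceR]; linarith⟩
  simp only [Prod.mk.injEq] at this
  obtain ⟨⟨e1, e2⟩, e3⟩ := this
  simp only [Prod.mk.injEq]
  exact ⟨⟨by linarith, by omega⟩, e3⟩

/-- Stacking a block of rows whose boundary data repeat. -/
theorem stack (hs : IsShape j l r h) (hT : RowTiling j l r T) {P v : ℝ} {k₁ Δ : ℤ}
    (hΔ : 0 < Δ)
    (hrep : ∀ b, k₁ - h ≤ b → b < k₁ → ∀ t, ((t, b) ∈ T ↔ (t + v, b + Δ) ∈ T))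
    (hper : ∀ b, k₁ ≤ b → b < k₁ + Δ → ∀ t, ((t + P, b) ∈ T ↔ (t, b) ∈ T)) :
    ∃ T' : Set (ℝ × ℤ), RowTiling j l r T' ∧ (∀ t b, ((t + P, b) ∈ T' ↔ (t, b) ∈ T')) ∧
      ∀ t b, ((t + v, b + Δ) ∈ T' ↔ (t, b) ∈ T') := by
  let T' : Set (ℝ × ℤ) := {x | (x.1 - ((x.2 - k₁) / Δ : ℤ) * v, (x.2 - k₁) % Δ + k₁) ∈ T}
  have hshift : ∀ (m : ℤ) t b, ((t + m * v, b + m * Δ) ∈ T' ↔ (t, b) ∈ T') := by
    intro m t b
    simp only [T', Set.mem_ofPred_eq]
    rw [show b + m * Δ - k₁ = (b - k₁) + m * Δ by ring, Int.add_mul_ediv_right _ _ hΔ.ne',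
      Int.add_mul_emod_self_right]
    push_cast
    ring_nf
  have hcore : ∀ b, k₁ ≤ b → b < k₁ + Δ → ∀ t, ((t, b) ∈ T' ↔ (t, b) ∈ T) := by
    intro b h1 h2 t
    simp only [T', Set.mem_ofPred_eq]
    rw [Int.ediv_eq_zero_of_lt (by omega) (by omega), Int.emod_eq_of_lt (by omega) (by omega)]
    simp
  have hwin : ∀ n : ℕ, ∀ b, b + n = k₁ + Δ → k₁ - h ≤ b → b < k₁ + Δ →
      ∀ t, ((t, b) ∈ T' ↔ (t, b) ∈ T) := by
    intro n
    induction n using Nat.strong_induction_on with
    | _ n ih =>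
      intro b hb h1 h2 t
      by_cases hb1 : k₁ ≤ b
      · exact hcore b hb1 h2 t
      · rw [hrep b h1 (by omega) t, ← ih (n - Δ.toNat) (by omega) (b + Δ) (by omega) (by omega)
          (by omega) (t + v)]
        have := hshift 1 t b
        simp only [Int.cast_one, one_mul] at this
        exact this.symm
  refine ⟨T', fun k => ?_, fun t b => ?_, fun t b => by simpa using hshift 1 t b⟩
  · set m := (k - k₁) / Δ with hm
    refine rowPart_of_shift (k' := k - m * Δ) (m * v) (fun i t b hb => ?_) (hT _)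
    have h1 := Int.emod_nonneg (k - k₁) hΔ.ne'
    have h2 := Int.emod_lt_of_pos (k - k₁) hΔ
    have h3 := Int.emod_add_mul_ediv (k - k₁) Δ
    rw [← hm, mul_comm] at h3
    have := hs.range i
    have e := hshift m (t - m * v) (b - m * Δ)
    rw [sub_add_cancel, sub_add_cancel] at e
    rw [e, show b - (k - (k - m * Δ)) = b - m * Δ by ring]
    exact hwin (k₁ + Δ - (b - m * Δ)).toNat _ (by omega) (by omega) (by omega) _
  · simp only [T', Set.mem_ofPred_eq]
    have h1 := Int.emod_nonneg (b - k₁) hΔ.ne'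
    have h2 := Int.emod_lt_of_pos (b - k₁) hΔ
    have := hper ((b - k₁) % Δ + k₁) (by omega) (by omega) (t - ((b - k₁) / Δ : ℤ) * v)
    rw [sub_add_eq_add_sub] at this
    exact this

/-- A fault line gives a periodic tiling. -/
theorem periodic_of_fault (hs : IsShape j l r h) (hfull : Full j h) (hT : RowTiling j l r T)
    (hfault : ∀ s ∈ rowSet j T 0, j s.2 = 0) :
    ∃ (T' : Set (ℝ × ℤ)) (P v : ℝ) (Δ : ℤ), 0 < P ∧ 0 < Δ ∧ RowTiling j l r T' ∧
      (∀ t b, ((t + P, b) ∈ T' ↔ (t, b) ∈ T')) ∧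
      ∀ t b, ((t + v, b + Δ) ∈ T' ↔ (t, b) ∈ T') := by
  classical
  obtain ⟨δ, hδ0, hδ⟩ := hs.exists_min
  obtain ⟨D₀, hD₀, hD⟩ := hs.exists_bound
  have hempty : ∀ b, -(h : ℤ) ≤ b → b < 0 → ∀ t, (t, b) ∉ T := by
    intro b h1 h2 t ht
    obtain ⟨i, hi⟩ := hfull (-b) (by omega) (by omega)
    have h4 : j i = 0 := hfault ((t, b), i) ⟨ht, by simp only; omega⟩
    omega
  -- row zero
  have hrow0 : ∀ s ∈ rowSet j T 0, s.1.2 = 0 := fun s hs' => by
    have := hs'.2
    have := hfault s hs'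
    omega
  obtain ⟨Q, -, hQ, hQT⟩ := exists_period hs hT 0 ⊤
    (fun v _ b h1 h2 t => iff_of_false (hempty b (by omega) h2 _) (hempty b (by omega) h2 _))
    {0} (fun t _ => ⟨0, by simp, AddSubgroup.mem_top _⟩) (2 * D₀) (fun a => by
      obtain ⟨⟨⟨y, b⟩, i⟩, hy, hy1, hy2⟩ := (hT 0 (a + D₀)).exists
      simp only [pieceL, pieceR] at hy1 hy2
      have : b = 0 := hrow0 _ hy
      subst this
      exact ⟨y, hy.1, by linarith [(abs_le.1 (hD i).2).2], by linarith [(abs_le.1 (hD i).1).1]⟩)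
  obtain ⟨L, hL, hgood⟩ := exists_goodPeriod l r hQ
  set P := (L : ℝ) * Q with hPdef
  have hP : 0 < P := mul_pos (by exact_mod_cast hL) hQ
  have hP0 : ∀ t, ((t + P, 0) ∈ T ↔ (t, 0) ∈ T) := by
    intro t
    rw [hPdef]
    clear_value P
    clear hL hgood hP hPdef
    induction L with
    | zero => simp
    | succ n ih => push_cast; rw [add_mul, one_mul, ← add_assoc, hQT, ih]
  by_cases hslab : ∃ k : ℕ, 0 < k ∧ ∀ s ∈ rowSet j T k, j s.2 = 0
  · -- a slab between two faults
    let k := Nat.find hslab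
    obtain ⟨hk, hkf⟩ := Nat.find_spec hslab
    have hper : ∀ n : ℕ, n < k → ∀ b, -(h : ℤ) ≤ b → b ≤ n → ∀ t,
        ((t + P, b) ∈ T ↔ (t, b) ∈ T) := by
      intro n
      induction n with
      | zero =>
        intro _ b h1 h2 t
        rcases (Int.le_iff_lt_or_eq.1 h2) with h2 | rfl
        · exact iff_of_false (hempty b h1 h2 _) (hempty b h1 h2 _)
        · exact hP0 t
      | succ n ih =>
        intro hn b h1 h2 t
        rcases (Int.le_iff_lt_or_eq.1 h2) with h2 | rfl
        · exact ih (by omega) b h1 (by omega) t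
        · refine row_periodic hs hT _ hP hgood
            (fun b hb1 hb2 => ih (by omega) b (by omega) (by omega)) ?_ t
          have := Nat.find_min hslab hn
          push Not at this
          exact this (by omega)
    have hno : ∀ b, (k : ℤ) - h ≤ b → b < k → ∀ t, (t, b) ∉ T := by
      intro b h1 h2 t ht
      obtain ⟨i, hi⟩ := hfull (k - b) (by omega) (by omega)
      have h4 : j i = 0 := hkf ((t, b), i) ⟨ht, by simp only; omega⟩
      omega
    obtain ⟨T', h1, h2, h3⟩ := stack (v := 0) (k₁ := 0) (Δ := k) hs hT (by omega)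
      (fun b h1 h2 t => iff_of_false (hempty b (by omega) h2 _) (fun hh => by
        by_cases hbk : b + (k : ℤ) < 0
        · exact hempty _ (by omega) hbk _ hh
        · exact hno _ (by omega) (by omega) _ hh))
      (fun b h1 h2 => hper b.toNat (by omega) b (by omega) (by omega))
    exact ⟨T', P, 0, k, hP, by omega, h1, h2, h3⟩
  · -- every later row meets an older tile: the windows recur
    push Not at hslab
    have hper : ∀ n : ℕ, ∀ b, -(h : ℤ) ≤ b → b ≤ n → ∀ t,
        ((t + P, b) ∈ T ↔ (t, b) ∈ T) := by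
      intro n
      induction n with
      | zero =>
        intro b h1 h2 t
        rcases (Int.le_iff_lt_or_eq.1 h2) with h2 | rfl
        · exact iff_of_false (hempty b h1 h2 _) (hempty b h1 h2 _)
        · exact hP0 t
      | succ n ih =>
        intro b h1 h2 t
        rcases (Int.le_iff_lt_or_eq.1 h2) with h2 | rfl
        · exact ih b h1 (by omega) t
        · exact row_periodic hs hT _ hP hgood
            (fun b hb1 hb2 => ih b (by omega) (by omega)) (hslab (n + 1) (by omega)) t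
    have hperm : ∀ b, -(h : ℤ) ≤ b → ∀ (m : ℤ) t, ((t + m * P, b) ∈ T ↔ (t, b) ∈ T) := by
      intro b hb m
      have h1 := hper b.toNat b hb (by omega)
      induction m using Int.induction_on with
      | zero => simp
      | succ e ih => intro t; rw [Int.cast_add, Int.cast_one, add_mul, one_mul, ← add_assoc, h1, ih]
      | pred e ih =>
        intro t
        rw [← ih t, show t + ((-(e : ℤ) : ℤ) : ℝ) * P =
          (t + ((-(e : ℤ) - 1 : ℤ) : ℝ) * P) + P by push_cast; ring, h1]
    obtain ⟨N, hN⟩ : ∃ N : ℕ, P ≤ N * δ :=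
      ⟨⌈P / δ⌉₊, by rw [← div_le_iff₀ hδ0]; exact Nat.le_ceil _⟩
    choose ref hrefS hrefL hrefR using fun n : ℕ => (hT ((n : ℤ) - 1) 0).exists
    let code : ℕ → Finset (ℝ × Fin h) := fun n =>
      ((words l r N) ×ˢ Finset.univ).filter fun x =>
        ((ref n).1.1 + x.1, (n : ℤ) - 1 - x.2) ∈ T
    obtain ⟨n₁', hn1, n₂', hn2, hne, heq⟩ := Finset.exists_ne_map_eq_of_card_lt_of_maps_to
      (s := Finset.range (((words l r N) ×ˢ (Finset.univ : Finset (Fin h))).powerset.card + 1))
      (t := ((words l r N) ×ˢ (Finset.univ : Finset (Fin h))).powerset) (f := fun n => code (n + h + 1))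
      (by simp) (fun n _ => Finset.mem_powerset.2 (Finset.filter_subset _ _))
    wlog hlt : n₁' < n₂' generalizing n₁' n₂'
    · exact this n₂' hn2 n₁' hn1 hne.symm heq.symm (by omega)
    set n₁ := n₁' + h + 1 with hn₁
    set n₂ := n₂' + h + 1 with hn₂
    set v := (ref n₂).1.1 - (ref n₁).1.1 with hv
    have hloc : ∀ (n : ℕ), h + 1 ≤ n → ∀ b, (n : ℤ) - h ≤ b → b < n → ∀ t, (t, b) ∈ T →
        ∃ (d : ℝ) (m : ℤ), d ∈ words l r N ∧ t = (ref n).1.1 + d + m * P := by
      intro n hn b h1 h2 t ht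
      obtain ⟨i, hi⟩ := hfull ((n : ℤ) - 1 - b) (by omega) (by omega)
      set m := ⌊((t + l i) - pieceL l (ref n)) / P⌋ with hm
      have e1 := Int.floor_le (((t + l i) - pieceL l (ref n)) / P)
      have e2 := Int.lt_floor_add_one (((t + l i) - pieceL l (ref n)) / P)
      rw [← hm, le_div_iff₀ hP] at e1
      rw [← hm, div_lt_iff₀ hP] at e2
      have hmem : ((t + (-m : ℤ) * P, b), i) ∈ rowSet j T ((n : ℤ) - 1) :=
        ⟨(hperm b (by omega) (-m) t).2 ht, by simp only; omega⟩
      have hw := row_chain hT hδ0 hδ (hrefS n) hmem (R := P) (by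
        simp only [pieceL] at e1 e2 ⊢
        push_cast
        rw [abs_le]; constructor <;> linarith) hN
      refine ⟨_, m, hw, ?_⟩
      push_cast
      ring
    have hrep : ∀ b, (n₁ : ℤ) - h ≤ b → b < n₁ → ∀ t,
        ((t, b) ∈ T ↔ (t + v, b + ((n₂ : ℤ) - n₁)) ∈ T) := by
      intro b h1 h2 t
      obtain ⟨e, he⟩ : ∃ e : Fin h, (e : ℤ) = (n₁ : ℤ) - 1 - b :=
        ⟨⟨((n₁ : ℤ) - 1 - b).toNat, by omega⟩, by simp only; omega⟩
      constructor
      · intro ht
        obtain ⟨d, m, hd, rfl⟩ := hloc n₁ (by omega) b h1 h2 t ht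
        have : (d, e) ∈ code n₁ := by
          simp only [code, Finset.mem_filter, Finset.mem_product, Finset.mem_univ, and_true]
          refine ⟨hd, ?_⟩
          rw [show (n₁ : ℤ) - 1 - e = b by omega]
          exact (hperm b (by omega) m _).1 ht
        change code n₁ = code n₂ at heq
        rw [heq] at this
        simp only [code, Finset.mem_filter] at this
        have h5 := (hperm _ (by omega) m _).2 this.2
        convert h5 using 2
        · simp only [hv]; ring
        · omega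
      · intro ht
        obtain ⟨d, m, hd, hteq⟩ := hloc n₂ (by omega) _ (by omega) (by omega) _ ht
        have : (d, e) ∈ code n₂ := by
          simp only [code, Finset.mem_filter, Finset.mem_product, Finset.mem_univ, and_true]
          refine ⟨hd, ?_⟩
          rw [show (n₂ : ℤ) - 1 - e = b + ((n₂ : ℤ) - n₁) by omega]
          rw [hteq] at ht
          exact (hperm _ (by omega) m _).1 ht
        change code n₁ = code n₂ at heq
        rw [← heq] at this
        simp only [code, Finset.mem_filter] at this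
        have h5 := (hperm _ (by omega) m _).2 this.2
        convert h5 using 2
        · simp only [hv] at hteq ⊢; linarith
        · omega
    obtain ⟨T', e1, e2, e3⟩ := stack (v := v) (k₁ := n₁) (Δ := (n₂ : ℤ) - n₁) hs hT (by omega)
      hrep (fun b h1 h2 => hper b.toNat b (by omega) (by omega))
    exact ⟨T', P, v, (n₂ : ℤ) - n₁, hP, by omega, e1, e2, e3⟩

end Vale.Agent.P043.Rows
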