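import Mathlib
import Vale.Agent.P043.Rows.Shape

/-!
Helper for P043: scaled integer tilings with longer and longer fault segments converge to a real
tiling with a fault line.
-/

namespace Vale.Agent.P043.Rows

open Filter Topology

variable {ι : Type} [Fintype ι] {j : ι → ℤ} {l r : ι → ℝ} {h : ℕ}

/-- A scaled integer sequence trapped between bounded ones has a limit along an ultrafilter. -/
theorem exists_scaled_limit (U : Ultrafilter ℕ) (a : ℕ → ℝ) (L R : ℝ)
    (hab : ∀ᶠ n in (U : Filter ℕ), L ≤ a n ∧ a n ≤ R) :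
    ∃ t, Tendsto a U (𝓝 t) := by
  obtain ⟨t, -, ht⟩ := isCompact_Icc.ultrafilter_le_nhds (U.map a)
    (le_principal_iff.2 (Ultrafilter.mem_map.2 (show a ⁻¹' Set.Icc L R ∈ U from hab)))
  exact ⟨t, ht⟩

/-- The limit tiling; each of its base points comes from nearby base points. -/
theorem limit_tiling (hs : IsShape j l r h) {δ : ℝ} (hδ0 : 0 < δ)
    (M : ℕ → ℕ) (hM : ∀ n, 0 < M n) (lZ rZ : ℕ → ι → ℤ)
    (hl : ∀ i, Filter.Tendsto (fun n => (lZ n i : ℝ) / M n) Filter.atTop (nhds (l i)))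
    (hr : ∀ i, Filter.Tendsto (fun n => (rZ n i : ℝ) / M n) Filter.atTop (nhds (r i)))
    (hlong : ∀ n i, (lZ n i : ℝ) + δ / 2 * M n ≤ rZ n i)
    (B : ℕ → Set (ℤ × ℤ)) (hB : ∀ n, RowTiling j (lZ n) (rZ n) (B n)) :
    ∃ T : Set (ℝ × ℤ), RowTiling j l r T ∧ ∀ p ∈ T,
      ∃ᶠ n in atTop, ∃ t : ℤ, (t, p.2) ∈ B n ∧ |(t : ℝ)| ≤ (|p.1| + 1) * M n := by
  classical
  set U : Ultrafilter ℕ := Ultrafilter.of atTop
  have hU : (U : Filter ℕ) ≤ atTop := Ultrafilter.of_le atTop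
  have hMpos : ∀ n, (0 : ℝ) < M n := fun n => by exact_mod_cast hM n
  have hone : ∀ n i, lZ n i + 1 ≤ rZ n i := fun n i => by
    have := hlong n i
    have := mul_pos (half_pos hδ0) (hMpos n)
    have : (lZ n i : ℝ) < rZ n i := by linarith
    exact_mod_cast this
  set T : Set (ℝ × ℤ) := {x | ∃ sel : ℕ → ℤ, (∀ᶠ n in (U : Filter ℕ), (sel n, x.2) ∈ B n) ∧
    Tendsto (fun n => (sel n : ℝ) / M n) U (𝓝 x.1)} with hT
  -- a selection of pieces has, after fixing the index, a limit piece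
  have hpick : ∀ (k : ℤ) (w : ℕ → (ℤ × ℤ) × ι), (∀ n, w n ∈ rowSet j (B n) k) →
      ∀ D : ℝ, (∀ᶠ n in (U : Filter ℕ), |((w n).1.1 : ℝ) / M n| ≤ D) →
      ∃ s ∈ rowSet j T k, (∀ᶠ n in (U : Filter ℕ), (w n).2 = s.2) ∧
        Tendsto (fun n => ((w n).1.1 : ℝ) / M n) U (𝓝 s.1.1) := by
    intro k w hw D hD
    obtain ⟨i, hi⟩ : ∃ i, ∀ᶠ n in (U : Filter ℕ), (w n).2 = i := by
      by_contra hno
      simp only [not_exists] at hno
      have hall : ∀ᶠ n in (U : Filter ℕ), ∀ i, ¬ (w n).2 = i :=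
        eventually_all.2 fun i => Ultrafilter.eventually_not.2 (hno i)
      obtain ⟨n, hn⟩ := hall.exists
      exact hn _ rfl
    obtain ⟨t, ht⟩ := exists_scaled_limit U (fun n => ((w n).1.1 : ℝ) / M n) (-D) D
      (hD.mono fun n hn => abs_le.1 hn)
    refine ⟨((t, k - j i), i), ⟨⟨fun n => (w n).1.1, hi.mono fun n hn => ?_, ht⟩, by simp⟩, hi, ht⟩
    obtain ⟨h1, h2⟩ := hw n
    have : (w n).1 = ((w n).1.1, k - j i) := by
      refine Prod.ext rfl ?_
      subst hn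
      exact eq_sub_of_add_eq h2
    rw [← this]
    exact h1
  -- the limits of the endpoints
  have hlU : ∀ i, Tendsto (fun n => (lZ n i : ℝ) / M n) U (𝓝 (l i)) := fun i => (hl i).mono_left hU
  have hrU : ∀ i, Tendsto (fun n => (rZ n i : ℝ) / M n) U (𝓝 (r i)) := fun i => (hr i).mono_left hU
  obtain ⟨D, hD0, hD⟩ := hs.exists_bound
  have hbound : ∀ᶠ n in (U : Filter ℕ), ∀ i,
      |(lZ n i : ℝ) / M n| < D + 1 ∧ |(rZ n i : ℝ) / M n| < D + 1 := by
    refine eventually_all.2 fun i => ?_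
    have h1 := (hlU i).abs.eventually_lt_const (show |l i| < D + 1 by linarith [(hD i).1])
    have h2 := (hrU i).abs.eventually_lt_const (show |r i| < D + 1 by linarith [(hD i).2])
    exact h1.and h2
  refine ⟨T, fun k x => ?_, ?_⟩
  · -- existence
    choose w hw hwmem using fun n => ((hB n) k ⌊x * M n⌋).exists.imp fun s hs =>
      (show s ∈ rowSet j (B n) k ∧ ((s.1.1 : ℝ) / M n + (lZ n s.2 : ℝ) / M n ≤ x ∧
          x < (s.1.1 : ℝ) / M n + (rZ n s.2 : ℝ) / M n) from by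
        obtain ⟨hs0, h1, h2⟩ := hs
        refine ⟨hs0, ?_, ?_⟩
        · rw [← add_div, div_le_iff₀ (hMpos n)]
          have : ((pieceL (lZ n) s : ℤ) : ℝ) ≤ x * M n := Int.le_floor.1 h1
          simpa [pieceL] using this
        · rw [← add_div, lt_div_iff₀ (hMpos n)]
          have : x * M n < ((pieceR (rZ n) s : ℤ) : ℝ) := Int.floor_lt.1 h2
          simpa [pieceR] using this)
    obtain ⟨s, hsT, hsi, hslim⟩ := hpick k w hw (|x| + D + 1) (hbound.mono fun n hn => by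
      have := (abs_lt.1 (hn (w n).2).1); have := (abs_lt.1 (hn (w n).2).2)
      have := hwmem n; have := le_abs_self x; have := neg_abs_le x
      exact abs_le.2 ⟨by linarith, by linarith⟩)
    have hsl : s.1.1 + l s.2 ≤ x := le_of_tendsto (hslim.add (hlU s.2))
      (hsi.mono fun n hn => by rw [← hn]; exact (hwmem n).1)
    have hsr : x ≤ s.1.1 + r s.2 := ge_of_tendsto (hslim.add (hrU s.2))
      (hsi.mono fun n hn => by rw [← hn]; exact (hwmem n).2.le)
    have hex : ∃ u ∈ rowSet j T k, pieceL l u ≤ x ∧ x < pieceR r u := by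
      rcases hsr.lt_or_eq with hlt | heq
      · exact ⟨s, hsT, hsl, hlt⟩
      choose w' hw' hadj using fun n => ((hB n) k).exists_succ (δ := 1) one_pos
        (fun u _ => by simp only [pieceL, pieceR]; linarith [hone n u.2]) (hw n)
      have hadjR : ∀ n, ((w' n).1.1 : ℝ) / M n + (lZ n (w' n).2 : ℝ) / M n
          = ((w n).1.1 : ℝ) / M n + (rZ n (w n).2 : ℝ) / M n := fun n => by
        have := congrArg (fun z : ℤ => (z : ℝ)) (hadj n)
        simp only [pieceL, pieceR, Int.cast_add] at this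
        rw [← add_div, ← add_div, this]
      obtain ⟨s', hs'T, hs'i, hs'lim⟩ := hpick k w' hw' (|x| + 3 * (D + 1))
        (hbound.mono fun n hn => by
          have := (abs_lt.1 (hn (w n).2).1); have := (abs_lt.1 (hn (w n).2).2)
          have := (abs_lt.1 (hn (w' n).2).1)
          have := hwmem n; have := hadjR n; have := le_abs_self x; have := neg_abs_le x
          exact abs_le.2 ⟨by linarith, by linarith⟩)
      have heq' : s'.1.1 + l s'.2 = x := by
        rw [heq]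
        refine tendsto_nhds_unique (hs'lim.add (hlU s'.2)) ((hslim.add (hrU s.2)).congr' ?_)
        filter_upwards [hsi, hs'i] with n h1 h2
        rw [← h1, ← h2, hadjR n]
      exact ⟨s', hs'T, heq'.le, by rw [← heq']; simp only [pieceR]; linarith [hs.lt s'.2]⟩
    obtain ⟨u, hu, hu1, hu2⟩ := hex
    refine ⟨u, ⟨hu, hu1, hu2⟩, ?_⟩
    -- uniqueness
    rintro v ⟨hv, hv1, hv2⟩
    obtain ⟨y, hy1, hy2⟩ := exists_between
      (show max (pieceL l u) (pieceL l v) < min (pieceR r u) (pieceR r v) from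
        lt_of_le_of_lt (max_le hu1 hv1) (lt_min hu2 hv2))
    obtain ⟨⟨su, hsu, hsulim⟩, huk⟩ := hu
    obtain ⟨⟨sv, hsv, hsvlim⟩, hvk⟩ := hv
    have hown : ∀ (w : (ℝ × ℤ) × ι) (sel : ℕ → ℤ), w.1.2 + j w.2 = k →
        (∀ᶠ n in (U : Filter ℕ), (sel n, w.1.2) ∈ B n) →
        Tendsto (fun n => (sel n : ℝ) / M n) U (𝓝 w.1.1) →
        pieceL l w < y → y < pieceR r w → ∀ᶠ n in (U : Filter ℕ),
          ((sel n, w.1.2), w.2) ∈ rowSet j (B n) k ∧
            pieceL (lZ n) ((sel n, w.1.2), w.2) ≤ ⌊y * M n⌋ ∧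
            ⌊y * M n⌋ < pieceR (rZ n) ((sel n, w.1.2), w.2) := by
      intro w sel hk hmem hlim h1 h2
      filter_upwards [hmem, (hlim.add (hlU w.2)).eventually_lt_const h1,
        (hlim.add (hrU w.2)).eventually_const_lt h2] with n hn h1n h2n
      rw [← add_div, div_lt_iff₀ (hMpos n)] at h1n
      rw [← add_div, lt_div_iff₀ (hMpos n)] at h2n
      refine ⟨⟨hn, hk⟩, Int.le_floor.2 ?_, Int.floor_lt.2 ?_⟩
      · simp only [pieceL, Int.cast_add]; exact h1n.le
      · simpa [pieceR] using h2n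
    have hsame : ∀ᶠ n in (U : Filter ℕ), ((sv n, v.1.2), v.2) = ((su n, u.1.2), u.2) := by
      filter_upwards [hown u su huk hsu hsulim (lt_of_le_of_lt (le_max_left _ _) hy1)
          (lt_of_lt_of_le hy2 (min_le_left _ _)),
        hown v sv hvk hsv hsvlim (lt_of_le_of_lt (le_max_right _ _) hy1)
          (lt_of_lt_of_le hy2 (min_le_right _ _))] with n hnu hnv
      exact ((hB n) k ⌊y * M n⌋).unique hnv hnu
    obtain ⟨n, hn⟩ := hsame.exists
    simp only [Prod.mk.injEq] at hn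
    have ht : v.1.1 = u.1.1 := tendsto_nhds_unique hsvlim (hsulim.congr' (hsame.mono fun n hn => by
      simp only [Prod.mk.injEq] at hn
      simp only [hn.1.1]))
    exact Prod.ext (Prod.ext ht hn.1.2) hn.2
  · -- the origin of a base point
    rintro ⟨t, b⟩ ⟨sel, hmem, hlim⟩
    refine Filter.Frequently.filter_mono ?_ hU
    refine Filter.Eventually.frequently ?_
    filter_upwards [hmem, hlim.abs.eventually_lt_const (show |t| < |t| + 1 by linarith)] with n h1 h2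
    refine ⟨sel n, h1, ?_⟩
    rw [abs_div, abs_of_pos (hMpos n), div_lt_iff₀ (hMpos n)] at h2
    exact h2.le

/-- Longer and longer fault segments give a fault line. -/
theorem limit_fault (hs : IsShape j l r h) {δ : ℝ} (hδ0 : 0 < δ)
    (M : ℕ → ℕ) (hM : ∀ n, 0 < M n) (lZ rZ : ℕ → ι → ℤ)
    (hl : ∀ i, Filter.Tendsto (fun n => (lZ n i : ℝ) / M n) Filter.atTop (nhds (l i)))
    (hr : ∀ i, Filter.Tendsto (fun n => (rZ n i : ℝ) / M n) Filter.atTop (nhds (r i)))
    (hlong : ∀ n i, (lZ n i : ℝ) + δ / 2 * M n ≤ rZ n i)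
    (B : ℕ → Set (ℤ × ℤ)) (hB : ∀ n, RowTiling j (lZ n) (rZ n) (B n))
    (W : ℕ → ℝ) (hW : Filter.Tendsto W Filter.atTop Filter.atTop)
    (hfault : ∀ n, ∀ s ∈ rowSet j (B n) 0, |((pieceL (lZ n) s : ℤ) : ℝ)| ≤ W n * M n → j s.2 = 0) :
    ∃ T : Set (ℝ × ℤ), RowTiling j l r T ∧ ∀ s ∈ rowSet j T 0, j s.2 = 0 := by
  obtain ⟨T, hT, horig⟩ := limit_tiling hs hδ0 M hM lZ rZ hl hr hlong B hB
  refine ⟨T, hT, ?_⟩
  rintro ⟨⟨t, b⟩, i⟩ ⟨hm, hk⟩
  have he := (hl i).abs.eventually_lt_const (show |l i| < |l i| + 1 by linarith)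
  obtain ⟨n, ⟨u, hu, hun⟩, hln, hWn⟩ :=
    ((horig _ hm).and_eventually (he.and (hW.eventually_ge_atTop (|t| + |l i| + 2)))).exists
  refine hfault n ((u, b), i) ⟨hu, hk⟩ ?_
  have hMn : (0 : ℝ) < M n := by exact_mod_cast hM n
  rw [abs_div, abs_of_pos hMn, div_lt_iff₀ hMn] at hln
  simp only [pieceL, Int.cast_add]
  refine (abs_add_le _ _).trans ?_
  nlinarith

end Vale.Agent.P043.Rows
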