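import Vale.Agent.P043.Rows.Boxes

/-!
Helper for P043: a union of rectangles with integer heights is, up to a null set, a union of
half-open boxes in consecutive rows.
-/

namespace Vale.Agent.P043.Rows

open MeasureTheory Finset

/-- A union of rectangles with connected vertical projection gives a shape. -/
theorem exists_shape (R : Finset ((ℝ × ℝ) × (ℤ × ℤ)))
    (hR : ∀ ρ ∈ R, ρ.1.1 < ρ.1.2 ∧ ρ.2.1 < ρ.2.2) (hne : R.Nonempty) :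
    ∃ (ι : Type) (_ : Fintype ι) (j : ι → ℤ) (l r : ι → ℝ) (h : ℕ) (k₀ : ℤ), IsShape j l r h ∧
      ((Prod.snd '' rectUnion R).OrdConnected → Full j h) ∧
      boxes j l r ⊆ (fun z => z + ((0, (k₀ : ℝ)) : ℝ × ℝ)) ⁻¹' rectUnion R ∧
      MeasureTheory.volume
        (((fun z => z + ((0, (k₀ : ℝ)) : ℝ × ℝ)) ⁻¹' rectUnion R) \ boxes j l r) = 0 := by
  classical
  obtain ⟨ρ₀, hρ₀, hmin⟩ := exists_min_image R (fun ρ => ρ.2.1) hne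
  obtain ⟨ρ₁, hρ₁, hmax⟩ := exists_max_image R (fun ρ => ρ.2.2) hne
  set k₀ := ρ₀.2.1 with hk₀
  set K := ρ₁.2.2 with hK
  have hkK : k₀ < K := by
    have := hmin ρ₁ hρ₁; have := (hR ρ₁ hρ₁).2; omega
  set E := R.image (fun ρ => ρ.1.1) ∪ R.image (fun ρ => ρ.1.2) with hE
  have hEa : ∀ ρ ∈ R, ρ.1.1 ∈ E := fun ρ hρ => mem_union_left _ (mem_image.2 ⟨ρ, hρ, rfl⟩)
  have hEb : ∀ ρ ∈ R, ρ.1.2 ∈ E := fun ρ hρ => mem_union_right _ (mem_image.2 ⟨ρ, hρ, rfl⟩)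
  -- the next endpoint
  let nx : ℝ → ℝ := fun e =>
    if hn : (E.filter (e < ·)).Nonempty then (E.filter (e < ·)).min' hn else e + 1
  have hnx : ∀ e, e < nx e := fun e => by
    simp only [nx]
    split_ifs with hn
    · exact (mem_filter.1 (min'_mem _ hn)).2
    · linarith
  have hnxle : ∀ e, ∀ p ∈ E, e < p → nx e ≤ p := fun e p hp hlt => by
    have hmem : p ∈ E.filter (e < ·) := mem_filter.2 ⟨hp, hlt⟩
    simp only [nx, dif_pos (show (E.filter (e < ·)).Nonempty from ⟨p, hmem⟩)]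
    exact min'_le _ _ hmem
  have hnxmem : ∀ e, ∀ p ∈ E, e < p → nx e ∈ E := fun e p hp hlt => by
    have hn : (E.filter (e < ·)).Nonempty := ⟨p, mem_filter.2 ⟨hp, hlt⟩⟩
    simp only [nx, dif_pos hn]
    exact (mem_filter.1 (min'_mem _ hn)).1
  let cells : Finset (ℝ × ℤ) := (E ×ˢ Finset.Ico k₀ K).filter fun c =>
    ∃ ρ ∈ R, ρ.1.1 ≤ c.1 ∧ c.1 < ρ.1.2 ∧ ρ.2.1 ≤ c.2 ∧ c.2 < ρ.2.2
  have hcell : ∀ (e : ℝ) (k : ℤ), e ∈ E → ∀ ρ ∈ R, ρ.1.1 ≤ e → e < ρ.1.2 → ρ.2.1 ≤ k →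
      k < ρ.2.2 → (e, k) ∈ cells := fun e k he ρ hρ h1 h2 h3 h4 =>
    mem_filter.2 ⟨mem_product.2 ⟨he, Finset.mem_Ico.2
      ⟨(hmin ρ hρ).trans h3, lt_of_lt_of_le h4 (hmax ρ hρ)⟩⟩, ρ, hρ, h1, h2, h3, h4⟩
  refine ⟨cells, inferInstance, fun c => c.1.2 - k₀, fun c => c.1.1, fun c => nx c.1.1,
    (K - 1 - k₀).toNat, k₀, ⟨fun c => hnx _, fun c => ?_, ?_, ?_⟩, ?_, ?_, ?_⟩
  · have := Finset.mem_Ico.1 (mem_product.1 (mem_filter.1 c.2).1).2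
    constructor <;> omega
  · -- the lowest row is met
    exact ⟨⟨(ρ₀.1.1, k₀), hcell _ _ (hEa ρ₀ hρ₀) ρ₀ hρ₀ le_rfl (hR ρ₀ hρ₀).1 le_rfl
      (hR ρ₀ hρ₀).2⟩, by simp⟩
  · -- no overlaps
    rintro ⟨⟨e, k⟩, hc⟩ ⟨⟨e', k'⟩, hc'⟩ hne' hk
    simp only at hk
    have hee : e ≠ e' := fun h => hne' (by
      subst h
      have : k = k' := by omega
      subst this
      rfl)
    rcases hee.lt_or_gt with hlt | hlt
    · exact Or.inl (hnxle e e' (mem_product.1 (mem_filter.1 hc').1).1 hlt)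
    · exact Or.inr (hnxle e' e (mem_product.1 (mem_filter.1 hc).1).1 hlt)
  · -- every row is met
    intro hproj k hk0 hkh
    have hlo : ((k₀ : ℝ)) ∈ Prod.snd '' rectUnion R :=
      ⟨(ρ₀.1.1, (k₀ : ℝ)), Set.mem_biUnion hρ₀ ⟨Set.left_mem_Icc.2 (hR ρ₀ hρ₀).1.le,
        Set.left_mem_Icc.2 (by exact_mod_cast (hR ρ₀ hρ₀).2.le)⟩, rfl⟩
    have hhi : ((K : ℝ)) ∈ Prod.snd '' rectUnion R :=
      ⟨(ρ₁.1.1, (K : ℝ)), Set.mem_biUnion hρ₁ ⟨Set.left_mem_Icc.2 (hR ρ₁ hρ₁).1.le,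
        Set.right_mem_Icc.2 (by exact_mod_cast (hR ρ₁ hρ₁).2.le)⟩, rfl⟩
    have m1 : (k₀ : ℝ) ≤ ((k + k₀ : ℤ) : ℝ) := by exact_mod_cast (by omega : k₀ ≤ k + k₀)
    have m2 : ((k + k₀ + 1 : ℤ) : ℝ) ≤ (K : ℝ) := by exact_mod_cast (by omega : k + k₀ + 1 ≤ K)
    push_cast at m1 m2
    have hmid : ((k + k₀ : ℤ) : ℝ) + 1 / 2 ∈ Prod.snd '' rectUnion R :=
      hproj.out hlo hhi ⟨by push_cast; linarith, by push_cast; linarith⟩
    obtain ⟨z, hz, hzy⟩ := hmid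
    simp only [rectUnion, Set.mem_iUnion, Set.mem_prod, Set.mem_Icc] at hz
    obtain ⟨ρ, hρ, -, h1, h2⟩ := hz
    rw [hzy] at h1 h2
    have g1 : (ρ.2.1 : ℝ) < ((k + k₀ + 1 : ℤ) : ℝ) := by push_cast at h1 ⊢; linarith
    have g2 : ((k + k₀ : ℤ) : ℝ) < (ρ.2.2 : ℝ) := by push_cast at h2 ⊢; linarith
    have g1' : ρ.2.1 < k + k₀ + 1 := by exact_mod_cast g1
    have g2' : k + k₀ < ρ.2.2 := by exact_mod_cast g2
    exact ⟨⟨(ρ.1.1, k + k₀), hcell _ _ (hEa ρ hρ) ρ hρ le_rfl (hR ρ hρ).1 (by omega) g2'⟩,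
      by simp⟩
  · -- boxes are inside
    intro z hz
    obtain ⟨⟨⟨e, k⟩, hc⟩, ⟨h1, h2⟩, h3, h4⟩ := mem_boxes.1 hz
    obtain ⟨-, ρ, hρ, r1, r2, r3, r4⟩ := mem_filter.1 hc
    simp only at h1 h2 h3 h4 r1 r2 r3 r4
    have hb := hnxle e _ (hEb ρ hρ) r2
    have c1 : (ρ.2.1 : ℝ) ≤ (k : ℝ) := by exact_mod_cast r3
    have c2 : (k : ℝ) + 1 ≤ (ρ.2.2 : ℝ) := by exact_mod_cast (by omega : k + 1 ≤ ρ.2.2)
    push_cast at h3 h4
    refine Set.mem_biUnion hρ ⟨⟨?_, ?_⟩, ?_, ?_⟩ <;>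
      simp only [Prod.fst_add, Prod.snd_add] <;> linarith
  · -- the rest lies in finitely many lines
    refine measure_mono_null
      (t := ⋃ ρ ∈ R, ({z : ℝ × ℝ | z.1 = ρ.1.2} ∪ {z : ℝ × ℝ | z.2 = (ρ.2.2 : ℝ) - k₀})) ?_ ?_
    · rintro z ⟨hz, hzb⟩
      by_contra hout
      simp only [Set.mem_preimage, rectUnion, Set.mem_iUnion, Set.mem_prod, Set.mem_Icc,
        Prod.fst_add, Prod.snd_add, add_zero] at hz
      obtain ⟨ρ, hρ, ⟨h1, h2⟩, h3, h4⟩ := hz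
      simp only [Set.mem_iUnion, Set.mem_union, Set.mem_ofPred_eq, not_exists, not_or] at hout
      obtain ⟨o1, o2⟩ := hout ρ hρ
      have h2' : z.1 < ρ.1.2 := lt_of_le_of_ne h2 o1
      have h4' : z.2 + k₀ < (ρ.2.2 : ℝ) := lt_of_le_of_ne h4 fun e => o2 (by linarith)
      have hn : (E.filter (· ≤ z.1)).Nonempty := ⟨_, mem_filter.2 ⟨hEa ρ hρ, h1⟩⟩
      set e := (E.filter (· ≤ z.1)).max' hn
      obtain ⟨heE, hez⟩ := mem_filter.1 (max'_mem _ hn)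
      have hae : ρ.1.1 ≤ e := le_max' _ _ (mem_filter.2 ⟨hEa ρ hρ, h1⟩)
      have hxe : z.1 < nx e := lt_of_not_ge fun hle => absurd (le_max' (E.filter (· ≤ z.1)) _
        (mem_filter.2 ⟨hnxmem e _ (hEb ρ hρ) (lt_of_le_of_lt hez h2'), hle⟩)) (not_le.2 (hnx e))
      have k1 := Int.floor_le (z.2 + k₀)
      have k2 := Int.lt_floor_add_one (z.2 + k₀)
      refine hzb (mem_boxes.2 ⟨⟨(e, ⌊z.2 + k₀⌋), hcell _ _ heE ρ hρ hae (lt_of_le_of_lt hez h2')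
        (Int.le_floor.2 h3) (Int.floor_lt.2 h4')⟩, ⟨hez, hxe⟩, ?_, ?_⟩)
      · push_cast; linarith
      · push_cast; linarith
    · exact (measure_biUnion_null_iff R.countable_toSet).2 fun ρ _ =>
        measure_union_null (null_vline _) (null_hline _)

end Vale.Agent.P043.Rows
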