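import Mathlib
import Vale.Agent.P043.Rows.Plane
import Vale.Agent.P043.Rows.Lift
import Vale.Agent.P043.Rows.Limit
import Vale.Agent.P043.Rows.Half
import Vale.Agent.P043.Rows.Boxes
import Vale.Agent.P043.Rows.Rects

/-!
Helper for P043: unions of boxes in consecutive integer rows have periodic tilings.
-/

namespace Vale.Agent.P043.Rows

open MeasureTheory Filter Pointwise

set_option linter.unusedSectionVars false

variable {ι : Type} [Fintype ι] {j : ι → ℤ} {l r : ι → ℝ} {h : ℕ}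

theorem rowTiling_translate {lZ rZ : ι → ℤ} {A : Set (ℤ × ℤ)} (hA : RowTiling j lZ rZ A)
    (c m : ℤ) : RowTiling j lZ rZ {x | x + (c, m) ∈ A} := by
  intro k n
  obtain ⟨⟨⟨t, b⟩, i⟩, ⟨⟨ht, hj⟩, h1, h2⟩, huniq⟩ := hA (k + m) (n + c)
  simp only [pieceL, pieceR] at h1 h2 hj
  refine ⟨((t - c, b - m), i), ⟨⟨by simpa using ht, by simp only; omega⟩,
    by simp only [pieceL]; omega, by simp only [pieceR]; omega⟩, ?_⟩
  rintro ⟨⟨t', b'⟩, i'⟩ ⟨⟨ht', hj'⟩, h1', h2'⟩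
  simp only [pieceL, pieceR] at h1' h2' hj'
  have := huniq ((t' + c, b' + m), i') ⟨⟨ht', by simp only; omega⟩,
    by simp only [pieceL]; omega, by simp only [pieceR]; omega⟩
  simp only [Prod.mk.injEq] at this ⊢
  exact ⟨⟨by omega, by omega⟩, this.2⟩

/-- A row tiling gives a periodic one. -/
theorem periodic_rowTiling (hs : IsShape j l r h) (hfull : Full j h) {T₀ : Set (ℝ × ℤ)}
    (hT₀ : RowTiling j l r T₀) :
    ∃ (T : Set (ℝ × ℤ)) (P v : ℝ) (Δ : ℤ), P ≠ 0 ∧ Δ ≠ 0 ∧ RowTiling j l r T ∧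
      (∀ t b, ((t + P, b) ∈ T ↔ (t, b) ∈ T)) ∧ ∀ t b, ((t + v, b + Δ) ∈ T ↔ (t, b) ∈ T) := by
  classical
  by_cases hf : ∃ T : Set (ℝ × ℤ), RowTiling j l r T ∧ ∀ s ∈ rowSet j T 0, j s.2 = 0
  · obtain ⟨T, hT, hT0⟩ := hf
    obtain ⟨T', P, v, Δ, hP, hΔ, h1, h2, h3⟩ := periodic_of_fault hs hfull hT hT0
    exact ⟨T', P, v, Δ, hP.ne', hΔ.ne', h1, h2, h3⟩
  have hh : 1 ≤ h := by
    by_contra hh
    exact hf ⟨T₀, hT₀, fun s _ => by have := hs.range s.2; omega⟩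
  obtain ⟨δ, hδ0, hδ⟩ := hs.exists_min
  obtain ⟨D₀, hD₀, hD⟩ := hs.exists_bound
  set Dn : ℕ := ⌈D₀⌉₊ + 1 with hDn
  have hDn' : D₀ + 1 ≤ Dn := by rw [hDn]; push_cast; linarith [Nat.le_ceil D₀]
  let Nn : ℕ → ℕ := fun n => ⌈((n : ℝ) + 8 * Dn) * 2 / δ⌉₊ + 1
  choose Φ M lZ rZ hm using fun n : ℕ =>
    exists_model l r hδ0 hδ ((h + 8) * (2 * 1 + 1) * Nn n) (ε₀ := 1 / ((n : ℝ) + 1)) (by positivity)
  have hMr : ∀ n, (0 : ℝ) < M n := fun n => by exact_mod_cast (hm n).pos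
  have hlt : ∀ n i, lZ n i < rZ n i := fun n i => by
    have h1 := (hm n).long i
    have h2 : (0 : ℝ) < δ / 2 * M n := mul_pos (by linarith) (hMr n)
    have h3 : (lZ n i : ℝ) < rZ n i := by linarith
    exact_mod_cast h3
  have hsize : ∀ n i, |lZ n i| ≤ (M n * Dn : ℕ) ∧ |rZ n i| ≤ (M n * Dn : ℕ) := by
    intro n i
    have he : 1 / ((n : ℝ) + 1) ≤ 1 := by
      rw [div_le_one (by positivity)]
      linarith [Nat.cast_nonneg (α := ℝ) n]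
    have key : ∀ (z : ℤ) (x : ℝ), |(z : ℝ) / M n - x| ≤ 1 / ((n : ℝ) + 1) → |x| ≤ D₀ →
        |z| ≤ (M n * Dn : ℕ) := by
      intro z x h1 h2
      rw [abs_le] at h1 h2
      have e1 : (z : ℝ) / M n ≤ Dn := by linarith
      have e2 : -(Dn : ℝ) ≤ (z : ℝ) / M n := by linarith
      rw [div_le_iff₀ (hMr n)] at e1
      rw [le_div_iff₀ (hMr n)] at e2
      have f1 : (z : ℝ) ≤ ((M n * Dn : ℕ) : ℤ) := by push_cast; linarith
      have f2 : -(((M n * Dn : ℕ) : ℤ) : ℝ) ≤ z := by push_cast; linarith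
      rw [← Int.cast_neg] at f2
      rw [abs_le]
      exact ⟨Int.cast_le.1 f2, Int.cast_le.1 f1⟩
    exact ⟨key _ _ ((hm n).near i).1 (hD i).1, key _ _ ((hm n).near i).2 (hD i).2⟩
  have hA : ∀ n, ∃ (A : Set (ℤ × ℤ)) (P : ℤ), 0 < P ∧ RowTiling j (lZ n) (rZ n) A ∧
      ∀ x, (x + (P, 0) ∈ A ↔ x ∈ A) ∧ (x + (0, P) ∈ A ↔ x ∈ A) := by
    intro n
    have h0 := int_tiling hT₀ hδ0 hδ (Φ n) (lZ n) (rZ n) (hlt n) (hm n).left (hm n).right
    obtain ⟨A', P, hP, hA', hper⟩ := periodic_of_tilesPlane (A := _)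
      (F := cells j (lZ n) (rZ n)) (fun x => tiles_of_rowTiling h0 x)
    exact ⟨A', P, hP, rowTiling_of_tiles h0 hA', hper⟩
  choose A P hP hA hper using hA
  by_cases hlink : ∃ n, ∀ c k, ∃ s ∈ rowSet j (A n) k,
      |pieceL (lZ n) s - c| ≤ (M n * n : ℕ) ∧ j s.2 < h
  · obtain ⟨n, hn⟩ := hlink
    set L₀ : ℤ := ⌈δ / 2 * M n⌉ with hL₀
    have hL₀pos : 0 < L₀ := Int.ceil_pos.2 (mul_pos (by linarith) (hMr n))
    have hR : ((M n * n : ℕ) : ℤ) + 8 * ((M n * Dn : ℕ) : ℤ) ≤ (Nn n : ℤ) * L₀ := by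
      have h1 : δ / 2 * M n ≤ L₀ := Int.le_ceil _
      have h2 : ((n : ℝ) + 8 * Dn) * 2 / δ ≤ Nn n := by
        simp only [Nn]; push_cast
        linarith [Nat.le_ceil (((n : ℝ) + 8 * Dn) * 2 / δ)]
      rw [div_le_iff₀ hδ0] at h2
      have h3 : ((n : ℝ) + 8 * Dn) * M n ≤ (Nn n : ℝ) * (δ / 2 * M n) := by
        have := mul_le_mul_of_nonneg_right h2 (hMr n).le
        linarith
      have h4 : (Nn n : ℝ) * (δ / 2 * M n) ≤ (Nn n : ℝ) * L₀ :=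
        mul_le_mul_of_nonneg_left h1 (by positivity)
      have h5 : ((((M n * n : ℕ) : ℤ) + 8 * ((M n * Dn : ℕ) : ℤ) : ℤ) : ℝ) ≤
          (((Nn n : ℤ) * L₀ : ℤ) : ℝ) := by push_cast; linarith
      exact Int.cast_le.1 h5
    have hstep : ∀ c k, ∃ f : ℕ → ℤ, f 0 = k ∧ f 1 = k + 1 ∧
        ∀ q < 1, Step j (lZ n) (A n) (M n * n : ℕ) c (f q) (f (q + 1)) := by
      intro c k
      obtain ⟨⟨t, i⟩, ⟨ht, hti⟩, hd, hj⟩ := hn c k
      simp only at hti hj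
      obtain ⟨i', hi'⟩ := hfull (j i + 1) (by have := (hs.range i).1; omega) (by omega)
      refine ⟨fun q => k + q, by simp, by simp, fun q hq => ?_⟩
      obtain rfl : q = 0 := by omega
      exact ⟨t, ht, i, i', by simpa using hti, by simp only; push_cast; omega, hd⟩
    obtain ⟨T, C, C', hC, hT, h1, h2⟩ := lift_tiling hs hδ0 hδ (N := Nn n) (m := 1) (hm n) le_rfl
      (by simp [Nn]) (hA n) (hP n) (hper n) hL₀pos (fun i => by
        have h1 := (hm n).long i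
        have h2 : (L₀ : ℝ) < δ / 2 * M n + 1 := Int.ceil_lt_add_one _
        have h3 : ((lZ n i + L₀ : ℤ) : ℝ) < ((rZ n i + 1 : ℤ) : ℝ) := by push_cast; linarith
        have h4 : lZ n i + L₀ < rZ n i + 1 := Int.cast_lt.1 h3
        omega) (hsize n) hR (by positivity) hstep
    exact ⟨T, C, C', P n, hC, (hP n).ne', hT, h1, h2⟩
  exfalso
  push Not at hlink
  choose c k hck using hlink
  have hlim : ∀ (f : ℕ → ι → ℤ) (g : ι → ℝ),
      (∀ n i, |(f n i : ℝ) / M n - g i| ≤ 1 / ((n : ℝ) + 1)) →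
      ∀ i, Tendsto (fun n => (f n i : ℝ) / M n) atTop (nhds (g i)) := fun f g hfg i => by
    rw [tendsto_iff_norm_sub_tendsto_zero]
    exact squeeze_zero (fun n => norm_nonneg _) (fun n => hfg n i)
      tendsto_one_div_add_atTop_nhds_zero_nat
  refine hf (limit_fault hs hδ0 M (fun n => (hm n).pos) lZ rZ
    (hlim lZ l fun n i => ((hm n).near i).1) (hlim rZ r fun n i => ((hm n).near i).2)
    (fun n i => (hm n).long i) (fun n => {x | x + (c n, k n + 1) ∈ A n})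
    (fun n => rowTiling_translate (hA n) _ _) (fun n => (n : ℝ) - 2 * Dn) ?_ ?_)
  · exact tendsto_atTop_add_const_right _ _ tendsto_natCast_atTop_atTop
  · rintro n ⟨⟨t, b⟩, i⟩ ⟨hm', hj⟩ hw
    simp only at hj
    by_contra hne
    simp only at hne
    have hri := hs.range i
    obtain ⟨i', hi'⟩ := hfull (j i - 1) (by omega) (by omega)
    have hrow : ((t + c n, b + (k n + 1)), i') ∈ rowSet j (A n) (k n) :=
      ⟨hm', by simp only; omega⟩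
    simp only [pieceL] at hw
    rw [abs_le] at hw
    have a := abs_le.1 (hsize n i).1
    have a' := abs_le.1 (hsize n i').1
    have hw1 : ((t + lZ n i : ℤ) : ℝ) ≤
        ((((M n * n : ℕ) : ℤ) - 2 * ((M n * Dn : ℕ) : ℤ) : ℤ) : ℝ) := by
      have := hw.2; push_cast at this ⊢; linarith
    have hw2 : ((-(((M n * n : ℕ) : ℤ) - 2 * ((M n * Dn : ℕ) : ℤ)) : ℤ) : ℝ) ≤
        ((t + lZ n i : ℤ) : ℝ) := by
      have := hw.1; push_cast at this ⊢; linarith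
    have hw1' := Int.cast_le.1 hw1
    have hw2' := Int.cast_le.1 hw2
    have := hck n _ hrow (by simp only [pieceL]; rw [abs_le]; constructor <;> omega)
    simp only at this
    omega

theorem tilesUpToNull_shift {Ω A : Set (ℝ × ℝ)} (w : ℝ × ℝ) (hA : TilesUpToNull Ω A) :
    TilesUpToNull ((fun z => z + w) ⁻¹' Ω) ((fun a => a + w) '' A) := by
  have hset : ∀ a : ℝ × ℝ, (a + w) +ᵥ ((fun z => z + w) ⁻¹' Ω) = a +ᵥ Ω := fun a => by
    ext z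
    simp only [Set.mem_vadd_set_iff_neg_vadd_mem, vadd_eq_add, Set.mem_preimage]
    rw [show -(a + w) + z + w = -a + z by abel]
  refine ⟨hA.1.mono fun z ⟨a, ha, hz⟩ => ⟨a + w, ⟨a, ha, rfl⟩, ?_⟩, ?_⟩
  · simp only [Set.mem_preimage]
    rwa [show z - (a + w) + w = z - a by abel]
  · rintro _ ⟨a, ha, rfl⟩ _ ⟨b, hb, rfl⟩ hne
    rw [hset, hset]
    exact hA.2 a ha b hb fun e => hne (by rw [e])

theorem tilesUpToNull_linear {Ω A : Set (ℝ × ℝ)} (L : (ℝ × ℝ) ≃ₗ[ℝ] (ℝ × ℝ))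
    (hA : TilesUpToNull Ω A) : TilesUpToNull (L '' Ω) (L '' A) := by
  have hnull : ∀ S : Set (ℝ × ℝ), volume S = 0 → volume (L '' S) = 0 := fun S hS => by
    rw [show (L '' S) = (L : (ℝ × ℝ) →ₗ[ℝ] (ℝ × ℝ)) '' S from rfl,
      Measure.addHaar_image_linearMap, hS, mul_zero]
  refine ⟨ae_iff.2 (measure_mono_null (t := L '' {w | ¬ ∃ a ∈ A, w - a ∈ Ω}) (fun z hz => ⟨L.symm z, fun ⟨a, ha, ha'⟩ =>
    hz ⟨L a, ⟨a, ha, rfl⟩, ⟨L.symm z - a, ha', by simp⟩⟩, by simp⟩)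
    (hnull _ (ae_iff.1 hA.1))), ?_⟩
  rintro _ ⟨a, ha, rfl⟩ _ ⟨b, hb, rfl⟩ hne
  refine measure_mono_null ?_ (hnull _ (hA.2 a ha b hb fun e => hne (by rw [e])))
  rintro z ⟨⟨_, ⟨u, hu, rfl⟩, hz1⟩, ⟨_, ⟨u', hu', rfl⟩, hz2⟩⟩
  refine ⟨a + u, ⟨⟨u, hu, rfl⟩, ⟨u', hu', ?_⟩⟩, ?_⟩
  · apply L.injective
    simp only [vadd_eq_add, map_add] at hz1 hz2 ⊢
    rw [hz2, hz1]
  · simp only [vadd_eq_add, map_add] at hz1 ⊢
    exact hz1

/-- Exact row tilings give tilings up to null sets. -/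
theorem tilesUpToNull_of_rowTiling {Ω : Set (ℝ × ℝ)} {T : Set (ℝ × ℤ)}
    (hsub : boxes j l r ⊆ Ω) (hnull : volume (Ω \ boxes j l r) = 0)
    (hT : RowTiling j l r T) :
    TilesUpToNull Ω ((fun t : ℝ × ℤ => (t.1, (t.2 : ℝ))) '' T) := by
  have hex : ∀ z : ℝ × ℝ, ∃! t, t ∈ T ∧ z - (t.1, (t.2 : ℝ)) ∈ boxes j l r := by
    intro z
    obtain ⟨⟨⟨t, b⟩, i⟩, ⟨⟨ht, hj⟩, h1, h2⟩, huniq⟩ := hT ⌊z.2⌋ z.1
    simp only [pieceL, pieceR] at h1 h2 hj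
    have hf1 := Int.floor_le z.2
    have hf2 := Int.lt_floor_add_one z.2
    have hjr : (b : ℝ) + j i = ⌊z.2⌋ := by exact_mod_cast hj
    refine ⟨(t, b), ⟨ht, mem_boxes.2 ⟨i, ?_⟩⟩, ?_⟩
    · simp only [Prod.fst_sub, Prod.snd_sub]
      exact ⟨⟨by linarith, by linarith⟩, by linarith, by linarith⟩
    · rintro ⟨t', b'⟩ ⟨ht', hz⟩
      obtain ⟨i', ⟨e1, e2⟩, e3, e4⟩ := mem_boxes.1 hz
      simp only [Prod.fst_sub, Prod.snd_sub] at e1 e2 e3 e4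
      have hj' : b' + j i' = ⌊z.2⌋ := by
        rw [eq_comm, Int.floor_eq_iff]
        push_cast
        exact ⟨by linarith, by linarith⟩
      have := huniq ((t', b'), i') ⟨⟨ht', hj'⟩, by simp only [pieceL]; linarith,
        by simp only [pieceR]; linarith⟩
      exact congrArg Prod.fst this
  refine ⟨Eventually.of_forall fun z => ?_, ?_⟩
  · obtain ⟨t, ⟨ht, hz⟩, -⟩ := hex z
    exact ⟨_, ⟨t, ht, rfl⟩, hsub hz⟩
  · rintro _ ⟨a, ha, rfl⟩ _ ⟨b, hb, rfl⟩ hne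
    refine measure_mono_null (t := (fun z => z - (a.1, (a.2 : ℝ))) ⁻¹' (Ω \ boxes j l r) ∪
      (fun z => z - (b.1, (b.2 : ℝ))) ⁻¹' (Ω \ boxes j l r)) ?_ ?_
    · rintro z ⟨hza, hzb⟩
      rw [Set.mem_vadd_set_iff_neg_vadd_mem, vadd_eq_add, neg_add_eq_sub] at hza hzb
      by_contra hout
      exact hne (by rw [(hex z).unique ⟨ha, not_not.1 fun hh => hout (Or.inl ⟨hza, hh⟩)⟩
        ⟨hb, not_not.1 fun hh => hout (Or.inr ⟨hzb, hh⟩)⟩])
    · simp only [sub_eq_add_neg]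
      exact measure_union_null (by rw [measure_preimage_add_right]; exact hnull)
        (by rw [measure_preimage_add_right]; exact hnull)

theorem nonempty_of_tiles {R : Finset ((ℝ × ℝ) × (ℤ × ℤ))} (L : (ℝ × ℝ) ≃ₗ[ℝ] (ℝ × ℝ))
    {A : Set (ℝ × ℝ)} (hA : TilesUpToNull (L '' rectUnion R) A) : R.Nonempty := by
  rcases R.eq_empty_or_nonempty with rfl | h
  · exfalso
    have := hA.1
    simp [rectUnion, ae_iff] at this
  · exact h

/-- From row tilings of the shape to tilings of the image. -/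
theorem periodic_of_shape (L : (ℝ × ℝ) ≃ₗ[ℝ] (ℝ × ℝ)) {Ω A : Set (ℝ × ℝ)} (k₀ : ℤ)
    (hs : IsShape j l r h) (hsub : boxes j l r ⊆ (fun z => z + ((0, (k₀ : ℝ)) : ℝ × ℝ)) ⁻¹' Ω)
    (hnull : volume (((fun z => z + ((0, (k₀ : ℝ)) : ℝ × ℝ)) ⁻¹' Ω) \ boxes j l r) = 0)
    (hA : TilesUpToNull (L '' Ω) A)
    (hper : ∀ T₀ : Set (ℝ × ℤ), RowTiling j l r T₀ →
      ∃ (T : Set (ℝ × ℤ)) (P v : ℝ) (Δ : ℤ), P ≠ 0 ∧ Δ ≠ 0 ∧ RowTiling j l r T ∧
        (∀ t b, ((t + P, b) ∈ T ↔ (t, b) ∈ T)) ∧ ∀ t b, ((t + v, b + Δ) ∈ T ↔ (t, b) ∈ T)) :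
    ∃ (A' : Set (ℝ × ℝ)) (u v : ℝ × ℝ), LinearIndependent ℝ ![u, v] ∧
      TilesUpToNull (L '' Ω) A' ∧ ∀ x, (x + u ∈ A' ↔ x ∈ A') ∧ (x + v ∈ A' ↔ x ∈ A') := by
  set w : ℝ × ℝ := (0, (k₀ : ℝ))
  have hA0 : TilesUpToNull Ω (L.symm '' A) := by
    have := tilesUpToNull_linear L.symm hA
    rwa [← Set.image_comp, show ((L.symm : ℝ × ℝ → ℝ × ℝ) ∘ L) = id by ext <;> simp,
      Set.image_id] at this
  obtain ⟨T₀, hT₀⟩ := exists_rowTiling hs hsub hnull (tilesUpToNull_shift w hA0)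
  obtain ⟨T, P, v, Δ, hP, hΔ, hT, hT1, hT2⟩ := hper T₀ hT₀
  set B : Set (ℝ × ℝ) := (fun t : ℝ × ℤ => (t.1, (t.2 : ℝ))) '' T
  have h1 := tilesUpToNull_shift (-w) (tilesUpToNull_of_rowTiling hsub hnull hT)
  rw [show (fun z => z + -w) ⁻¹' ((fun z => z + w) ⁻¹' Ω) = Ω by
    ext z; simp] at h1
  have h2 := tilesUpToNull_linear L h1
  have hindep : LinearIndependent ℝ ![((P, 0) : ℝ × ℝ), ((v, (Δ : ℝ)) : ℝ × ℝ)] := by
    rw [LinearIndependent.pair_iff]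
    intro s t hst
    simp only [Prod.smul_mk, smul_eq_mul, Prod.mk_add_mk, Prod.mk_eq_zero, mul_zero, zero_add]
      at hst
    have ht : t = 0 := (mul_eq_zero.1 hst.2).resolve_right (Int.cast_ne_zero.2 hΔ)
    subst ht
    exact ⟨(mul_eq_zero.1 (by simpa using hst.1)).resolve_right hP, rfl⟩
  refine ⟨_, L (P, 0), L (v, Δ), ?_, h2, ?_⟩
  · have := hindep.map' (L : (ℝ × ℝ) →ₗ[ℝ] (ℝ × ℝ)) (LinearEquiv.ker L)
    rw [show (L : (ℝ × ℝ) →ₗ[ℝ] (ℝ × ℝ)) ∘ ![((P, 0) : ℝ × ℝ), ((v, (Δ : ℝ)) : ℝ × ℝ)] =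
      ![L (P, 0), L (v, Δ)] by ext i <;> fin_cases i <;> simp] at this
    exact this
  · have key : ∀ (u : ℝ × ℝ), (∀ y, y + u ∈ B ↔ y ∈ B) → ∀ x,
        (x + L u ∈ L '' ((fun a => a + -w) '' B) ↔ x ∈ L '' ((fun a => a + -w) '' B)) := by
      intro u hu x
      simp only [Set.mem_image, exists_exists_and_eq_and]
      constructor
      · rintro ⟨y, hy, he⟩
        refine ⟨y - u, (hu _).1 (by simpa using hy), ?_⟩
        rw [show y - u + -w = y + -w - u by abel, map_sub, he, add_sub_cancel_right]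
      · rintro ⟨y, hy, rfl⟩
        exact ⟨y + u, (hu _).2 hy, by rw [← map_add]; congr 1; abel⟩
    have hB : ∀ (p : ℝ) (d : ℤ), (∀ t b, ((t + p, b + d) ∈ T ↔ (t, b) ∈ T)) →
        ∀ y : ℝ × ℝ, y + (p, (d : ℝ)) ∈ B ↔ y ∈ B := by
      intro p d hpd y
      simp only [B, Set.mem_image]
      constructor
      · rintro ⟨⟨t, b⟩, ht, he⟩
        refine ⟨(t - p, b - d), (hpd _ _).1 (by simpa using ht), ?_⟩
        rw [show y = (y + (p, (d : ℝ))) - (p, (d : ℝ)) by simp, ← he]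
        simp
      · rintro ⟨⟨t, b⟩, ht, rfl⟩
        exact ⟨(t + p, b + d), (hpd _ _).2 ht, by simp⟩
    intro x
    refine ⟨key (P, 0) ?_ x, key (v, Δ) (hB v Δ hT2) x⟩
    simpa using hB P 0 (fun t b => by simpa using hT1 t b)

/-- Periodic tilings for images of rectangle unions with integer vertical coordinates. -/
theorem periodic_of_rectUnion (L : (ℝ × ℝ) ≃ₗ[ℝ] (ℝ × ℝ))
    (R : Finset ((ℝ × ℝ) × (ℤ × ℤ))) (hR : ∀ ρ ∈ R, ρ.1.1 < ρ.1.2 ∧ ρ.2.1 < ρ.2.2)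
    (hproj : (Prod.snd '' rectUnion R).OrdConnected) (A : Set (ℝ × ℝ))
    (hA : TilesUpToNull (L '' rectUnion R) A) :
    ∃ (A' : Set (ℝ × ℝ)) (u v : ℝ × ℝ), LinearIndependent ℝ ![u, v] ∧
      TilesUpToNull (L '' rectUnion R) A' ∧
      ∀ x, (x + u ∈ A' ↔ x ∈ A') ∧ (x + v ∈ A' ↔ x ∈ A') := by
  obtain ⟨ι, _, j, l, r, h, k₀, hs, hfull, hsub, hnull⟩ := exists_shape R hR (nonempty_of_tiles L hA)
  exact periodic_of_shape L k₀ hs hsub hnull hA fun _ hT => periodic_rowTiling hs (hfull hproj) hT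

end Vale.Agent.P043.Rows
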