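import Mathlib
import Vale.Agent.P043.Rows.Model
import Vale.Agent.P043.Rows.Plane

/-!
Helper for P043: if the row lengths vanish at no root of unity, every row of every tiling
carries base points.
-/

namespace Vale.Agent.P043.Rows

open Polynomial Filter Topology MeasureTheory

set_option linter.unusedSectionVars false

variable {ι : Type} [Fintype ι] {j : ι → ℤ} {l r : ι → ℝ} {h : ℕ} {T : Set (ℝ × ℤ)}

/-- The backward shift of sequences. -/
noncomputable def shiftOp : (ℤ → ℂ) →ₗ[ℂ] (ℤ → ℂ) := LinearMap.funLeft ℂ ℂ (fun k => k - 1)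

theorem shiftOp_apply (f : ℤ → ℂ) (k : ℤ) : shiftOp f k = f (k - 1) := rfl

theorem shiftOp_pow_apply (n : ℕ) (f : ℤ → ℂ) (k : ℤ) : (shiftOp ^ n) f k = f (k - n) := by
  induction n generalizing f k with
  | zero => simp
  | succ n ih =>
    rw [pow_succ, Module.End.mul_apply, ih, shiftOp_apply]
    push_cast
    ring_nf

/-- A bounded geometric sequence off the unit circle vanishes. -/
theorem eq_zero_of_geometric {c : ℂ} (hc : ‖c‖ ≠ 1) {g : ℤ → ℂ} {B : ℝ} (hB : ∀ k, ‖g k‖ ≤ B)
    (hg : ∀ k, g (k - 1) = c * g k) : g = 0 := by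
  funext k
  by_contra hk
  have hpos : 0 < ‖g k‖ := norm_pos_iff.2 hk
  rcases lt_or_gt_of_ne hc with hlt | hgt
  · -- forwards, the sequence grows
    have hfw : ∀ n : ℕ, g k = c ^ n * g (k + n) := by
      intro n
      induction n with
      | zero => simp
      | succ n ih =>
        rw [ih, pow_succ, mul_assoc, ← hg]
        congr 2
        push_cast
        ring
    have hlim : Tendsto (fun n : ℕ => ‖c‖ ^ n * B) atTop (𝓝 0) := by
      simpa using (tendsto_pow_atTop_nhds_zero_of_lt_one (norm_nonneg c) hlt).mul_const B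
    obtain ⟨n, hn⟩ := (hlim.eventually_lt_const hpos).exists
    rw [hfw n, norm_mul, norm_pow] at hn
    nlinarith [mul_le_mul_of_nonneg_left (hB (k + n)) (pow_nonneg (norm_nonneg c) n)]
  · -- backwards, the sequence grows
    have hbw : ∀ n : ℕ, g (k - n) = c ^ n * g k := by
      intro n
      induction n with
      | zero => simp
      | succ n ih =>
        rw [show k - ((n + 1 : ℕ) : ℤ) = k - n - 1 by push_cast; ring, hg, ih]
        ring
    obtain ⟨n, hn⟩ := pow_unbounded_of_one_lt (B / ‖g k‖) hgt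
    rw [div_lt_iff₀ hpos] at hn
    have := hB (k - n)
    rw [hbw n, norm_mul, norm_pow] at this
    linarith

/-- The kernel of a difference operator without roots on the unit circle is trivial on bounded
sequences. -/
theorem eq_zero_of_kernel {p : ℂ[X]} (hp : ∀ z : ℂ, ‖z‖ = 1 → p.eval z ≠ 0) {f : ℤ → ℂ} {B : ℝ}
    (hB : ∀ k, ‖f k‖ ≤ B) (hf : aeval shiftOp p f = 0) : f = 0 := by
  have hp0 : p ≠ 0 := fun e => hp 1 (by simp) (by simp [e])
  have key : ∀ (L : List ℂ), (∀ c ∈ L, ‖c‖ ≠ 1) → ∀ (f : ℤ → ℂ) (B : ℝ), (∀ k, ‖f k‖ ≤ B) →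
      aeval shiftOp (L.map fun c => X - C c).prod f = 0 → f = 0 := by
    intro L
    induction L with
    | nil => intro _ f B _ hf; simpa using hf
    | cons c L ih =>
      intro hL f B hB hf
      rw [List.map_cons, List.prod_cons, mul_comm, map_mul, Module.End.mul_apply] at hf
      have hg : aeval shiftOp (X - C c) f = fun k => f (k - 1) - c * f k := by
        funext k
        simp [shiftOp_apply, Module.algebraMap_end_apply]
      have h0 := ih (fun d hd => hL d (List.mem_cons_of_mem _ hd)) _ (B + ‖c‖ * B)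
        (fun k => by
          rw [hg]
          refine (norm_sub_le _ _).trans ?_
          rw [norm_mul]
          exact add_le_add (hB _) (mul_le_mul_of_nonneg_left (hB _) (norm_nonneg c))) hf
      refine eq_zero_of_geometric (hL c List.mem_cons_self) hB fun k => ?_
      have := congrFun h0 k
      rw [hg] at this
      simpa [sub_eq_zero] using this
  have hsplit : C p.leadingCoeff * (p.roots.map fun c => X - C c).prod = p :=
    C_leadingCoeff_mul_prod_multiset_X_sub_C IsAlgClosed.card_roots_eq_natDegree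
  refine key p.roots.toList (fun c hc h1 => hp c h1 ((mem_roots hp0).1 (Multiset.mem_toList.1 hc)))
    f B hB ?_
  rw [← hsplit, map_mul, Module.End.mul_apply, aeval_C, Module.algebraMap_end_apply,
    smul_eq_zero] at hf
  rcases hf with hf | hf
  · exact absurd (leadingCoeff_eq_zero.1 hf) hp0
  · rw [← Multiset.prod_coe, ← Multiset.map_coe, Multiset.coe_toList]
    exact hf

/-- A root of unity whose degree over `ℤ` is at most `h` has order dividing `(2 * h)!`. -/
theorem pow_factorial_eq_one {z : ℂ} {d : ℕ} (hd : IsPrimitiveRoot z d) (hd0 : 0 < d)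
    {P : ℤ[X]} (hP : P ≠ 0) (hdeg : P.natDegree ≤ h) (hz : aeval z P = 0) :
    z ^ (2 * h).factorial = 1 := by
  have hint : IsIntegral ℤ z := hd.isIntegral hd0
  have h1 : d.totient ≤ h := (hd.totient_le_degree_minpoly).trans
    ((natDegree_le_of_dvd (minpoly.isIntegrallyClosed_dvd hint hz) hP).trans hdeg)
  refine (hd.pow_eq_one_iff_dvd _).2 ((Nat.dvd_iff_prime_pow_dvd_dvd _ _).2 fun p k hp hpk => ?_)
  rcases Nat.eq_zero_or_pos k with rfl | hk
  · simp
  refine Nat.dvd_factorial (pow_pos hp.pos k) ?_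
  have h2 := (Nat.le_of_dvd (Nat.totient_pos.2 hd0) (Nat.totient_dvd_of_dvd hpk)).trans h1
  obtain ⟨k, rfl⟩ : ∃ k', k = k' + 1 := ⟨k - 1, by omega⟩
  rw [Nat.totient_prime_pow_succ hp] at h2
  calc p ^ (k + 1) = p ^ k * p := pow_succ _ _
    _ ≤ p ^ k * (2 * (p - 1)) := Nat.mul_le_mul_left _ (by have := hp.two_le; omega)
    _ = 2 * (p ^ k * (p - 1)) := by ring
    _ ≤ 2 * h := Nat.mul_le_mul_left _ h2

/-- No row lacks base points. -/
theorem base_nonempty (hs : IsShape j l r h) (hT : RowTiling j l r T)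
    (hzero : ∀ z : ℂ, (∃ n : ℕ, 0 < n ∧ z ^ n = 1) →
      ∑ i, ((r i - l i : ℝ) : ℂ) * z ^ (j i).toNat ≠ 0) (b₀ : ℤ) :
    ∃ t, (t, b₀) ∈ T := by
  classical
  by_contra hno
  push Not at hno
  obtain ⟨δ, hδ0, hδ⟩ := hs.exists_min
  -- a model that keeps the finitely many row sums that matter away from zero
  set Z : Finset ℂ := nthRootsFinset (2 * h).factorial (1 : ℂ) with hZdef
  have hroot : ∀ z ∈ Z, z ^ (2 * h).factorial = 1 := fun z hz =>
    (mem_nthRootsFinset (Nat.factorial_pos _) _).1 hz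
  obtain ⟨η, hη0, hη⟩ : ∃ η > 0, ∀ z ∈ Z, η ≤ ‖∑ i, ((r i - l i : ℝ) : ℂ) * z ^ (j i).toNat‖ := by
    obtain ⟨z₀, hz₀, hmin⟩ := Z.exists_min_image
      (fun z => ‖∑ i, ((r i - l i : ℝ) : ℂ) * z ^ (j i).toNat‖)
      ⟨1, (mem_nthRootsFinset (Nat.factorial_pos _) _).2 (one_pow _)⟩
    exact ⟨_, norm_pos_iff.2 (hzero z₀ ⟨_, Nat.factorial_pos _, hroot z₀ hz₀⟩), hmin⟩
  set ε := η / (4 * (Fintype.card ι + 1)) with hε
  obtain ⟨Φ, M, lZ, rZ, hm⟩ := exists_model l r hδ0 hδ 0 (ε₀ := ε) (by positivity)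
  have hMr : (0 : ℝ) < M := by exact_mod_cast hm.pos
  have hlt : ∀ i, lZ i < rZ i := fun i => by
    have h1 := hm.long i
    have h2 : (0 : ℝ) < δ / 2 * M := mul_pos (by linarith) hMr
    have h3 : (lZ i : ℝ) < rZ i := by linarith
    exact_mod_cast h3
  have hZne : ∀ z ∈ Z, ∑ i, ((rZ i - lZ i : ℤ) : ℂ) * z ^ (j i).toNat ≠ 0 := by
    intro z hz h0
    have hz1 : ‖z‖ = 1 := Complex.norm_eq_one_of_pow_eq_one (hroot z hz) (Nat.factorial_ne_zero _)
    have hb : ‖∑ i, ((r i - l i : ℝ) : ℂ) * z ^ (j i).toNat -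
        (M : ℂ)⁻¹ * ∑ i, ((rZ i - lZ i : ℤ) : ℂ) * z ^ (j i).toNat‖ ≤ ∑ _i : ι, 2 * ε := by
      rw [Finset.mul_sum, ← Finset.sum_sub_distrib]
      refine (norm_sum_le _ _).trans (Finset.sum_le_sum fun i _ => ?_)
      rw [← mul_assoc, ← sub_mul, norm_mul, norm_pow, hz1, one_pow, mul_one,
        show ((r i - l i : ℝ) : ℂ) - (M : ℂ)⁻¹ * ((rZ i - lZ i : ℤ) : ℂ) =
          (((r i - (rZ i : ℝ) / M) - (l i - (lZ i : ℝ) / M) : ℝ) : ℂ) by push_cast; ring,
        Complex.norm_real, Real.norm_eq_abs]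
      refine (abs_sub _ _).trans ?_
      rw [abs_sub_comm (r i), abs_sub_comm (l i)]
      linarith [(hm.near i).1, (hm.near i).2]
    rw [h0, mul_zero, sub_zero, Finset.sum_const, Finset.card_univ, nsmul_eq_mul] at hb
    have h2 : 4 * ε * (Fintype.card ι + 1) = η := by rw [hε]; field_simp
    nlinarith [hη z hz]
  set A : Set (ℤ × ℤ) := (fun x : ℝ × ℤ => (⌊Φ x.1⌋, x.2)) '' T with hAdef
  have hA : RowTiling j lZ rZ A := int_tiling hT hδ0 hδ Φ lZ rZ hlt hm.left hm.right
  set F := cells j lZ rZ with hF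
  have htiles : TilesPlane A F := fun x => tiles_of_rowTiling hA x
  have hempty : ∀ t : ℤ, ind A (t, b₀) = 0 := fun t => ind_of_not_mem (by
    rintro ⟨⟨u, b⟩, hu, e⟩
    simp only [Prod.mk.injEq] at e
    exact hno u (e.2 ▸ hu))
  have hcard : 0 < F.card := by
    obtain ⟨f, ⟨hf, -⟩, -⟩ := htiles 0
    exact Finset.card_pos.2 ⟨f, hf⟩
  -- the row densities
  let avg : ℤ → ℤ → ℕ → ℝ := fun s b N => (∑ t ∈ Finset.range N, ind A ((t : ℤ) - s, b)) / N
  set U : Ultrafilter ℕ := Ultrafilter.of atTop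
  have hU : (U : Filter ℕ) ≤ atTop := Ultrafilter.of_le atTop
  have hIcc : ∀ b N, avg 0 b N ∈ Set.Icc (0 : ℝ) 1 := by
    intro b N
    refine ⟨div_nonneg (Finset.sum_nonneg fun t _ => ind_nonneg A _) (Nat.cast_nonneg N), ?_⟩
    refine div_le_one_of_le₀ ?_ (Nat.cast_nonneg N)
    refine (Finset.sum_le_sum fun t _ => ind_le_one A _).trans ?_
    simp
  have hlim : ∀ b, ∃ ρ ∈ Set.Icc (0 : ℝ) 1, Tendsto (avg 0 b) U (𝓝 ρ) := fun b => by
    obtain ⟨ρ, hρ, hρ'⟩ := isCompact_Icc.ultrafilter_le_nhds (U.map (avg 0 b))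
      (le_principal_iff.2 (Ultrafilter.mem_map.2
        (show avg 0 b ⁻¹' Set.Icc (0 : ℝ) 1 ∈ (U : Filter ℕ) from
          mem_of_superset univ_mem fun N _ => hIcc b N)))
    exact ⟨ρ, hρ, hρ'⟩
  choose ρ hρI hρ using hlim
  have hshift : ∀ s b, Tendsto (avg s b) U (𝓝 (ρ b)) := by
    intro s b
    have hd : ∀ s, Tendsto (fun N => avg (s + 1) b N - avg s b N) U (𝓝 0) := fun s => by
      refine Tendsto.mono_left ?_ hU
      refine squeeze_zero_norm (a := fun N : ℕ => 1 / (N : ℝ)) (fun N => ?_)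
        (tendsto_const_div_atTop_nhds_zero_nat 1)
      simp only [avg]
      rw [← sub_div, ← Finset.sum_sub_distrib, norm_div, Real.norm_natCast]
      refine div_le_div_of_nonneg_right ?_ (Nat.cast_nonneg N)
      have e := Finset.sum_range_sub' (fun t : ℕ => ind A ((t : ℤ) - (s + 1), b)) N
      simp only [Nat.cast_add, Nat.cast_one, add_sub_add_right_eq_sub] at e
      rw [e, Real.norm_eq_abs, abs_sub_le_iff]
      constructor <;> linarith [ind_nonneg A (((0 : ℕ) : ℤ) - (s + 1), b),
        ind_le_one A (((0 : ℕ) : ℤ) - (s + 1), b), ind_nonneg A ((N : ℤ) - (s + 1), b),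
        ind_le_one A ((N : ℤ) - (s + 1), b)]
    induction s using Int.induction_on with
    | zero => exact hρ b
    | succ n ih => simpa using (hd n).add ih
    | pred n ih =>
      have := ih.sub (hd (-(n : ℤ) - 1))
      simpa using this
  have hid : ∀ (n : ℕ) k, ∑ f ∈ F, ρ (k - (1 + ((F.card + 2).factorial : ℤ) * n) * f.2) = 1 := by
    intro n k
    set a : ℤ := 1 + ((F.card + 2).factorial : ℤ) * n with ha
    refine tendsto_nhds_unique (tendsto_finsetSum _ fun f _ => hshift (a * f.1) (k - a * f.2)) ?_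
    refine Tendsto.mono_left (tendsto_nhds_of_eventually_eq ?_) hU
    filter_upwards [eventually_ge_atTop 1] with N hN
    simp only [avg]
    rw [← Finset.sum_div, Finset.sum_comm]
    have e : ∀ t : ℕ, ∑ f ∈ F, ind A ((t : ℤ) - a * f.1, k - a * f.2) = 1 := fun t => by
      have := sum_ind_dilate htiles n ((t : ℤ), k)
      rw [← ha] at this
      simpa [Prod.smul_def] using this
    simp only [e]
    have : (N : ℝ) ≠ 0 := by exact_mod_cast (by omega : N ≠ 0)
    simp [this]
  have hρb : ρ b₀ = 0 := tendsto_nhds_unique (hρ b₀) (by simp [avg, hempty])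
  -- the deviation from the uniform density
  have hf2 : ∀ f ∈ F, 0 ≤ f.2 ∧ f.2 ≤ h := by
    intro f hf
    obtain ⟨i, -, -, hi⟩ := mem_cells.1 hf
    exact hi ▸ hs.range i
  let P : ℕ → ℂ[X] := fun a => ∑ f ∈ F, X ^ (a * f.2.toNat)
  let q : ℕ → ℕ := fun n => 1 + (F.card + 2).factorial * n
  set σ : ℤ → ℂ := fun k => ((ρ k - 1 / F.card : ℝ) : ℂ) with hσ
  have hker : ∀ n, aeval shiftOp (P (q n)) σ = 0 := by
    intro n
    funext k
    simp only [P, map_sum, LinearMap.sum_apply, Finset.sum_apply, Pi.zero_apply, map_pow, aeval_X,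
      shiftOp_pow_apply, hσ]
    rw [← Complex.ofReal_sum, Finset.sum_sub_distrib]
    have e : ∑ f ∈ F, ρ (k - ((q n * f.2.toNat : ℕ) : ℤ)) = 1 := by
      rw [← hid n k]
      refine Finset.sum_congr rfl fun f hf => congrArg ρ ?_
      simp only [q]
      push_cast
      rw [Int.toNat_of_nonneg (hf2 f hf).1]
    rw [e, Finset.sum_const, nsmul_eq_mul, mul_one_div_cancel (by exact_mod_cast hcard.ne'),
      sub_self, Complex.ofReal_zero]
  let I : Ideal ℂ[X] :=
    { carrier := {p | aeval shiftOp p σ = 0}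
      zero_mem' := by simp
      add_mem' := fun {a b} ha hb => by simp_all
      smul_mem' := fun a b hb => by simp_all [Module.End.mul_apply] }
  set g := Submodule.IsPrincipal.generator I with hg
  have hdvd : ∀ n, g ∣ P (q n) := fun n =>
    (Submodule.IsPrincipal.mem_iff_generator_dvd I).1 (hker n)
  have hgker : aeval shiftOp g σ = 0 := Submodule.IsPrincipal.generator_mem I
  have hσ0 : σ = 0 := by
    refine eq_zero_of_kernel (p := g) (fun z hz hgz => ?_) (B := 2) (fun k => ?_) hgker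
    swap
    · rw [hσ, Complex.norm_real, Real.norm_eq_abs]
      have h1 : (1 : ℝ) / F.card ≤ 1 := by
        rw [div_le_one (by exact_mod_cast hcard)]; exact_mod_cast hcard
      have h2 : (0 : ℝ) ≤ 1 / F.card := by positivity
      rw [abs_le]
      constructor <;> linarith [(hρI k).1, (hρI k).2]
    have hPz : ∀ n, (P 1).eval (z ^ q n) = 0 := fun n => by
      have := (eval_dvd (x := z) (hdvd n))
      rw [hgz, zero_dvd_iff] at this
      simpa [P, eval_finsetSum, ← pow_mul] using this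
    have hP1 : P 1 ≠ 0 := fun e => by
      have := congrArg (eval 1) e
      simp [P, eval_finsetSum, hcard.ne'] at this
    obtain ⟨n, m, hnm, he⟩ := Finite.exists_ne_map_eq_of_infinite
      (fun n : ℕ => (⟨z ^ q n, Multiset.mem_toFinset.2 ((mem_roots hP1).2 (hPz n))⟩ :
        {x // x ∈ (P 1).roots.toFinset}))
    simp only [Subtype.mk.injEq] at he
    have hz0 : z ≠ 0 := fun e => by simp [e] at hz
    have hfin : IsOfFinOrder z := by
      rw [isOfFinOrder_iff_pow_eq_one]
      wlog hlt' : n < m generalizing n m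
      · exact this m n hnm.symm he.symm (by omega)
      have hq : q n < q m := by
        simp only [q]
        have := Nat.mul_lt_mul_of_pos_left hlt' (Nat.factorial_pos (F.card + 2))
        omega
      refine ⟨q m - q n, by omega, ?_⟩
      rw [pow_sub₀ z hz0 hq.le, ← he, mul_inv_cancel₀ (pow_ne_zero _ hz0)]
    have h1 : (P 1).eval z = 0 := by simpa [q] using hPz 0
    have hpow : z ^ (2 * h).factorial = 1 := by
      refine pow_factorial_eq_one (IsPrimitiveRoot.orderOf z) hfin.orderOf_pos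
        (P := ∑ f ∈ F, X ^ f.2.toNat) ?_ ?_ ?_
      · intro e
        have := congrArg (eval 1) e
        simp [eval_finsetSum, hcard.ne'] at this
      · exact natDegree_sum_le_of_forall_le _ _ fun f hf => by
          rw [natDegree_X_pow]
          have := hf2 f hf
          omega
      · simpa [P, eval_finsetSum] using h1
    refine hZne z ((mem_nthRootsFinset (Nat.factorial_pos _) _).2 hpow) ?_
    rw [← h1]
    simp only [P, one_mul, eval_finsetSum, eval_pow, eval_X]
    rw [hF, cells, Finset.sum_biUnion]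
    · refine Finset.sum_congr rfl fun i _ => ?_
      rw [Finset.sum_image fun a _ b _ e => by simpa using e]
      simp only [Finset.sum_const, Int.card_Ico, nsmul_eq_mul]
      rw [← Int.cast_natCast (R := ℂ), Int.toNat_of_nonneg (by have := hlt i; omega)]
    · intro i _ i' _ hne
      rw [Function.onFun, Finset.disjoint_left]
      intro x hx hy
      simp only [Finset.mem_image, Finset.mem_Ico] at hx hy
      obtain ⟨u, ⟨u1, u2⟩, rfl⟩ := hx
      obtain ⟨v, ⟨v1, v2⟩, e⟩ := hy
      simp only [Prod.mk.injEq] at e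
      obtain ⟨rfl, e2⟩ := e
      obtain ⟨⟨⟨t, b⟩, i₁⟩, ⟨⟨hmem, -⟩, -⟩, -⟩ := hA 0 0
      have := (hA (b + j i)).eq_of_mem (s := ((t, b), i)) (t := ((t, b), i')) (x := t + v)
        ⟨hmem, rfl⟩ ⟨hmem, by simp only; omega⟩ (by simp only [pieceL]; omega)
        (by simp only [pieceR]; omega) (by simp only [pieceL]; omega)
        (by simp only [pieceR]; omega)
      exact hne (congrArg Prod.snd this)
  have := congrFun hσ0 b₀
  simp [hσ, hρb, hcard.ne'] at this

end Vale.Agent.P043.Rows
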