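import Mathlib
import Vale.Agent.P043.Rows.Main
import Vale.Agent.P043.Rows.Density

/-!
Helper for P043: tiles in integer rows, gaps allowed, whose row lengths vanish at no root of
unity, have periodic tilings.
-/

namespace Vale.Agent.P043.Rows

open Filter Topology MeasureTheory

set_option linter.unusedSectionVars false

variable {ι : Type} [Fintype ι] {j : ι → ℤ} {l r : ι → ℝ} {h : ℕ}

/-- Walks by row differences reach every multiple of their greatest common divisor. -/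
theorem exists_walk :
    ∀ x ∈ AddSubgroup.closure (Set.range fun q : ι × ι => j q.2 - j q.1),
      ∃ L : List (ι × ι), (L.map fun q => j q.2 - j q.1).sum = x := by
  intro x hx
  induction hx using AddSubgroup.closure_induction with
  | mem x hx => obtain ⟨q, rfl⟩ := hx; exact ⟨[q], by simp⟩
  | zero => exact ⟨[], rfl⟩
  | add x y _ _ hx hy =>
    obtain ⟨a, rfl⟩ := hx
    obtain ⟨b, rfl⟩ := hy
    exact ⟨a ++ b, by simp⟩
  | neg x _ hx =>
    obtain ⟨a, rfl⟩ := hx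
    refine ⟨a.map Prod.swap, ?_⟩
    rw [List.map_map]
    clear * - a
    induction a with
    | nil => simp
    | cons q a ih => simp at ih ⊢; omega

/-- Rows generating all integers: the base points are everywhere, so the lift applies. -/
theorem periodic_of_generated (hs : IsShape j l r h)
    (hgen : (1 : ℤ) ∈ AddSubgroup.closure (Set.range fun q : ι × ι => j q.2 - j q.1))
    (hzero : ∀ z : ℂ, (∃ n : ℕ, 0 < n ∧ z ^ n = 1) →
      ∑ i, ((r i - l i : ℝ) : ℂ) * z ^ (j i).toNat ≠ 0)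
    {T₀ : Set (ℝ × ℤ)} (hT₀ : RowTiling j l r T₀) :
    ∃ (T : Set (ℝ × ℤ)) (P v : ℝ) (Δ : ℤ), P ≠ 0 ∧ Δ ≠ 0 ∧ RowTiling j l r T ∧
      (∀ t b, ((t + P, b) ∈ T ↔ (t, b) ∈ T)) ∧ ∀ t b, ((t + v, b + Δ) ∈ T ↔ (t, b) ∈ T) := by
  classical
  obtain ⟨L, hL⟩ := exists_walk 1 hgen
  set m := L.length with hm0
  obtain ⟨δ, hδ0, hδ⟩ := hs.exists_min
  obtain ⟨D₀, hD₀, hD⟩ := hs.exists_bound
  set Dn : ℕ := ⌈D₀⌉₊ + 1 with hDn
  have hDn' : D₀ + 1 ≤ Dn := by rw [hDn]; push_cast; linarith [Nat.le_ceil D₀]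
  let Nn : ℕ → ℕ := fun n => ⌈((n : ℝ) + 9 * Dn) * 2 / δ⌉₊ + 1
  choose Φ M lZ rZ hm using fun n : ℕ =>
    exists_model l r hδ0 hδ ((h + 8) * (2 * m + 1) * Nn n) (ε₀ := 1 / ((n : ℝ) + 1)) (by positivity)
  have hMr : ∀ n, (0 : ℝ) < M n := fun n => by exact_mod_cast (hm n).pos
  have hlt : ∀ n i, lZ n i < rZ n i := fun n i => by
    have h1 := (hm n).long i
    have h2 : (0 : ℝ) < δ / 2 * M n := mul_pos (by linarith) (hMr n)
    have h3 : (lZ n i : ℝ) < rZ n i := by linarith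
    exact_mod_cast h3
  have hsize : ∀ n i, |lZ n i| ≤ (M n * Dn : ℕ) ∧ |rZ n i| ≤ (M n * Dn : ℕ) := by
    intro n i
    have he : 1 / ((n : ℝ) + 1) ≤ 1 := by
      rw [div_le_one (by positivity)]
      linarith [Nat.cast_nonneg (α := ℝ) n]
    have key : ∀ (z : ℤ) (x : ℝ), |(z : ℝ) / M n - x| ≤ 1 / ((n : ℝ) + 1) → |x| ≤ D₀ →
        |z| ≤ (M n * Dn : ℕ) := by
      intro z x h1 h2
      rw [abs_le] at h1 h2
      have e1 : (z : ℝ) / M n ≤ Dn := by linarith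
      have e2 : -(Dn : ℝ) ≤ (z : ℝ) / M n := by linarith
      rw [div_le_iff₀ (hMr n)] at e1
      rw [le_div_iff₀ (hMr n)] at e2
      have f1 : (z : ℝ) ≤ ((M n * Dn : ℕ) : ℤ) := by push_cast; linarith
      have f2 : -(((M n * Dn : ℕ) : ℤ) : ℝ) ≤ z := by push_cast; linarith
      rw [← Int.cast_neg] at f2
      rw [abs_le]
      exact ⟨Int.cast_le.1 f2, Int.cast_le.1 f1⟩
    exact ⟨key _ _ ((hm n).near i).1 (hD i).1, key _ _ ((hm n).near i).2 (hD i).2⟩
  have hA : ∀ n, ∃ (A : Set (ℤ × ℤ)) (P : ℤ), 0 < P ∧ RowTiling j (lZ n) (rZ n) A ∧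
      ∀ x, (x + (P, 0) ∈ A ↔ x ∈ A) ∧ (x + (0, P) ∈ A ↔ x ∈ A) := by
    intro n
    have h0 := int_tiling hT₀ hδ0 hδ (Φ n) (lZ n) (rZ n) (hlt n) (hm n).left (hm n).right
    obtain ⟨A', P, hP, hA', hper⟩ := periodic_of_tilesPlane (A := _)
      (F := cells j (lZ n) (rZ n)) (fun x => tiles_of_rowTiling h0 x)
    exact ⟨A', P, hP, rowTiling_of_tiles h0 hA', hper⟩
  choose A P hP hA hper using hA
  by_cases hlink : ∃ n, ∀ c k, ∃ t, (t, k) ∈ A n ∧ |t - c| ≤ (M n * n : ℕ)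
  · obtain ⟨n, hn⟩ := hlink
    set L₀ : ℤ := ⌈δ / 2 * M n⌉ with hL₀
    have hL₀pos : 0 < L₀ := Int.ceil_pos.2 (mul_pos (by linarith) (hMr n))
    have hR : ((M n * n : ℕ) : ℤ) + ((M n * Dn : ℕ) : ℤ) + 8 * ((M n * Dn : ℕ) : ℤ) ≤
        (Nn n : ℤ) * L₀ := by
      have h1 : δ / 2 * M n ≤ L₀ := Int.le_ceil _
      have h2 : ((n : ℝ) + 9 * Dn) * 2 / δ ≤ Nn n := by
        simp only [Nn]; push_cast
        linarith [Nat.le_ceil (((n : ℝ) + 9 * Dn) * 2 / δ)]
      rw [div_le_iff₀ hδ0] at h2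
      have h3 : ((n : ℝ) + 9 * Dn) * M n ≤ (Nn n : ℝ) * (δ / 2 * M n) := by
        have := mul_le_mul_of_nonneg_right h2 (hMr n).le
        linarith
      have h4 : (Nn n : ℝ) * (δ / 2 * M n) ≤ (Nn n : ℝ) * L₀ :=
        mul_le_mul_of_nonneg_left h1 (by positivity)
      have h5 : (((((M n * n : ℕ) : ℤ) + ((M n * Dn : ℕ) : ℤ) + 8 * ((M n * Dn : ℕ) : ℤ)) : ℤ) : ℝ) ≤
          (((Nn n : ℤ) * L₀ : ℤ) : ℝ) := by push_cast; linarith
      exact Int.cast_le.1 h5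
    have hstep : ∀ c k, ∃ f : ℕ → ℤ, f 0 = k ∧ f m = k + 1 ∧ ∀ q < m,
        Step j (lZ n) (A n) (((M n * n : ℕ) : ℤ) + (M n * Dn : ℕ)) c (f q) (f (q + 1)) := by
      intro c k
      let d : ι × ι → ℤ := fun q => j q.2 - j q.1
      refine ⟨fun q => k + ((L.map d).take q).sum, by simp, ?_, fun q hq => ?_⟩
      · simp only [d]
        rw [List.take_of_length_le (by simp [hm0]), hL]
      obtain ⟨t, ht, htc⟩ := hn c (k + ((L.map d).take q).sum - j (L[q]'hq).1)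
      refine ⟨(t, _), ht, (L[q]'hq).1, (L[q]'hq).2, by ring, ?_, ?_⟩
      · simp only
        rw [List.sum_take_succ (L.map d) q (by simpa using hq), List.getElem_map]
        simp only [d]
        ring
      · have := abs_le.1 (hsize n (L[q]'hq).1).1
        have := abs_le.1 htc
        simp only
        rw [abs_le]; constructor <;> omega
    obtain ⟨T, C, C', hC, hT, h1, h2⟩ := lift_tiling hs hδ0 hδ (N := Nn n) (m := m) (hm n) le_rfl
      (by simp [Nn]) (hA n) (hP n) (hper n) hL₀pos (fun i => by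
        have h1 := (hm n).long i
        have h2 : (L₀ : ℝ) < δ / 2 * M n + 1 := Int.ceil_lt_add_one _
        have h3 : ((lZ n i + L₀ : ℤ) : ℝ) < ((rZ n i + 1 : ℤ) : ℝ) := by push_cast; linarith
        have h4 : lZ n i + L₀ < rZ n i + 1 := Int.cast_lt.1 h3
        omega) (hsize n) hR (by positivity) hstep
    exact ⟨T, C, C', P n, hC, (hP n).ne', hT, h1, h2⟩
  exfalso
  push Not at hlink
  choose c k hck using hlink
  have hlim : ∀ (f : ℕ → ι → ℤ) (g : ι → ℝ),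
      (∀ n i, |(f n i : ℝ) / M n - g i| ≤ 1 / ((n : ℝ) + 1)) →
      ∀ i, Tendsto (fun n => (f n i : ℝ) / M n) atTop (nhds (g i)) := fun f g hfg i => by
    rw [tendsto_iff_norm_sub_tendsto_zero]
    exact squeeze_zero (fun n => norm_nonneg _) (fun n => hfg n i)
      tendsto_one_div_add_atTop_nhds_zero_nat
  obtain ⟨T, hT, horig⟩ := limit_tiling hs hδ0 M (fun n => (hm n).pos) lZ rZ
    (hlim lZ l fun n i => ((hm n).near i).1) (hlim rZ r fun n i => ((hm n).near i).2)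
    (fun n i => (hm n).long i) (fun n => {x | x + (c n, k n) ∈ A n})
    (fun n => rowTiling_translate (hA n) _ _)
  obtain ⟨t, ht⟩ := base_nonempty hs hT hzero 0
  obtain ⟨n, ⟨u, hu, hun⟩, hn⟩ :=
    ((horig _ ht).and_eventually (eventually_ge_atTop (⌈|t| + 1⌉₊ + 1))).exists
  simp only [Set.mem_ofPred_eq, Prod.mk_add_mk, zero_add] at hu
  have hfar := hck n (u + c n) hu
  rw [add_sub_cancel_right] at hfar
  have hn' : |t| + 1 ≤ (n : ℝ) := by
    have h1 : ((⌈|t| + 1⌉₊ + 1 : ℕ) : ℝ) ≤ n := by exact_mod_cast hn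
    push_cast at h1
    linarith [Nat.le_ceil (|t| + 1)]
  have h1 : (((M n * n : ℕ) : ℤ) : ℝ) < |(u : ℝ)| := by exact_mod_cast hfar
  have h2 := mul_le_mul_of_nonneg_right hn' (hMr n).le
  simp only at hun
  push_cast at h1
  linarith

/-- Row tilings are periodic when the row lengths vanish at no root of unity. -/
theorem periodic_of_noZero (hs : IsShape j l r h)
    (hzero : ∀ z : ℂ, (∃ n : ℕ, 0 < n ∧ z ^ n = 1) →
      ∑ i, ((r i - l i : ℝ) : ℂ) * z ^ (j i).toNat ≠ 0)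
    {T₀ : Set (ℝ × ℤ)} (hT₀ : RowTiling j l r T₀) :
    ∃ (T : Set (ℝ × ℤ)) (P v : ℝ) (Δ : ℤ), P ≠ 0 ∧ Δ ≠ 0 ∧ RowTiling j l r T ∧
      (∀ t b, ((t + P, b) ∈ T ↔ (t, b) ∈ T)) ∧ ∀ t b, ((t + v, b + Δ) ∈ T ↔ (t, b) ∈ T) := by
  classical
  obtain ⟨i₀, hi₀⟩ := hs.zero
  by_cases hall : ∀ i, j i = 0
  · refine periodic_rowTiling (h := 0) ⟨hs.lt, fun i => by simp [hall i], hs.zero, hs.disjoint⟩
      (fun k h1 h2 => ⟨i₀, by omega⟩) hT₀
  set G := AddSubgroup.closure (Set.range fun q : ι × ι => j q.2 - j q.1) with hG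
  obtain ⟨g, hg⟩ := Int.subgroup_cyclic G
  rw [← AddSubgroup.zmultiples_eq_closure] at hg
  have hdvd : ∀ i, (g.natAbs : ℤ) ∣ j i := fun i => by
    have : j i ∈ G := AddSubgroup.subset_closure ⟨(i₀, i), by simp [hi₀]⟩
    rw [hg, Int.mem_zmultiples_iff] at this
    simpa using this
  have hg0 : (0 : ℤ) < g.natAbs := by
    rcases Nat.eq_zero_or_pos g.natAbs with e | e
    · exact absurd (fun i => by have := hdvd i; rw [e] at this; simpa using this) hall
    · exact_mod_cast e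
  set d : ℤ := (g.natAbs : ℤ) with hd
  choose j' hj' using hdvd
  have hs' : IsShape j' l r h := by
    refine ⟨hs.lt, fun i => ?_, ⟨i₀, ?_⟩, fun i i' hne e => hs.disjoint i i' hne (by rw [hj', hj', e])⟩
    · have := hs.range i
      have := hj' i
      constructor <;> nlinarith
    · have := hj' i₀
      rw [hi₀] at this
      exact (mul_eq_zero.1 this.symm).resolve_left hg0.ne'
  have hgen : (1 : ℤ) ∈ AddSubgroup.closure (Set.range fun q : ι × ι => j' q.2 - j' q.1) := by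
    have key : G ≤ (AddSubgroup.closure (Set.range fun q : ι × ι => j' q.2 - j' q.1)).map
        (AddMonoidHom.mulLeft d) := by
      rw [hG, AddSubgroup.closure_le]
      rintro x ⟨q, rfl⟩
      exact ⟨j' q.2 - j' q.1, AddSubgroup.subset_closure ⟨q, rfl⟩, by
        simp [mul_sub, ← hj']⟩
    obtain ⟨y, hy, hy'⟩ := key (show d ∈ G by
      rw [hg, Int.mem_zmultiples_iff, hd]; simp)
    simp only [AddMonoidHom.coe_mulLeft] at hy'
    obtain rfl : y = 1 := by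
      have : d * y = d * 1 := by rw [hy', mul_one]
      exact mul_left_cancel₀ hg0.ne' this
    exact hy
  have hzero' : ∀ z : ℂ, (∃ n : ℕ, 0 < n ∧ z ^ n = 1) →
      ∑ i, ((r i - l i : ℝ) : ℂ) * z ^ (j' i).toNat ≠ 0 := by
    intro z hz
    obtain ⟨w, rfl⟩ := IsAlgClosed.exists_pow_nat_eq z (n := g.natAbs) (by omega)
    obtain ⟨n, hn, hn1⟩ := hz
    have hw : ∃ n : ℕ, 0 < n ∧ w ^ n = 1 :=
      ⟨g.natAbs * n, Nat.mul_pos (by omega) hn, by rw [pow_mul, hn1]⟩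
    convert hzero w hw using 1
    refine Finset.sum_congr rfl fun i _ => ?_
    rw [← pow_mul, hj' i, hd, Int.toNat_mul (by positivity) (hs'.range i).1, Int.toNat_natCast]
  have hT' : RowTiling j' l r {x | (x.1, d * x.2) ∈ T₀} := by
    intro k
    have hrow := hT₀ (d * k)
    refine hrow.image (fun s => ((s.1.1, k - j' s.2), s.2)) ?_ ?_ (fun _ _ => rfl) (fun _ _ => rfl)
    · rintro ⟨⟨t, b⟩, i⟩ ⟨hm, hk⟩
      refine ⟨?_, by simp⟩
      simp only [Set.mem_ofPred_eq] at hk ⊢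
      rwa [mul_sub, ← hj' i, show d * k - j i = b by omega]
    · rintro ⟨⟨t, b⟩, i⟩ ⟨hm, hk⟩
      simp only at hk
      refine ⟨((t, d * b), i), ⟨hm, by simp only; rw [hj' i, ← mul_add, hk]⟩, ?_⟩
      simp only [Prod.mk.injEq, true_and, and_true]
      omega
  obtain ⟨T, P, v, Δ, hP, hΔ, hT, h1, h2⟩ := periodic_of_generated hs' hgen hzero' hT'
  refine ⟨{x | (x.1, x.2 / d) ∈ T}, P, v, d * Δ, hP, mul_ne_zero hg0.ne' hΔ, fun k => ?_,
    fun t b => h1 t _, fun t b => ?_⟩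
  · have hq := Int.emod_add_ediv_mul k d
    refine (hT (k / d)).image (fun s => ((s.1.1, k - j s.2), s.2)) ?_ ?_ (fun _ _ => rfl) (fun _ _ => rfl)
    · rintro ⟨⟨t, b⟩, i⟩ ⟨hm, hk⟩
      refine ⟨?_, by simp⟩
      simp only [Set.mem_ofPred_eq] at hk ⊢
      rwa [hj' i, show k - d * j' i = k % d + d * b by rw [← hk] at hq; linarith,
        Int.add_mul_ediv_left _ _ hg0.ne', Int.ediv_eq_zero_of_lt (Int.emod_nonneg _ hg0.ne')
        (Int.emod_lt_of_pos _ hg0), zero_add]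
    · rintro ⟨⟨t, b⟩, i⟩ ⟨hm, hk⟩
      simp only at hk
      refine ⟨((t, b / d), i), ⟨hm, ?_⟩, ?_⟩
      · simp only
        rw [← hk, hj' i, Int.add_mul_ediv_left _ _ hg0.ne']
      · simp only [Prod.mk.injEq, true_and, and_true]
        omega
  · change (t + v, (b + d * Δ) / d) ∈ T ↔ (t, b / d) ∈ T
    rw [Int.add_mul_ediv_left _ _ hg0.ne']
    exact h2 t _

/-- Periodic tilings for rectangle unions in integer rows, gaps allowed, when the row sums vanish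
at no root of unity. -/
theorem periodic_of_noZeroUnion (L : (ℝ × ℝ) ≃ₗ[ℝ] (ℝ × ℝ))
    (R : Finset ((ℝ × ℝ) × (ℤ × ℤ))) (hR : ∀ ρ ∈ R, ρ.1.1 < ρ.1.2 ∧ ρ.2.1 < ρ.2.2)
    (hzero : ∀ z : ℂ, (∃ n : ℕ, 0 < n ∧ z ^ n = 1) →
      (∫ p in rectUnion R, z ^ ⌊p.2⌋) ≠ 0) (A : Set (ℝ × ℝ))
    (hA : TilesUpToNull (L '' rectUnion R) A) :
    ∃ (A' : Set (ℝ × ℝ)) (u v : ℝ × ℝ), LinearIndependent ℝ ![u, v] ∧
      TilesUpToNull (L '' rectUnion R) A' ∧
      ∀ x, (x + u ∈ A' ↔ x ∈ A') ∧ (x + v ∈ A' ↔ x ∈ A') := by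
  classical
  obtain ⟨ι, _, j, l, r, h, k₀, hs, -, hsub, hnull⟩ := exists_shape R hR (nonempty_of_tiles L hA)
  refine periodic_of_shape L k₀ hs hsub hnull hA fun _ hT => periodic_of_noZero hs ?_ hT
  intro z hz h0
  apply hzero z hz
  have hz0 : z ≠ 0 := by
    obtain ⟨n, hn, hn1⟩ := hz
    intro e
    simp [e, hn.ne'] at hn1
  set w : ℝ × ℝ := (0, (k₀ : ℝ)) with hw
  have hpre : MeasurePreserving (fun p : ℝ × ℝ => p + w) volume volume :=
    measurePreserving_add_right volume w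
  rw [← hpre.setIntegral_preimage_emb (MeasurableEquiv.addRight w).measurableEmbedding]
  have hae : ((fun p : ℝ × ℝ => p + w) ⁻¹' rectUnion R) =ᵐ[volume] boxes j l r := by
    refine ae_eq_set.2 ⟨hnull, ?_⟩
    rw [Set.sdiff_eq_empty.2 hsub]
    simp
  rw [setIntegral_congr_set hae]
  have hbox : ∀ i, MeasurableSet (Set.Ico (l i) (r i) ×ˢ Set.Ico (j i : ℝ) (j i + 1)) :=
    fun i => measurableSet_Ico.prod measurableSet_Ico
  have hval : ∀ i, Set.EqOn (fun p : ℝ × ℝ => z ^ ⌊(p + w).2⌋) (fun _ => z ^ (j i + k₀))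
      (Set.Ico (l i) (r i) ×ˢ Set.Ico (j i : ℝ) (j i + 1)) := by
    rintro i p ⟨-, h1, h2⟩
    simp only [hw, Prod.snd_add]
    rw [Int.floor_add_intCast, Int.floor_eq_iff.2 ⟨h1, h2⟩]
  have hfin : ∀ i, volume (Set.Ico (l i) (r i) ×ˢ Set.Ico (j i : ℝ) (j i + 1)) =
      ENNReal.ofReal (r i - l i) := fun i => by
    rw [MeasureTheory.Measure.volume_eq_prod, MeasureTheory.Measure.prod_prod, Real.volume_Ico,
      Real.volume_Ico, add_sub_cancel_left, ENNReal.ofReal_one, mul_one]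
  rw [boxes, integral_iUnion_fintype hbox ?_ fun i =>
    (integrableOn_congr_fun (hval i) (hbox i)).2 (integrableOn_const (by rw [hfin]; simp))]
  · rw [← mul_zero (z ^ k₀), ← h0, Finset.mul_sum]
    refine Finset.sum_congr rfl fun i _ => ?_
    rw [setIntegral_congr_fun (hbox i) (hval i), setIntegral_const, measureReal_def, hfin,
      ENNReal.toReal_ofReal (by linarith [hs.lt i]), zpow_add₀ hz0,
      show z ^ (j i).toNat = z ^ j i by
        rw [← zpow_natCast, Int.toNat_of_nonneg (hs.range i).1], Complex.real_smul]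
    ring
  · intro i i' hne
    rw [Function.onFun, Set.disjoint_left]
    rintro p ⟨⟨a1, a2⟩, a3, a4⟩ ⟨⟨b1, b2⟩, b3, b4⟩
    have e : j i = j i' := by
      rw [← Int.floor_eq_iff.2 ⟨a3, a4⟩, ← Int.floor_eq_iff.2 ⟨b3, b4⟩]
    rcases hs.disjoint i i' hne e with hd | hd <;> linarith

end Vale.Agent.P043.Rows
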