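import Mathlib

/-!
Helper for P043: integer vectors in the plane, invariance, and products of difference operators.
-/

namespace Vale.Agent.P043.Rows

open Finset

/-- The determinant of two plane vectors. -/
def pdet (v w : ℤ × ℤ) : ℤ := v.1 * w.2 - v.2 * w.1

theorem cramer (v w u : ℤ × ℤ) : pdet v w • u = pdet u w • v + pdet v u • w := by
  ext <;> simp [pdet] <;> ring

theorem pdet_smul_left (c : ℤ) (v w : ℤ × ℤ) : pdet (c • v) w = c * pdet v w := by
  simp [pdet]; ring

theorem pdet_smul_right (c : ℤ) (v w : ℤ × ℤ) : pdet v (c • w) = c * pdet v w := by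
  simp [pdet]; ring

theorem pdet_swap (v w : ℤ × ℤ) : pdet w v = -pdet v w := by simp [pdet]; ring

theorem pdet_self (v : ℤ × ℤ) : pdet v v = 0 := by simp [pdet]; ring

theorem pdet_add_right (v w w' : ℤ × ℤ) : pdet v (w + w') = pdet v w + pdet v w' := by
  simp [pdet]; ring

theorem pdet_sub_right (v w w' : ℤ × ℤ) : pdet v (w - w') = pdet v w - pdet v w' := by
  simp [pdet]; ring

/-- A nonzero coordinate of a nonzero vector. -/
def kap (w : ℤ × ℤ) : ℤ := if w.1 ≠ 0 then w.1 else w.2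

/-- The same coordinate of another vector. -/
def kapOf (w v : ℤ × ℤ) : ℤ := if w.1 ≠ 0 then v.1 else v.2

theorem kap_ne {w : ℤ × ℤ} (hw : w ≠ 0) : kap w ≠ 0 := by
  unfold kap
  split_ifs with h
  · exact h
  · intro h2
    exact hw (Prod.ext (by simpa using h) h2)

/-- A vector parallel to `w` becomes an integer multiple of `w`. -/
theorem kap_smul {w v : ℤ × ℤ} (hw : w ≠ 0) (h : pdet w v = 0) : kap w • v = kapOf w v • w := by
  unfold kap kapOf pdet at *
  split_ifs with h1
  · ext <;> simp <;> linarith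
  · simp only [not_not] at h1
    have h2 : w.2 ≠ 0 := fun h2 => hw (Prod.ext h1 h2)
    have hv : v.1 = 0 := by
      rw [h1, zero_mul, zero_sub, neg_eq_zero] at h
      exact (mul_eq_zero.1 h).resolve_left h2
    ext <;> simp [h1, hv]; ring

/-- `w` is a period of `f`. -/
def Inv {β : Type*} (w : ℤ × ℤ) (f : ℤ × ℤ → β) : Prop := ∀ x, f (x + w) = f x

theorem Inv.zsmul {β : Type*} {w : ℤ × ℤ} {f : ℤ × ℤ → β} (h : Inv w f) (k : ℤ) :
    Inv (k • w) f := by
  induction k using Int.induction_on with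
  | zero => intro x; simp
  | succ n ih => intro x; rw [add_smul, one_smul, ← add_assoc, h, ih]
  | pred n ih =>
    intro x
    rw [sub_smul, one_smul, ← h (x + ((-(n : ℤ)) • w - w)), add_assoc, sub_add_cancel, ih]

theorem Inv.add {β : Type*} {v w : ℤ × ℤ} {f : ℤ × ℤ → β} (hv : Inv v f) (hw : Inv w f) :
    Inv (v + w) f := fun x => by rw [← add_assoc, hw, hv]

/-- Two periods give the periods in `pdet v w • ℤ²`. -/
theorem Inv.det_smul {β : Type*} {v w : ℤ × ℤ} {f : ℤ × ℤ → β} (hv : Inv v f) (hw : Inv w f)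
    (u : ℤ × ℤ) : Inv (pdet v w • u) f := by
  rw [cramer]
  exact (hv.zsmul _).add (hw.zsmul _)

/-- The product of the difference operators of the list. -/
def Dl : List (ℤ × ℤ) → (ℤ × ℤ → ℝ) → ℤ × ℤ → ℝ
  | [], f => f
  | h :: l, f => fun x => Dl l f (x + h) - Dl l f x

theorem Dl_add (l : List (ℤ × ℤ)) (f g : ℤ × ℤ → ℝ) : ∀ x, Dl l (f + g) x = Dl l f x + Dl l g x := by
  induction l with
  | nil => intro x; rfl
  | cons h l ih => intro x; simp only [Dl, ih]; ring

theorem Dl_sum {ι : Type*} (s : Finset ι) (l : List (ℤ × ℤ)) (f : ι → ℤ × ℤ → ℝ) :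
    ∀ x, Dl l (fun y => ∑ i ∈ s, f i y) x = ∑ i ∈ s, Dl l (f i) x := by
  induction l with
  | nil => intro x; rfl
  | cons h l ih => intro x; simp only [Dl, ih, sum_sub_distrib]

theorem Dl_inv (l : List (ℤ × ℤ)) {w : ℤ × ℤ} {f : ℤ × ℤ → ℝ} (hf : Inv w f) : Inv w (Dl l f) := by
  induction l with
  | nil => exact hf
  | cons h l ih => intro x; simp only [Dl]; rw [add_right_comm, ih, ih]

theorem Dl_eq_zero {l : List (ℤ × ℤ)} {h : ℤ × ℤ} {f : ℤ × ℤ → ℝ} (hh : h ∈ l) (hf : Inv h f) :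
    ∀ x, Dl l f x = 0 := by
  induction l with
  | nil => simp at hh
  | cons k l ih =>
    intro x
    simp only [Dl]
    rcases List.mem_cons.1 hh with rfl | hh
    · rw [Dl_inv l hf x, sub_self]
    · rw [ih hh, ih hh, sub_self]

theorem Dl_const (l : List (ℤ × ℤ)) (c : ℝ) (hl : l ≠ []) : ∀ x, Dl l (fun _ => c) x = 0 := by
  obtain ⟨h, hh⟩ := List.exists_mem_of_ne_nil l hl
  exact Dl_eq_zero hh fun _ => rfl

/-- Integer values give integer values. -/
theorem Dl_int (l : List (ℤ × ℤ)) {f : ℤ × ℤ → ℝ} (hf : ∀ x, ∃ z : ℤ, f x = z) :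
    ∀ x, ∃ z : ℤ, Dl l f x = z := by
  induction l with
  | nil => exact hf
  | cons h l ih =>
    intro x
    obtain ⟨a, ha⟩ := ih (x + h)
    obtain ⟨b, hb⟩ := ih x
    exact ⟨a - b, by simp only [Dl, ha, hb, Int.cast_sub]⟩

/-- Along a period, congruent steps act as the forward difference. -/
theorem Dl_line {l : List (ℤ × ℤ)} {W τ : ℤ × ℤ} (hl : ∀ h ∈ l, ∃ j : ℤ, h = τ + j • W)
    {f : ℤ × ℤ → ℝ} (hf : Inv W f) (x : ℤ × ℤ) :
    ∀ n : ℤ, Dl l f (x + n • τ) = (fwdDiff 1)^[l.length] (fun k : ℤ => f (x + k • τ)) n := by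
  induction l with
  | nil => intro n; rfl
  | cons h l ih =>
    have ih' := ih fun k hk => hl k (List.mem_cons_of_mem _ hk)
    intro n
    obtain ⟨j, rfl⟩ := hl h List.mem_cons_self
    simp only [Dl, List.length_cons, Function.iterate_succ_apply']
    rw [show x + n • τ + (τ + j • W) = x + (n + 1) • τ + j • W by
      rw [add_smul, one_smul]; abel]
    rw [(Dl_inv l hf).zsmul j, ih', ih']
    rfl

/-- If `f` vanishes at the points the operator reads, the result vanishes. -/
theorem Dl_vanish {l : List (ℤ × ℤ)} {W τ : ℤ × ℤ} (hl : ∀ h ∈ l, ∃ j : ℤ, h = τ + j • W)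
    {f : ℤ × ℤ → ℝ} : ∀ x, (∀ (k : ℕ) (j : ℤ), f (x + (k : ℤ) • τ + j • W) = 0) → Dl l f x = 0 := by
  induction l with
  | nil => intro x h; simp only [Dl]; simpa using h 0 0
  | cons h l ih =>
    intro x hx
    obtain ⟨j, rfl⟩ := hl h List.mem_cons_self
    have ih' := ih fun k hk => hl k (List.mem_cons_of_mem _ hk)
    simp only [Dl]
    rw [ih' x hx, ih' _ fun k j' => ?_, sub_self]
    have := hx (k + 1) (j + j')
    rw [show x + (τ + j • W) + (k : ℤ) • τ + j' • W = x + ((k + 1 : ℕ) : ℤ) • τ + (j + j') • W by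
      push_cast; rw [add_smul, add_smul, one_smul]; abel]
    exact this

end Vale.Agent.P043.Rows
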