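import Vale.Agent.P043.Rows.PlaneBasic
import Vale.Agent.P043.Rows.PlaneSeq

/-!
Helper for P043: a set plus nonnegative functions with pairwise independent periods summing to one
splits into singly periodic pieces.
-/

namespace Vale.Agent.P043.Rows

open Finset

/-- The indicator with real values. -/
noncomputable def ind (A : Set (ℤ × ℤ)) : ℤ × ℤ → ℝ := A.indicator 1

theorem ind_cases (A : Set (ℤ × ℤ)) (x : ℤ × ℤ) :
    (x ∈ A ∧ ind A x = 1) ∨ (x ∉ A ∧ ind A x = 0) := by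
  by_cases h : x ∈ A
  · exact Or.inl ⟨h, by simp [ind, h]⟩
  · exact Or.inr ⟨h, by simp [ind, h]⟩

variable {m : ℕ} {W : Fin m → ℤ × ℤ}

/-- Congruent multiples of the other periods. -/
theorem exists_steps (hW : ∀ i, W i ≠ 0) (hdet : ∀ i j, i ≠ j → pdet (W i) (W j) ≠ 0) (i : Fin m) :
    ∃ (τ : ℤ × ℤ) (l : List (ℤ × ℤ)), pdet (W i) τ ≠ 0 ∧
      (∀ h ∈ l, ∃ j : ℤ, h = τ + j • W i) ∧ ∀ j, j ≠ i → ∃ h ∈ l, ∃ k : ℤ, h = k • W j := by
  set P : ℤ := ∏ j ∈ univ.erase i, pdet (W i) (W j)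
  have hP : P ≠ 0 := prod_ne_zero_iff.2 fun j hj => hdet i j (ne_of_mem_erase hj).symm
  set u : Fin m → ℤ × ℤ := fun j => (P / pdet (W i) (W j)) • W j
  have hu : ∀ j, j ≠ i → pdet (W i) (u j) = P := fun j hj => by
    rw [pdet_smul_right]
    exact Int.ediv_mul_cancel (dvd_prod_of_mem _ (mem_erase.2 ⟨hj, mem_univ j⟩))
  by_cases h0 : ∃ j, j ≠ i
  · obtain ⟨j₀, hj₀⟩ := h0
    refine ⟨kap (W i) • u j₀, (univ.erase i).toList.map fun j => kap (W i) • u j, ?_, ?_, ?_⟩
    · rw [pdet_smul_right, hu j₀ hj₀]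
      exact mul_ne_zero (kap_ne (hW i)) hP
    · intro h hh
      obtain ⟨j, hj, rfl⟩ := List.mem_map.1 hh
      rw [mem_toList, mem_erase] at hj
      refine ⟨kapOf (W i) (u j - u j₀), ?_⟩
      rw [← kap_smul (hW i) (by rw [pdet_sub_right, hu j hj.1, hu j₀ hj₀, sub_self]), smul_sub]
      abel
    · intro j hj
      exact ⟨_, List.mem_map.2 ⟨j, mem_toList.2 (mem_erase.2 ⟨hj, mem_univ j⟩), rfl⟩,
        kap (W i) * (P / pdet (W i) (W j)), by simp only [u, mul_smul]⟩
  · refine ⟨(-(W i).2, (W i).1), [], ?_, by simp, fun j hj => absurd ⟨j, hj⟩ h0⟩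
    intro h
    simp only [pdet] at h
    exact hW i (Prod.ext (mul_self_eq_zero.1 (by nlinarith [mul_self_nonneg (W i).1, mul_self_nonneg (W i).2] : (W i).1 * (W i).1 = 0))
      (mul_self_eq_zero.1 (by nlinarith [mul_self_nonneg (W i).1, mul_self_nonneg (W i).2] : (W i).2 * (W i).2 = 0)))

/-- The operator kills all functions but the `i`-th. -/
theorem Dl_others {φ : Fin m → ℤ × ℤ → ℝ} (hinv : ∀ j, Inv (W j) (φ j)) {l : List (ℤ × ℤ)}
    (i : Fin m) (hl : ∀ j, j ≠ i → ∃ h ∈ l, ∃ k : ℤ, h = k • W j) (x : ℤ × ℤ) :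
    Dl l (fun y => ∑ j, φ j y) x = Dl l (φ i) x := by
  rw [Dl_sum, sum_eq_single i]
  · intro j _ hj
    obtain ⟨h, hh, k, rfl⟩ := hl j hj
    exact Dl_eq_zero hh ((hinv j).zsmul k) x
  · simp

/-- Along every line in the direction of the step, `ψ i` is periodic modulo one. -/
theorem per1_line (A : Set (ℤ × ℤ)) {ψ : Fin m → ℤ × ℤ → ℝ} (h0 : ∀ i x, 0 ≤ ψ i x)
    (hinv : ∀ i, Inv (W i) (ψ i)) (hsum : ∀ x, ind A x + ∑ i, ψ i x = 1) (i : Fin m)
    {τ : ℤ × ℤ} {l : List (ℤ × ℤ)} (hl : ∀ h ∈ l, ∃ j : ℤ, h = τ + j • W i)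
    (hothers : ∀ j, j ≠ i → ∃ h ∈ l, ∃ k : ℤ, h = k • W j) (x : ℤ × ℤ) :
    Per1 fun n : ℤ => ψ i (x + n • τ) := by
  set g : ℤ → ℝ := fun n => ψ i (x + n • τ)
  have hone : ∀ y, Dl l (ind A) y + Dl l (ψ i) y = Dl l (fun _ => 1) y := fun y => by
    rw [← Dl_others hinv i hothers y, ← Dl_add]
    exact congrArg (fun f => Dl l f y) (funext hsum)
  have hint : ∀ n, IsI ((fwdDiff 1)^[l.length] g n) := fun n => by
    rw [← Dl_line hl (hinv i) x n, eq_sub_of_add_eq' (hone _)]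
    refine IsI.sub (Dl_int l (fun _ => ⟨1, by simp⟩) _) (Dl_int l (fun y => ?_) _)
    rcases ind_cases A y with ⟨-, h⟩ | ⟨-, h⟩
    · exact ⟨1, by simp [h]⟩
    · exact ⟨0, by simp [h]⟩
  by_cases hinf : {n : ℤ | IsI (g n)}.Infinite
  · exact per1_of_infinite hint hinf
  obtain ⟨M, hM⟩ := (Set.not_infinite.1 hinf).bddAbove
  have hno : ∀ n ≥ M + 1, ¬ IsI (g n) := fun n hn h => by
    have := hM (show n ∈ {n : ℤ | IsI (g n)} from h)
    omega
  have hne : l ≠ [] := by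
    rintro rfl
    exact hno (M + 1) le_rfl (hint (M + 1))
  have hzero : ∀ n ≥ M + 1, (fwdDiff 1)^[l.length] g n = 0 := fun n hn => by
    rw [← Dl_line hl (hinv i) x n, eq_sub_of_add_eq' (hone _), Dl_const l 1 hne,
      Dl_vanish hl _ fun k j => ?_, sub_zero]
    have hg : ψ i (x + n • τ + (k : ℤ) • τ + j • W i) = g (n + k) := by
      rw [(hinv i).zsmul j, add_assoc, ← add_smul]
    rcases ind_cases A (x + n • τ + (k : ℤ) • τ + j • W i) with ⟨-, h⟩ | ⟨-, h⟩
    · exfalso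
      have hs := hsum (x + n • τ + (k : ℤ) • τ + j • W i)
      rw [h, add_eq_left, sum_eq_zero_iff_of_nonneg fun i _ => h0 i _] at hs
      have := hs i (mem_univ i)
      rw [hg] at this
      exact hno (n + k) (by omega) ⟨0, by simp [this]⟩
    · exact h
  obtain ⟨r, hr⟩ : ∃ r, l.length = r + 1 :=
    ⟨l.length - 1, by have := List.length_pos_of_ne_nil hne; omega⟩
  rw [hr] at hzero
  have hbd : ∀ n, |g n| ≤ 1 := fun n => by
    have h1 : ψ i (x + n • τ) ≤ ∑ j, ψ j (x + n • τ) :=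
      single_le_sum (fun j _ => h0 j _) (mem_univ i)
    have h2 := hsum (x + n • τ)
    have h3 : 0 ≤ ind A (x + n • τ) := by
      rcases ind_cases A (x + n • τ) with ⟨-, h⟩ | ⟨-, h⟩ <;> rw [h]; norm_num
    simp only [g]
    exact abs_le.2 ⟨by linarith [h0 i (x + n • τ)], by linarith⟩
  have hconst := const_of_bounded r g 1 (M + 1) hbd hzero
  have hc : ∀ k : ℕ, g (M + 1 + k) = g (M + 1) := fun k => by
    induction k with
    | zero => simp
    | succ k ih => rw [Nat.cast_succ, ← add_assoc, hconst _ (by omega), ih]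
  obtain ⟨L, hL, hper⟩ := per1_of_infinite (r := l.length) (g := fun n => g n - g (M + 1))
    (fun n => by
      rw [show (fun n => g n - g (M + 1)) = g - fun _ => g (M + 1) from rfl, fwdDiff_iter_sub]
      refine (hint n).sub ?_
      rw [hr, Function.iterate_succ_apply, show fwdDiff 1 (fun _ : ℤ => g (M + 1)) = fun _ => (0 : ℝ)
        from funext fun t => sub_self _]
      have hz : ∀ s : ℕ, (fwdDiff 1)^[s] (fun _ : ℤ => (0 : ℝ)) = fun _ => 0 := fun s => by
        induction s with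
        | zero => rfl
        | succ s ih => rw [Function.iterate_succ_apply', ih]; funext t; simp [fwdDiff]
      rw [hz]
      exact isI_zero)
    ((Set.Ici_infinite (M + 1)).mono fun n hn => by
      obtain ⟨k, rfl⟩ : ∃ k : ℕ, n = M + 1 + k := ⟨(n - (M + 1)).toNat, by
        have := Set.mem_Ici.1 hn; omega⟩
      exact ⟨0, by simp [hc k]⟩)
  exact ⟨L, hL, fun n => by simpa using hper n⟩

/-- Modulo one, all `ψ i` have the periods `L • ℤ²`. -/
theorem exists_mod1_period (hW : ∀ i, W i ≠ 0) (hdet : ∀ i j, i ≠ j → pdet (W i) (W j) ≠ 0)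
    (A : Set (ℤ × ℤ)) {ψ : Fin m → ℤ × ℤ → ℝ} (h0 : ∀ i x, 0 ≤ ψ i x)
    (hinv : ∀ i, Inv (W i) (ψ i)) (hsum : ∀ x, ind A x + ∑ i, ψ i x = 1) :
    ∃ L : ℤ, 0 < L ∧ ∀ i y v, IsI (ψ i (y + L • v) - ψ i y) := by
  classical
  have key : ∀ i, ∃ L : ℤ, 0 < L ∧ ∀ y v, IsI (ψ i (y + L • v) - ψ i y) := by
    intro i
    obtain ⟨τ, l, hd, hl, ho⟩ := exists_steps hW hdet i
    choose Lx hLx hper using fun x => per1_line A h0 hinv hsum i hl ho x
    set d := pdet (W i) τ
    set e := |d| with he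
    have he0 : 0 < e := abs_pos.2 hd
    set B := Finset.Ico (0 : ℤ) e ×ˢ Finset.Ico (0 : ℤ) e with hB
    set K : ℕ := ∏ x ∈ B, Lx x with hK
    have hK0 : 0 < K := Finset.prod_pos fun x _ => hLx x
    refine ⟨e * K, mul_pos he0 (by exact_mod_cast hK0), fun y v => ?_⟩
    set x : ℤ × ℤ := (y.1 % e, y.2 % e)
    set q : ℤ × ℤ := (y.1 / e, y.2 / e)
    have hy : y = x + e • q := by
      ext <;> simp [x, q, Int.emod_add_mul_ediv]
    have hx : x ∈ B := by
      simp [hB, x, Int.emod_nonneg _ he0.ne', Int.emod_lt_of_pos _ he0]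
    obtain ⟨σ, hσ⟩ : ∃ σ : ℤ, e = σ * d := by
      rcases abs_choice d with h | h
      · exact ⟨1, by rw [he, h, one_mul]⟩
      · exact ⟨-1, by rw [he, h]; ring⟩
    have hg : ∀ w : ℤ × ℤ, ψ i (x + e • w) = ψ i (x + (σ * pdet (W i) w) • τ) := fun w => by
      rw [hσ, mul_smul σ, cramer (W i) τ w, smul_add, smul_smul, smul_smul, add_left_comm,
        add_comm (((σ * pdet w τ)) • W i), (hinv i).zsmul]
    obtain ⟨k, hk⟩ : Lx x ∣ K := dvd_prod_of_mem _ hx
    rw [hy, add_assoc, mul_smul e, ← smul_add, hg, hg, pdet_add_right, pdet_smul_right, mul_add,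
      show σ * ((K : ℤ) * pdet (W i) v) = (σ * pdet (W i) v * k) * (Lx x : ℤ) by
        rw [hk]; push_cast; ring]
    exact Per1.mul (g := fun n : ℤ => ψ i (x + n • τ)) (hper x) _ _
  choose Li hLi hper using key
  refine ⟨∏ i, Li i, Finset.prod_pos fun i _ => hLi i, fun i y v => ?_⟩
  rw [← mul_prod_erase univ Li (mem_univ i), mul_smul]
  exact hper i y _

/-- The splitting into singly periodic pieces. -/
theorem exists_split (hm : 0 < m) (hW : ∀ i, W i ≠ 0)
    (hdet : ∀ i j, i ≠ j → pdet (W i) (W j) ≠ 0)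
    (A : Set (ℤ × ℤ)) {ψ : Fin m → ℤ × ℤ → ℝ} (h0 : ∀ i x, 0 ≤ ψ i x)
    (hinv : ∀ i, Inv (W i) (ψ i)) (hsum : ∀ x, ind A x + ∑ i, ψ i x = 1) :
    ∃ L : ℤ, L ≠ 0 ∧ ∃ idx : ℤ × ℤ → Fin m, ∀ i, Inv (L • W i) fun x => x ∈ A ∧ idx x = i := by
  classical
  obtain ⟨L₀, hL₀, hper⟩ := exists_mod1_period hW hdet A h0 hinv hsum
  set Q : ℤ := ∏ p ∈ (univ : Finset (Fin m × Fin m)).filter (fun p => p.1 ≠ p.2),
    |pdet (W p.1) (W p.2)| with hQ
  have hQ0 : 0 < Q := Finset.prod_pos fun p hp => abs_pos.2 (hdet _ _ (mem_filter.1 hp).2)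
  set L := L₀ * Q with hLdef
  have hL : 0 < L := mul_pos hL₀ hQ0
  let rep : ℤ × ℤ → ℤ × ℤ := fun y => (y.1 % L, y.2 % L)
  have hrep : ∀ x y, rep y = rep x → ∃ v, y = x + L • v := fun x y h => by
    simp only [rep, Prod.mk.injEq] at h
    obtain ⟨c, hc⟩ := Int.ModEq.dvd h.1.symm
    obtain ⟨c', hc'⟩ := Int.ModEq.dvd h.2.symm
    exact ⟨(c, c'), by ext <;> simp <;> linarith⟩
  have hrep' : ∀ (y v : ℤ × ℤ), rep (y + L • v) = rep y := fun y v => by simp [rep]
  have hclass : ∀ i x y, rep y = rep x → IsI (ψ i y - ψ i x) := fun i x y h => by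
    obtain ⟨v, rfl⟩ := hrep x y h
    rw [hLdef, mul_smul]
    exact hper i x _
  have hne : Nonempty (Fin m) := ⟨⟨0, hm⟩⟩
  have hchoice : ∀ x, ∃ i, ∀ y, rep y = rep x → y ∈ A →
      y + L • W i ∈ A ∧ y - L • W i ∈ A := by
    intro x
    by_cases hnon : ∃ i, ¬ IsI (ψ i x)
    · obtain ⟨i, hi⟩ := hnon
      refine ⟨i, fun y hy hyA => absurd ?_ hi⟩
      have hs := hsum y
      rcases ind_cases A y with ⟨-, h⟩ | ⟨h', -⟩
      · rw [h, add_eq_left, sum_eq_zero_iff_of_nonneg fun i _ => h0 i _] at hs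
        have := hclass i y x hy.symm
        rwa [hs i (mem_univ i), sub_zero] at this
      · exact absurd hyA h'
    simp only [not_exists, not_not] at hnon
    have hI : ∀ i y, rep y = rep x → IsI (ψ i y) := fun i y hy => by
      have := (hclass i x y hy).add (hnon i)
      rwa [sub_add_cancel] at this
    obtain ⟨i₀, hi₀⟩ : ∃ i₀, ∀ j, j ≠ i₀ → ∀ y, rep y = rep x → ψ j y = 0 := by
      by_cases hsome : ∃ i y, rep y = rep x ∧ ψ i y ≠ 0
      · obtain ⟨i, y, hy, hne'⟩ := hsome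
        refine ⟨i, fun j hji y' hy' => by_contra fun hne'' => ?_⟩
        obtain ⟨v, hv⟩ := hrep y y' (hy'.trans hy.symm)
        obtain ⟨c, hc⟩ : pdet (W i) (W j) ∣ L := by
          refine Dvd.dvd.mul_left ?_ _
          rw [← abs_dvd]
          exact dvd_prod_of_mem (fun p : Fin m × Fin m => |pdet (W p.1) (W p.2)|)
            (show (i, j) ∈ _ from mem_filter.2 ⟨mem_univ _, fun h => hji h.symm⟩)
        have ei : ψ i (y + (c * pdet v (W j)) • W i) = ψ i y := (hinv i).zsmul _ y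
        have ej : ψ j (y + (c * pdet v (W j)) • W i) = ψ j y' := by
          rw [← (hinv j).zsmul (c * pdet (W i) v) (y + (c * pdet v (W j)) • W i)]
          congr 1
          rw [hv, hc, mul_comm _ c, mul_smul c (pdet (W i) (W j)), cramer (W i) (W j) v, smul_add,
            smul_smul, smul_smul, add_assoc]
        have pos : ∀ i y, rep y = rep x → ψ i y ≠ 0 → 1 ≤ ψ i y := fun i y hy hne => by
          obtain ⟨z, hz⟩ := hI i y hy
          have : (0 : ℤ) < z := by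
            have := lt_of_le_of_ne (h0 i y) (Ne.symm hne)
            rw [hz] at this
            exact_mod_cast this
          rw [hz]
          exact_mod_cast this
        have hs := hsum (y + (c * pdet v (W j)) • W i)
        have h2 : ψ i (y + (c * pdet v (W j)) • W i) + ψ j (y + (c * pdet v (W j)) • W i)
            ≤ ∑ k, ψ k (y + (c * pdet v (W j)) • W i) := by
          refine (le_of_eq (sum_pair (f := fun k => ψ k (y + (c * pdet v (W j)) • W i))
            (Ne.symm hji)).symm).trans ?_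
          exact sum_le_sum_of_subset_of_nonneg (subset_univ _) fun k _ _ => h0 k _
        have h3 : 0 ≤ ind A (y + (c * pdet v (W j)) • W i) := by
          rcases ind_cases A (y + (c * pdet v (W j)) • W i) with ⟨-, h⟩ | ⟨-, h⟩ <;> rw [h]
          norm_num
        linarith [pos i y hy hne', pos j y' hy' hne'', ei, ej]
      · refine ⟨⟨0, hm⟩, fun j _ y hy => by_contra fun h => hsome ⟨j, y, hy, h⟩⟩
    refine ⟨i₀, fun y hy hyA => ?_⟩
    have hzero : ψ i₀ y = 0 := by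
      have hs := hsum y
      rcases ind_cases A y with ⟨-, h⟩ | ⟨h', -⟩
      · rw [h, add_eq_left, sum_eq_zero_iff_of_nonneg fun i _ => h0 i _] at hs
        exact hs i₀ (mem_univ _)
      · exact absurd hyA h'
    have hmem : ∀ k : ℤ, y + k • L • W i₀ ∈ A := by
      intro k
      have hr : rep (y + k • L • W i₀) = rep x := by
        rw [smul_comm, hrep']; exact hy
      have hs := hsum (y + k • L • W i₀)
      rw [sum_eq_single i₀ (fun j _ hj => hi₀ j hj _ hr) (by simp),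
        ((hinv i₀).zsmul L).zsmul k, hzero, add_zero] at hs
      rcases ind_cases A (y + k • L • W i₀) with ⟨h, -⟩ | ⟨-, h⟩
      · exact h
      · rw [h] at hs; norm_num at hs
    exact ⟨by simpa using hmem 1, by simpa [sub_eq_add_neg] using hmem (-1)⟩
  let P : ℤ × ℤ → Fin m → Prop := fun r i => ∀ y, rep y = r → y ∈ A →
    y + L • W i ∈ A ∧ y - L • W i ∈ A
  let cho : ℤ × ℤ → Fin m := fun r => if h : ∃ i, P r i then h.choose else ⟨0, hm⟩
  refine ⟨L, hL.ne', fun x => cho (rep x), fun i x => ?_⟩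
  have hc : ∀ x, P (rep x) (cho (rep x)) := fun x => by
    obtain ⟨i, hi⟩ := hchoice x
    have h : ∃ i, P (rep x) i := ⟨i, hi⟩
    simp only [cho, dif_pos h]
    exact h.choose_spec
  simp only [hrep', eq_iff_iff]
  constructor
  · rintro ⟨hA, rfl⟩
    refine ⟨?_, rfl⟩
    have := (hc x (x + L • W (cho (rep x))) (hrep' _ _) hA).2
    rwa [add_sub_cancel_right] at this
  · rintro ⟨hA, rfl⟩
    exact ⟨(hc x x rfl hA).1, rfl⟩

end Vale.Agent.P043.Rows
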